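import Vale.Agent.P048C.Dirac

/-!
# Colouring inside a set, critical subsets

A set that can be coloured with `t` colours has at most `t` times as many members as its
independent subsets; any other set contains a critical subset: inner degrees at least `t`, no
vertex disconnects it, hence Dirac's cycle.
-/

namespace Vale.Agent.P048C

open Finset

variable {V : Type*} {G : SimpleGraph V} {s U : Finset V} {t : ℕ}

/-- `s` has a proper colouring with `t` colours. -/
def ColorableIn (G : SimpleGraph V) (s : Finset V) (t : ℕ) : Prop :=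
  ∃ c : V → ℕ, (∀ x ∈ s, c x < t) ∧ ∀ x ∈ s, ∀ y ∈ s, G.Adj x y → c x ≠ c y

theorem ColorableIn.subset (h : ColorableIn G s t) (hU : U ⊆ s) : ColorableIn G U t := by
  obtain ⟨c, hc, hp⟩ := h
  exact ⟨c, fun x hx => hc x (hU hx), fun x hx y hy => hp x (hU hx) y (hU hy)⟩

/-- A coloured set is at most `t` times its independence number. -/
theorem ColorableIn.card_le (h : ColorableIn G s t) {a : ℕ}
    (ha : ∀ I ⊆ s, (∀ x ∈ I, ∀ y ∈ I, ¬ G.Adj x y) → I.card ≤ a) : s.card ≤ t * a := by
  classical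
  obtain ⟨c, hc, hp⟩ := h
  have := Finset.card_le_mul_card_image_of_maps_to (f := c) (s := s) (t := Finset.range t)
    (fun x hx => Finset.mem_range.2 (hc x hx)) a fun b _ => ha _ (Finset.filter_subset _ _)
      fun x hx y hy e => by
        rw [Finset.mem_filter] at hx hy
        exact hp x hx.1 y hy.1 e (hx.2.trans hy.2.symm)
  rw [Finset.card_range, mul_comm] at this
  exact this

theorem colorableIn_of_card_le (h : s.card ≤ t) : ColorableIn G s t := by
  classical
  let c : V → ℕ := fun x => if hx : x ∈ s then (s.equivFin ⟨x, hx⟩).val else 0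
  refine ⟨c, fun x hx => ?_, fun x hx y hy e h' => ?_⟩
  · simp only [c, dif_pos hx]
    exact lt_of_lt_of_le (Fin.isLt _) h
  · simp only [c, dif_pos hx, dif_pos hy] at h'
    exact e.ne (congrArg Subtype.val (s.equivFin.injective (Fin.ext h')))

/-- A smallest subset that cannot be coloured. -/
structure Critical (G : SimpleGraph V) (t : ℕ) (U : Finset V) : Prop where
  not_col : ¬ ColorableIn G U t
  col : ∀ W ⊆ U, W ≠ U → ColorableIn G W t

theorem exists_critical (h : ¬ ColorableIn G s t) : ∃ U ⊆ s, Critical G t U := by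
  classical
  obtain ⟨U, hU, hmin⟩ := Finset.exists_min_image (s.powerset.filter fun W => ¬ ColorableIn G W t)
    Finset.card ⟨s, by simp [h]⟩
  simp only [Finset.mem_filter, Finset.mem_powerset] at hU hmin
  refine ⟨U, hU.1, hU.2, fun W hW hne => by_contra fun hn => ?_⟩
  have h1 := hmin W ⟨hW.trans hU.1, hn⟩
  exact hne (Finset.eq_of_subset_of_card_le hW h1)

theorem Critical.deg (hU : Critical G t U) : ∀ x ∈ U, t ≤ degIn G U x := by
  classical
  intro x hx
  by_contra hlt
  obtain ⟨c, hc, hp⟩ := hU.col (U.erase x) (Finset.erase_subset x U)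
    (fun e => (Finset.mem_erase.1 (e.symm ▸ hx : x ∈ U.erase x)).1 rfl)
  let N := (U.filter fun y => G.Adj x y).image c
  obtain ⟨k, hk, hkN⟩ : ∃ k ∈ Finset.range t, k ∉ N := Finset.exists_mem_notMem_of_card_lt_card (by
    rw [Finset.card_range]
    refine lt_of_le_of_lt Finset.card_image_le ?_
    simp only [degIn, not_le] at hlt
    exact hlt)
  refine hU.not_col ⟨fun y => if y = x then k else c y, fun y hy => ?_, fun y hy z hz e => ?_⟩
  · by_cases hyx : y = x
    · simpa [hyx] using hk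
    · simpa [hyx] using hc y (Finset.mem_erase.2 ⟨hyx, hy⟩)
  · have hN : ∀ w ∈ U, G.Adj x w → c w ≠ k := fun w hw hxw h' =>
      hkN (Finset.mem_image.2 ⟨w, Finset.mem_filter.2 ⟨hw, hxw⟩, h'⟩)
    by_cases hyx : y = x <;> by_cases hzx : z = x
    · exact absurd (hyx.trans hzx.symm) e.ne
    · simp only [if_pos hyx, if_neg hzx]; exact (hN z hz (hyx ▸ e)).symm
    · simp only [if_neg hyx, if_pos hzx]; exact hN y hy (hzx ▸ e.symm)
    · simp only [if_neg hyx, if_neg hzx]
      exact hp y (Finset.mem_erase.2 ⟨hyx, hy⟩) z (Finset.mem_erase.2 ⟨hzx, hz⟩) e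

theorem Critical.lt_card (hU : Critical G t U) : t < U.card :=
  not_le.1 fun h => hU.not_col (colorableIn_of_card_le h)

/-- No vertex disconnects a critical set. -/
theorem Critical.linked [DecidableEq V] (hU : Critical G t U) (v : V) :
    Linked G (U.erase v) := by
  classical
  intro T hT hT0 hTne
  by_contra hno
  push Not at hno
  obtain ⟨r, hr, hrT⟩ : ∃ r ∈ U.erase v, r ∉ T := by
    by_contra h
    push Not at h
    exact hTne (Finset.Subset.antisymm hT h)
  obtain ⟨x, hx⟩ := hT0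
  have hsub : ∀ {W : Finset V} {z : V}, W ⊆ U → z ∈ U → z ∉ W → ColorableIn G W t :=
    fun hW hz hzW => hU.col _ hW fun e => hzW (e.symm ▸ hz)
  obtain ⟨c₁, h₁, p₁⟩ := hsub (W := U.filter fun y => y ∈ T ∨ y = v) (Finset.filter_subset _ _)
    (Finset.mem_of_mem_erase hr) (by simp [hrT, (Finset.mem_erase.1 hr).1])
  obtain ⟨c₂, h₂, p₂⟩ := hsub (W := U.filter fun y => y ∉ T) (Finset.filter_subset _ _)
    (Finset.mem_of_mem_erase (hT hx)) (by simp [hx])
  let σ : ℕ ≃ ℕ := if v ∈ U then Equiv.swap (c₂ v) (c₁ v) else Equiv.refl ℕ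
  have hσ : ∀ y ∈ U, y ∉ T → σ (c₂ y) < t := by
    intro y hy hyT
    have hy2 := h₂ y (Finset.mem_filter.2 ⟨hy, hyT⟩)
    by_cases hv : v ∈ U
    · have a1 := h₁ v (Finset.mem_filter.2 ⟨hv, .inr rfl⟩)
      have a2 := h₂ v (Finset.mem_filter.2 ⟨hv, fun h => (Finset.mem_erase.1 (hT h)).1 rfl⟩)
      simp only [σ, if_pos hv, Equiv.swap_apply_def]
      split_ifs <;> assumption
    · simpa [σ, hv] using hy2
  have hv' : v ∈ U → σ (c₂ v) = c₁ v := fun hv => by simp [σ, hv]
  refine hU.not_col ⟨fun y => if y ∈ T then c₁ y else σ (c₂ y), fun y hy => ?_,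
    fun y hy z hz e => ?_⟩
  · by_cases hyT : y ∈ T
    · simpa [hyT] using h₁ y (Finset.mem_filter.2 ⟨hy, .inl hyT⟩)
    · simpa [hyT] using hσ y hy hyT
  · have cross : ∀ a ∈ U, ∀ b ∈ U, a ∈ T → b ∉ T → G.Adj a b → c₁ a ≠ σ (c₂ b) := by
      intro a ha b hb haT hbT hab
      by_cases hbv : b = v
      · subst hbv
        rw [hv' hb]
        exact p₁ a (Finset.mem_filter.2 ⟨ha, .inl haT⟩) b (Finset.mem_filter.2 ⟨hb, .inr rfl⟩) hab
      · exact absurd hab (hno a haT b (Finset.mem_erase.2 ⟨hbv, hb⟩) hbT)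
    by_cases hyT : y ∈ T <;> by_cases hzT : z ∈ T
    · simp only [if_pos hyT, if_pos hzT]
      exact p₁ y (Finset.mem_filter.2 ⟨hy, .inl hyT⟩) z (Finset.mem_filter.2 ⟨hz, .inl hzT⟩) e
    · simp only [if_pos hyT, if_neg hzT]; exact cross y hy z hz hyT hzT e
    · simp only [if_neg hyT, if_pos hzT]; exact (cross z hz y hy hzT hyT e.symm).symm
    · simp only [if_neg hyT, if_neg hzT]
      exact σ.injective.ne
        (p₂ y (Finset.mem_filter.2 ⟨hy, hyT⟩) z (Finset.mem_filter.2 ⟨hz, hzT⟩) e)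

/-- A critical set carries Dirac's cycle and cannot be coloured with two colours. -/
theorem Critical.exists_cycle [DecidableEq V] (hU : Critical G t U) (ht : 2 ≤ t) :
    ¬ ColorableIn G U 2 ∧ ∃ C, DiracCycle G U t C := by
  refine ⟨fun ⟨c, hc, hp⟩ => hU.not_col ⟨c, fun x hx => lt_of_lt_of_le (hc x hx) ht, hp⟩, ?_⟩
  exact exists_diracCycle' hU.linked
    (Finset.card_pos.1 (lt_of_le_of_lt (Nat.zero_le t) hU.lt_card)) ht hU.deg

/-- A layer either has at most `t * a` members, or contains a critical set. -/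
theorem card_le_or_critical {a : ℕ}
    (ha : ∀ I ⊆ s, (∀ x ∈ I, ∀ y ∈ I, ¬ G.Adj x y) → I.card ≤ a) :
    s.card ≤ t * a ∨ ∃ U ⊆ s, Critical G t U := by
  by_cases h : ColorableIn G s t
  · exact .inl (h.card_le ha)
  · exact .inr (exists_critical h)

end Vale.Agent.P048C
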