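import Vale.Agent.P048C.Base
import Vale.Agent.P048C.Critical

/-!
# Independence inside a set, and the minimal counterexample

`alphaIn G U` is the largest size of an independent subset of `U`. If no `Setup` exists, every set
of more than `a * d` vertices without `a + 1` independent members carries a cycle on `d + 1`
vertices (`a ≤ d`).
-/

namespace Vale.Agent.P048C

open Finset Vale.Agent.P048

variable {V : Type*} {G : SimpleGraph V}

open Classical in
/-- The largest size of an independent subset of `U`. -/
noncomputable def alphaIn (G : SimpleGraph V) (U : Finset V) : ℕ :=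
  (U.powerset.filter (Indep G)).sup Finset.card

theorem card_le_alphaIn {U I : Finset V} (hI : I ⊆ U) (h : Indep G I) : I.card ≤ alphaIn G U := by
  classical
  exact Finset.le_sup (f := Finset.card) (Finset.mem_filter.2 ⟨Finset.mem_powerset.2 hI, h⟩)

theorem exists_alphaIn (G : SimpleGraph V) (U : Finset V) :
    ∃ I ⊆ U, Indep G I ∧ I.card = alphaIn G U := by
  classical
  obtain ⟨I, hI, e⟩ := Finset.exists_mem_eq_sup (U.powerset.filter (Indep G))
    ⟨∅, Finset.mem_filter.2 ⟨Finset.empty_mem_powerset U, by simp [Indep]⟩⟩ Finset.card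
  rw [Finset.mem_filter, Finset.mem_powerset] at hI
  exact ⟨I, hI.1, hI.2, e.symm⟩

theorem alphaLe_alphaIn (G : SimpleGraph V) (U : Finset V) : AlphaLe G U (alphaIn G U) :=
  fun _ hI hi => card_le_alphaIn hI hi

theorem alphaIn_le {U : Finset V} {k : ℕ} (h : AlphaLe G U k) : alphaIn G U ≤ k := by
  obtain ⟨I, hI, hi, e⟩ := exists_alphaIn G U
  exact e ▸ h I hI hi

theorem alphaIn_mono {U W : Finset V} (h : U ⊆ W) : alphaIn G U ≤ alphaIn G W :=
  alphaIn_le fun _ hI hi => card_le_alphaIn (hI.trans h) hi

theorem alphaIn_of_indep {U : Finset V} (h : Indep G U) : alphaIn G U = U.card :=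
  le_antisymm (alphaIn_le fun _ hI _ => Finset.card_le_card hI) (card_le_alphaIn le_rfl h)

/-- Disjoint parts without an edge between them add up. -/
theorem alphaIn_union [DecidableEq V] {U W : Finset V} (hd : Disjoint U W)
    (he : ∀ x ∈ U, ∀ y ∈ W, ¬ G.Adj x y) : alphaIn G U + alphaIn G W ≤ alphaIn G (U ∪ W) := by
  obtain ⟨I, hI, hi, eI⟩ := exists_alphaIn G U
  obtain ⟨J, hJ, hj, eJ⟩ := exists_alphaIn G W
  rw [← eI, ← eJ, ← Finset.card_union_of_disjoint (hd.mono hI hJ)]
  refine card_le_alphaIn (Finset.union_subset_union hI hJ) fun x hx y hy => ?_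
  rcases Finset.mem_union.1 hx with hx | hx <;> rcases Finset.mem_union.1 hy with hy | hy
  · exact hi x hx y hy
  · exact he x (hI hx) y (hJ hy)
  · exact fun e => he y (hI hy) x (hJ hx) e.symm
  · exact hj x hx y hy

theorem ColorableIn.card_le_alphaIn {U : Finset V} {t : ℕ} (h : ColorableIn G U t) :
    U.card ≤ t * alphaIn G U :=
  h.card_le fun _ hI hi => Vale.Agent.P048C.card_le_alphaIn hI hi

theorem Setup.alphaIn_le_a {U : Finset V} {d a : ℕ} (h : Setup G U d a) : alphaIn G U ≤ a :=
  alphaIn_le h.alpha

theorem Setup.card_le {U W : Finset V} {d a : ℕ} (h : Setup G U d a) (hW : W ⊆ U)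
    (ha : alphaIn G W < a) : W.card ≤ alphaIn G W * d :=
  h.small W hW _ ha (alphaLe_alphaIn G W)

/-- If no smallest counterexample exists, every large set of small independence has the cycle. -/
theorem cyc_of_no_setup {d : ℕ} (H : ∀ (U : Finset V) (a : ℕ), Setup G U d a → False) :
    ∀ (a : ℕ), a ≤ d → ∀ U : Finset V, AlphaLe G U a → a * d < U.card → Cyc G (d + 1) := by
  classical
  intro a
  induction a using Nat.strong_induction_on with
  | _ a ih =>
    intro had U hα hU
    by_contra hno
    have hsmall : ∀ W ⊆ U, ∀ k < a, AlphaLe G W k → W.card ≤ k * d := by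
      intro W _ k hk hW
      by_contra hlt
      exact hno (ih k hk (by omega) W hW (by omega))
    refine H U a ⟨hα, had, hU, hsmall, fun x hx => ?_, hno⟩
    by_contra hlt
    let W := (U.filter fun y => ¬ G.Adj x y).erase x
    have hWU : W ⊆ U := (Finset.erase_subset _ _).trans (Finset.filter_subset _ _)
    have h1 : alphaIn G {x} = 1 := by rw [alphaIn_of_indep (by simp [Indep])]; simp
    have h2 := alphaIn_union (G := G) (U := {x}) (W := W) (by simp [W]) (by
      simp only [Finset.mem_singleton, W, Finset.mem_erase, Finset.mem_filter]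
      rintro _ rfl y ⟨-, -, hy⟩
      exact hy)
    have h3 : alphaIn G ({x} ∪ W) ≤ a :=
      (alphaIn_mono (Finset.union_subset (Finset.singleton_subset_iff.2 hx) hWU)).trans
        (alphaIn_le hα)
    have h4 := hsmall W hWU (alphaIn G W) (by omega) (alphaLe_alphaIn G W)
    have h5 : W.card + 1 + degIn G U x = U.card := by
      rw [Finset.card_erase_add_one (Finset.mem_filter.2 ⟨hx, G.irrefl⟩), degIn, add_comm]
      convert Finset.card_filter_add_card_filter_not (s := U) (fun y => G.Adj x y) using 2
    have h6 : (alphaIn G W + 1) * d ≤ a * d := Nat.mul_le_mul_right d (by omega)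
    rw [add_mul, one_mul] at h6
    omega

end Vale.Agent.P048C
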