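import Vale.Agent.P048C.Ore

/-!
# Dirac's bound on the circumference

If no single vertex disconnects `s` and every member has at least `k` neighbours inside, then `s`
carries a cycle on at least `min |s| (2 k)` vertices, one of whose vertices has `k` neighbours on
the cycle. The ends of a longest path are used; when their neighbours do not interleave, ears
that jump as far as possible join the two sides.
-/

namespace Vale.Agent.P048C

open Finset

variable {V : Type*} {G : SimpleGraph V} {s : Finset V}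

/-- Every proper nonempty part has an edge to the rest. -/
def Linked (G : SimpleGraph V) (s : Finset V) : Prop :=
  ∀ T ⊆ s, T.Nonempty → T ≠ s → ∃ a ∈ T, ∃ b ∈ s, b ∉ T ∧ G.Adj a b

/-- A cycle inside `s`, listed once around. -/
structure CycleIn (G : SimpleGraph V) (s : Finset V) (C : List V) : Prop where
  nodup : C.Nodup
  three_le : 3 ≤ C.length
  mem : ∀ z ∈ C, z ∈ s
  chain : C.IsChain G.Adj
  closed : ∀ a ∈ C.head?, ∀ z ∈ C.getLast?, G.Adj z a

/-- The members `p (a+1), …, p b`. -/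
def seg (p : ℕ → V) (a b : ℕ) : List V := (List.range (b - a)).map fun t => p (a + 1 + t)

theorem mem_seg {p : ℕ → V} {a b : ℕ} {z : V} :
    z ∈ seg p a b ↔ ∃ q, a < q ∧ q ≤ b ∧ p q = z := by
  simp only [seg, List.mem_map, List.mem_range]
  constructor
  · rintro ⟨t, ht, rfl⟩; exact ⟨a + 1 + t, by omega, by omega, rfl⟩
  · rintro ⟨q, h1, h2, rfl⟩; exact ⟨q - a - 1, by omega, by rw [show a + 1 + (q - a - 1) = q by omega]⟩

theorem length_seg (p : ℕ → V) (a b : ℕ) : (seg p a b).length = b - a := by simp [seg]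

theorem getLast_cons_seg (p : ℕ → V) {a b : ℕ} (h : a ≤ b) :
    (p a :: seg p a b).getLast? = some (p b) := by
  rcases eq_or_lt_of_le h with rfl | h
  · simp [seg]
  · rw [seg, show b - a = (b - a - 1) + 1 by omega, List.range_succ, List.map_append,
      List.map_singleton, ← List.cons_append, List.getLast?_concat]
    congr 2; omega

/-- A longest path of `s`. -/
structure LongPath (G : SimpleGraph V) (s : Finset V) (p : ℕ → V) (l : ℕ) : Prop where
  inj : ∀ i ≤ l, ∀ j ≤ l, p i = p j → i = j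
  mem : ∀ i ≤ l, p i ∈ s
  adj : ∀ i < l, G.Adj (p i) (p (i + 1))
  max : ∀ L : List V, L.Nodup → L.IsChain G.Adj → (∀ z ∈ L, z ∈ s) → L.length ≤ l + 1

theorem exists_longPath (hs : s.Nonempty) : ∃ p l, LongPath G s p l := by
  classical
  obtain ⟨x, hx⟩ := hs
  let Q : ℕ → Prop := fun n =>
    ∃ L : List V, L.Nodup ∧ L.IsChain G.Adj ∧ (∀ z ∈ L, z ∈ s) ∧ L.length = n
  have hb : ∀ {L : List V}, L.Nodup → (∀ z ∈ L, z ∈ s) → L.length ≤ s.card := fun hn hm =>
    List.toFinset_card_of_nodup hn ▸ Finset.card_le_card fun z hz => hm z (List.mem_toFinset.1 hz)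
  have h1 : Q 1 := ⟨[x], List.nodup_singleton x, List.isChain_singleton x, by simp [hx], rfl⟩
  have hone : 1 ≤ s.card := Finset.card_pos.2 ⟨x, hx⟩
  obtain ⟨L, hn, hc, hm, hl⟩ := Nat.findGreatest_spec (P := Q) hone h1
  have hpos : 1 ≤ L.length := hl ▸ Nat.le_findGreatest hone h1
  refine ⟨fun i => L.getD i x, L.length - 1, fun i hi j hj e => ?_, fun i hi => ?_, fun i hi => ?_,
    fun L' hn' hc' hm' => ?_⟩
  · simp only [List.getD_eq_getElem _ _ (show i < L.length by omega),
      List.getD_eq_getElem _ _ (show j < L.length by omega)] at e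
    exact hn.getElem_inj_iff.1 e
  · simp only [List.getD_eq_getElem _ _ (show i < L.length by omega)]
    exact hm _ (List.getElem_mem _)
  · simp only [List.getD_eq_getElem _ _ (show i < L.length by omega),
      List.getD_eq_getElem _ _ (show i + 1 < L.length by omega)]
    exact List.isChain_iff_getElem.1 hc i (by omega)
  · have := Nat.le_findGreatest (P := Q) (hb hn' hm') ⟨L', hn', hc', hm', rfl⟩
    omega

/-- A member of `s` off the path. -/
def Off (s : Finset V) (p : ℕ → V) (l : ℕ) (z : V) : Prop := z ∈ s ∧ ∀ q ≤ l, p q ≠ z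

/-- An ear of the path. -/
def Ear (G : SimpleGraph V) (s : Finset V) (p : ℕ → V) (l i j : ℕ) : Prop :=
  i < j ∧ j ≤ l ∧ ∃ Q : List V, Q.Nodup ∧ (∀ z ∈ Q, Off s p l z) ∧
    (p i :: (Q ++ [p j])).IsChain G.Adj

/-- A vertex off the path hangs from `p i`. -/
def Hangs (G : SimpleGraph V) (s : Finset V) (p : ℕ → V) (l i : ℕ) (z : V) : Prop :=
  ∃ Q : List V, (Q ++ [z]).Nodup ∧ (∀ w ∈ Q ++ [z], Off s p l w) ∧
    (p i :: (Q ++ [z])).IsChain G.Adj

variable {p : ℕ → V} {l i j k : ℕ}

theorem LongPath.chain_seg (hP : LongPath G s p l) {a b : ℕ} (hb : b ≤ l) :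
    (p a :: seg p a b).IsChain G.Adj := by
  rw [List.isChain_iff_getElem]
  intro t ht
  simp only [List.length_cons, length_seg] at ht
  have h1 : ∀ u, (hu : u < (p a :: seg p a b).length) → (p a :: seg p a b)[u] = p (a + u) := by
    intro u hu
    cases u with
    | zero => simp
    | succ u => simp [seg]; congr 1; omega
  rw [h1, h1, show a + (t + 1) = a + t + 1 by omega]
  exact hP.adj _ (by omega)

theorem LongPath.nodup_seg (hP : LongPath G s p l) {a b : ℕ} (hb : b ≤ l) :
    (seg p a b).Nodup := by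
  refine (List.nodup_range).map_on fun x hx y hy e => ?_
  simp only [List.mem_range] at hx hy
  have := hP.inj _ (by omega) _ (by omega) e
  omega

theorem LongPath.first (hP : LongPath G s p l) {z : V} (hz : G.Adj (p 0) z) (hzs : z ∈ s) :
    ∃ q, 0 < q ∧ q ≤ l ∧ p q = z := by
  by_contra hno
  have hne : ∀ q ≤ l, p q ≠ z := fun q hq e => by
    rcases Nat.eq_zero_or_pos q with rfl | h
    · exact hz.ne e
    · exact hno ⟨q, h, hq, e⟩
  have := hP.max (z :: p 0 :: seg p 0 l) ?_ ?_ ?_
  · simp [length_seg] at this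
  · simp only [List.nodup_cons, List.mem_cons, mem_seg, not_or, not_exists, not_and]
    refine ⟨⟨fun e => hne 0 (Nat.zero_le l) e.symm, fun q _ hq => hne q hq⟩, fun q h0 hq e => ?_,
      hP.nodup_seg le_rfl⟩
    have := hP.inj q hq 0 (Nat.zero_le l) e
    omega
  · exact List.isChain_cons_cons.2 ⟨hz.symm, hP.chain_seg le_rfl⟩
  · simp only [List.mem_cons, mem_seg]
    rintro w (rfl | rfl | ⟨q, _, hq, rfl⟩)
    exacts [hzs, hP.mem 0 (Nat.zero_le l), hP.mem q hq]

theorem LongPath.last (hP : LongPath G s p l) {z : V} (hz : G.Adj (p l) z) (hzs : z ∈ s) :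
    ∃ q, q < l ∧ p q = z := by
  by_contra hno
  have hne : ∀ q ≤ l, p q ≠ z := fun q hq e => by
    rcases eq_or_lt_of_le hq with rfl | h
    · exact hz.ne e
    · exact hno ⟨q, h, e⟩
  have := hP.max ((p 0 :: seg p 0 l) ++ [z]) ?_ ?_ ?_
  · simp [length_seg] at this
  · refine List.nodup_append.2 ⟨List.nodup_cons.2 ⟨?_, hP.nodup_seg le_rfl⟩, List.nodup_singleton z,
      ?_⟩
    · simp only [mem_seg, not_exists, not_and]
      intro q h0 hq e
      have := hP.inj q hq 0 (Nat.zero_le l) e
      omega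
    · simp only [List.mem_cons, mem_seg, List.not_mem_nil, or_false]
      rintro w (rfl | ⟨q, _, hq, rfl⟩) z' rfl
      exacts [hne 0 (Nat.zero_le l), hne q hq]
  · refine List.isChain_append.2 ⟨hP.chain_seg le_rfl, List.isChain_singleton z, ?_⟩
    rw [getLast_cons_seg p (Nat.zero_le l)]
    simp [hz]
  · simp only [List.mem_append, List.mem_cons, mem_seg]
    rintro w ((rfl | ⟨q, _, hq, rfl⟩) | rfl | h)
    exacts [hP.mem 0 (Nat.zero_le l), hP.mem q hq, hzs, absurd h List.not_mem_nil]

/-- An ear from the first vertex is a chord. -/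
theorem Ear.from_zero (hP : LongPath G s p l) (h : Ear G s p l 0 j) : G.Adj (p 0) (p j) := by
  obtain ⟨-, -, Q, -, hQ, hc⟩ := h
  cases Q with
  | nil => simpa using hc
  | cons q Q =>
    obtain ⟨m, -, hm, e⟩ := hP.first (List.isChain_cons_cons.1 hc).1 (hQ q (by simp)).1
    exact absurd e ((hQ q (by simp)).2 m hm)

/-- An inner vertex of an ear hangs from its start. -/
theorem hangs_of_mem {i : ℕ} {Q : List V} {y : V} (hn : Q.Nodup)
    (hQ : ∀ z ∈ Q, Off s p l z) (hc : (p i :: (Q ++ [y])).IsChain G.Adj) {z : V} (hz : z ∈ Q) :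
    Hangs G s p l i z := by
  obtain ⟨Q₁, Q₂, rfl⟩ := List.append_of_mem hz
  refine ⟨Q₁, ?_, fun w hw => hQ w ?_, ?_⟩
  · rw [List.append_cons] at hn; exact hn.of_append_left
  · rw [List.append_cons]; exact List.mem_append_left _ hw
  · rw [List.append_cons Q₁, List.append_assoc, ← List.cons_append] at hc
    exact hc.left_of_append

theorem isChain_snoc {R : V → V → Prop} {L : List V} {x z w : V}
    (h : (x :: (L ++ [z])).IsChain R) (hr : R z w) : (x :: (L ++ [z] ++ [w])).IsChain R := by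
  rw [← List.cons_append]
  refine List.isChain_append.2 ⟨h, List.isChain_singleton w, ?_⟩
  intro a ha b hb
  rw [← List.cons_append, List.getLast?_concat] at ha
  obtain rfl := Option.mem_some_iff.1 ha
  obtain rfl : w = b := by simpa using hb
  exact hr

/-- A hanging vertex on an ear gives an ear. -/
theorem Hangs.ear : ∀ {Q : List V} {z : V} {i j : ℕ}, Hangs G s p l i z → i < j → j ≤ l →
    Q.Nodup → (∀ w ∈ Q, Off s p l w) → (z :: (Q ++ [p j])).IsChain G.Adj → z ∉ Q →
    Ear G s p l i j := by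
  intro Q
  induction Q with
  | nil =>
    intro z i j ⟨R, hn, hR, hc⟩ hij hj _ _ hcz _
    refine ⟨hij, hj, R ++ [z], hn, hR, ?_⟩
    exact isChain_snoc hc (by simpa using hcz)
  | cons w Q ih =>
    intro z i j hz hij hj hn hQ hcz hzQ
    obtain ⟨hzw, hcw⟩ := List.isChain_cons_cons.1 hcz
    obtain ⟨hwQ, hnQ⟩ := List.nodup_cons.1 hn
    refine ih ?_ hij hj hnQ (fun u hu => hQ u (List.mem_cons_of_mem _ hu)) hcw hwQ
    obtain ⟨R, hnR, hR, hc⟩ := hz
    by_cases hw : w ∈ R ++ [z]
    · obtain ⟨R₁, R₂, e⟩ := List.append_of_mem hw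
      refine ⟨R₁, ?_, fun u hu => hR u ?_, ?_⟩
      · rw [e, List.append_cons] at hnR; exact hnR.of_append_left
      · rw [e, List.append_cons]; exact List.mem_append_left _ hu
      · rw [e, List.append_cons R₁, ← List.cons_append] at hc
        exact hc.left_of_append
    · refine ⟨R ++ [z], List.nodup_append.2 ⟨hnR, List.nodup_singleton w, ?_⟩, ?_, ?_⟩
      · intro u hu v hv e
        obtain rfl := List.mem_singleton.1 hv
        exact hw (e ▸ hu)
      · intro u hu
        rcases List.mem_append.1 hu with h | h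
        · exact hR u h
        · obtain rfl := List.mem_singleton.1 h
          exact hQ u List.mem_cons_self
      · exact isChain_snoc hc hzw

/-- Two crossing ears combine. -/
theorem Hangs.ear_of_mem {i i' j : ℕ} {z : V} (hz : Hangs G s p l i z) (hij : i < j) (hj : j ≤ l)
    {Q : List V} (hn : Q.Nodup) (hQ : ∀ w ∈ Q, Off s p l w)
    (hc : (p i' :: (Q ++ [p j])).IsChain G.Adj) (hmem : z ∈ Q) : Ear G s p l i j := by
  obtain ⟨Q₁, Q₂, rfl⟩ := List.append_of_mem hmem
  have hn' := hn.of_append_right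
  obtain ⟨hzQ, hn2⟩ := List.nodup_cons.1 hn'
  refine hz.ear hij hj hn2 (fun w hw => hQ w (by simp [hw])) ?_ hzQ
  rw [List.append_assoc, ← List.cons_append] at hc
  exact hc.right_of_append

/-- Without a cut vertex some ear jumps over every inner position. -/
theorem exists_ear [DecidableEq V] (hP : LongPath G s p l) (h2 : ∀ v, Linked G (s.erase v))
    {e : ℕ} (h0 : 0 < e) (hl : e < l) : ∃ i j, i < e ∧ e < j ∧ Ear G s p l i j := by
  classical
  let inT : V → Prop := fun z =>
    (∃ i < e, p i = z) ∨ ∃ i < e, Hangs G s p l i z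
  let T := (s.erase (p e)).filter inT
  have hne : ∀ {i}, i ≤ l → i ≠ e → p i ∈ s.erase (p e) := fun hi he =>
    Finset.mem_erase.2 ⟨fun h => he (hP.inj _ hi e hl.le h), hP.mem _ hi⟩
  obtain ⟨a, ha, b, hb, hbT, hab⟩ := h2 (p e) T (Finset.filter_subset _ _)
    ⟨p 0, Finset.mem_filter.2 ⟨hne (Nat.zero_le l) h0.ne, .inl ⟨0, h0, rfl⟩⟩⟩ fun hT => by
      have : p l ∈ T := hT ▸ hne le_rfl hl.ne'
      rcases (Finset.mem_filter.1 this).2 with ⟨i, hi, h⟩ | ⟨i, -, Q, -, hQ, -⟩
      · have := hP.inj i (by omega) l le_rfl h; omega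
      · exact (hQ (p l) (by simp)).2 l le_rfl rfl
  obtain ⟨hbe, hbs⟩ := Finset.mem_erase.1 hb
  have hbT' : ¬ inT b := fun h => hbT (Finset.mem_filter.2 ⟨hb, h⟩)
  obtain ⟨i, hi, hi'⟩ : ∃ i < e, p i = a ∨ Hangs G s p l i a := by
    rcases (Finset.mem_filter.1 ha).2 with ⟨i, h, h'⟩ | ⟨i, h, h'⟩
    exacts [⟨i, h, .inl h'⟩, ⟨i, h, .inr h'⟩]
  by_cases hbP : ∃ j ≤ l, p j = b
  · obtain ⟨j, hj, rfl⟩ := hbP
    have hej : e < j := by
      rcases lt_trichotomy j e with h | h | h
      · exact absurd (.inl ⟨j, h, rfl⟩) hbT'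
      · exact absurd (by rw [h]) hbe
      · exact h
    refine ⟨i, j, hi, hej, ?_⟩
    rcases hi' with rfl | hh
    · exact ⟨by omega, hj, [], List.nodup_nil, by simp, by simpa using hab⟩
    · exact hh.ear (by omega) hj List.nodup_nil (by simp) (by simpa using hab) List.not_mem_nil
  · push Not at hbP
    refine absurd ?_ hbT'
    rcases hi' with rfl | ⟨Q, hn, hQ, hc⟩
    · exact .inr ⟨i, hi, [], by simp, by simp [Off, hbs]; exact hbP, by simpa using hab⟩
    · by_cases hbQ : b ∈ Q ++ [a]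
      · obtain ⟨Q₁, Q₂, e'⟩ := List.append_of_mem hbQ
        refine .inr ⟨i, hi, Q₁, ?_, fun u hu => hQ u ?_, ?_⟩
        · rw [e', List.append_cons] at hn; exact hn.of_append_left
        · rw [e', List.append_cons]; exact List.mem_append_left _ hu
        · rw [e', List.append_cons Q₁, ← List.cons_append] at hc
          exact hc.left_of_append
      · refine .inr ⟨i, hi, Q ++ [a], List.nodup_append.2 ⟨hn, List.nodup_singleton b, ?_⟩, ?_, ?_⟩
        · intro u hu v hv e'
          obtain rfl := List.mem_singleton.1 hv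
          exact hbQ (e' ▸ hu)
        · intro u hu
          rcases List.mem_append.1 hu with h | h
          · exact hQ u h
          · obtain rfl := List.mem_singleton.1 h
            exact ⟨hbs, hbP⟩
        · exact isChain_snoc hc hab

/-- Two paths from `p 0`, the second ending at `p e`, ready to be closed or extended. -/
structure Vine (G : SimpleGraph V) (s : Finset V) (p : ℕ → V) (l e' e α : ℕ) (A B : List V) :
    Prop where
  le : α ≤ e'
  lt : e' < e
  le_last : e ≤ l
  nodupA : (p 0 :: A).Nodup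
  nodupB : (p 0 :: B).Nodup
  chainA : (p 0 :: A).IsChain G.Adj
  chainB : (p 0 :: B).IsChain G.Adj
  lastA : (p 0 :: A).getLast? = some (p α)
  lastB : (p 0 :: B).getLast? = some (p e)
  disj : ∀ z ∈ A, z ∉ B
  posA : ∀ z ∈ A, (∃ q ≤ α, p q = z) ∨ Off s p l z ∧ ∃ i < e', Hangs G s p l i z
  posB : ∀ z ∈ B,
    (∃ q, (q < α ∨ q = e) ∧ p q = z) ∨ Off s p l z ∧ ∃ i < e', Hangs G s p l i z
  maxi : ∀ i j, Ear G s p l i j → i < e' → j ≤ e
  cover : ∀ q ≤ l, 0 < q → G.Adj (p 0) (p q) → q ≤ e' ∧ (p q ∈ A ∨ p q ∈ B ∨ α < q)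

theorem isChain_glue {R : V → V → Prop} {A B : List V} {x y : V} (hA : (x :: A).IsChain R)
    (hlast : (x :: A).getLast? = some y) (hB : (y :: B).IsChain R) :
    (x :: (A ++ B)).IsChain R := by
  rw [← List.cons_append]
  refine List.isChain_append.2 ⟨hA, hB.tail, ?_⟩
  intro a ha b hb
  rw [hlast] at ha
  obtain rfl := Option.mem_some_iff.1 ha
  cases B with
  | nil => simp at hb
  | cons c B =>
    obtain rfl : c = b := by simpa using hb
    exact (List.isChain_cons_cons.1 hB).1

theorem getLast?_glue {A B : List V} {x y : V} (hlast : (x :: A).getLast? = some y) :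
    (x :: (A ++ B)).getLast? = (y :: B).getLast? := by
  cases B with
  | nil => simpa using hlast
  | cons c B =>
    rw [← List.cons_append, List.getLast?_append, List.getLast?_cons_cons,
      List.getLast?_eq_some_getLast (List.cons_ne_nil c B), Option.some_or]

/-- A vine with room is extended by the ear that jumps farthest. -/
theorem Vine.step (hP : LongPath G s p l) [DecidableEq V] (h2 : ∀ v, Linked G (s.erase v))
    {e' e α : ℕ} {A B : List V} (h : Vine G s p l e' e α A B) (hel : e < l) :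
    ∃ e'' A' B', Vine G s p l e e'' e A' B' := by
  classical
  have hlt := h.lt
  have hle := h.le
  obtain ⟨i₀, j₀, hi₀, hj₀, hE₀⟩ := exists_ear hP h2 (show 0 < e by omega) hel
  let J := (Finset.range (l + 1)).filter fun j => ∃ i < e, Ear G s p l i j
  have hJ : J.Nonempty :=
    ⟨j₀, Finset.mem_filter.2 ⟨Finset.mem_range.2 (by have := hE₀.2.1; omega), i₀, hi₀, hE₀⟩⟩
  obtain ⟨i, hi, hE⟩ := (Finset.mem_filter.1 (J.max'_mem hJ)).2
  have hmax : ∀ i' j', Ear G s p l i' j' → i' < e → j' ≤ J.max' hJ := fun i' j' hE' hi' =>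
    J.le_max' j' (Finset.mem_filter.2 ⟨Finset.mem_range.2 (by have := hE'.2.1; omega), i', hi', hE'⟩)
  generalize J.max' hJ = j at hE hmax
  have hej : e < j := lt_of_lt_of_le hj₀ (hmax i₀ j₀ hE₀ hi₀)
  have hie : e' ≤ i := le_of_not_gt fun hlt' => absurd (h.maxi i j hE hlt') (by omega)
  obtain ⟨hij, hjl, Q, hQn, hQ, hQc⟩ := hE
  -- inner vertices of the new ear are new
  have hnew : ∀ z, (∃ i₁ < e', Hangs G s p l i₁ z) → z ∉ Q := by
    rintro z ⟨i₁, hi₁, hh⟩ hz
    exact absurd (h.maxi i₁ j (hh.ear_of_mem (by omega) hjl hQn hQ hQc hz) hi₁) (by omega)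
  let X := seg p α i ++ (Q ++ [p j])
  have hX : ∀ z ∈ X, (∃ q, α < q ∧ q ≤ i ∧ p q = z) ∨ (z ∈ Q ∧ Off s p l z) ∨ p j = z := by
    intro z hz
    simp only [X, List.mem_append, mem_seg, List.mem_singleton] at hz
    rcases hz with hz | hz | rfl
    exacts [.inl hz, .inr (.inl ⟨hz, hQ z hz⟩), .inr (.inr rfl)]
  have hXn : X.Nodup := by
    refine List.nodup_append.2 ⟨hP.nodup_seg (by omega),
      List.nodup_append.2 ⟨hQn, List.nodup_singleton _, ?_⟩, ?_⟩
    · intro u hu v hv huv
      obtain rfl := List.mem_singleton.1 hv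
      exact (hQ u hu).2 j hjl huv.symm
    · intro u hu v hv huv
      subst huv
      obtain ⟨q, hq1, hq2, rfl⟩ := mem_seg.1 hu
      rcases List.mem_append.1 hv with hv | hv
      · exact (hQ _ hv).2 q (by omega) rfl
      · have := hP.inj q (by omega) j hjl (List.mem_singleton.1 hv)
        omega
  have hAX : ∀ z ∈ p 0 :: A, z ∉ X := by
    intro z hz hzX
    have hA : (∃ q ≤ α, p q = z) ∨ Off s p l z ∧ ∃ i < e', Hangs G s p l i z := by
      rcases List.mem_cons.1 hz with rfl | hz
      · exact .inl ⟨0, Nat.zero_le α, rfl⟩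
      · exact h.posA z hz
    rcases hA with ⟨q, hq, rfl⟩ | ⟨ho, hh⟩
    · rcases hX _ hzX with ⟨q', h1, h2', h3⟩ | ⟨-, ho⟩ | h3
      · have := hP.inj q' (by omega) q (by omega) h3; omega
      · exact ho.2 q (by omega) rfl
      · have := hP.inj j hjl q (by omega) h3; omega
    · rcases hX z hzX with ⟨q', h1, h2', rfl⟩ | ⟨hq, -⟩ | rfl
      · exact ho.2 q' (by omega) rfl
      · exact hnew z hh hq
      · exact ho.2 j hjl rfl
  refine ⟨j, B, A ++ X, le_rfl, hej, hjl, h.nodupB, ?_, h.chainB, ?_, h.lastB, ?_, ?_, ?_, ?_,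
    hmax, ?_⟩
  · rw [← List.cons_append]
    exact List.nodup_append.2 ⟨h.nodupA, hXn, fun u hu v hv huv => hAX u hu (huv ▸ hv)⟩
  · refine isChain_glue h.chainA h.lastA ?_
    exact isChain_glue (hP.chain_seg (by omega)) (getLast_cons_seg p (by omega)) hQc
  · rw [getLast?_glue h.lastA, getLast?_glue (getLast_cons_seg p (by omega)),
      ← List.cons_append, List.getLast?_concat]
  · intro z hz hz'
    rcases List.mem_append.1 hz' with hz' | hz'
    · exact h.disj z hz' hz
    · rcases h.posB z hz with ⟨q, hq, rfl⟩ | ⟨ho, hh⟩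
      · have hql : q ≤ l := by rcases hq with hq | rfl <;> omega
        rcases hX _ hz' with ⟨q', h1, h2', h3⟩ | ⟨-, ho⟩ | h3
        · have := hP.inj q' (by omega) q hql h3; omega
        · exact ho.2 q hql rfl
        · have := hP.inj j hjl q hql h3; omega
      · rcases hX z hz' with ⟨q', h1, h2', rfl⟩ | ⟨hq, -⟩ | rfl
        · exact ho.2 q' (by omega) rfl
        · exact hnew z hh hq
        · exact ho.2 j hjl rfl
  · intro z hz
    rcases h.posB z hz with ⟨q, hq, hqz⟩ | ⟨ho, i₁, hi₁, hh⟩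
    · exact .inl ⟨q, by omega, hqz⟩
    · exact .inr ⟨ho, i₁, by omega, hh⟩
  · intro z hz
    rcases List.mem_append.1 hz with hz | hz
    · rcases h.posA z hz with ⟨q, hq, hqz⟩ | ⟨ho, i₁, hi₁, hh⟩
      · exact .inl ⟨q, by omega, hqz⟩
      · exact .inr ⟨ho, i₁, by omega, hh⟩
    · rcases hX z hz with ⟨q, h1, h2', hqz⟩ | ⟨hq, ho⟩ | hqz
      · exact .inl ⟨q, by omega, hqz⟩
      · exact .inr ⟨ho, i, hi, hangs_of_mem hQn hQ hQc hq⟩
      · exact .inl ⟨j, by omega, hqz⟩
  · intro q hq h0 hadj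
    obtain ⟨hqe, hc⟩ := h.cover q hq h0 hadj
    refine ⟨by omega, ?_⟩
    rcases hc with hc | hc | hc
    · exact .inr (.inl (List.mem_append_left _ hc))
    · exact .inl hc
    · refine .inr (.inl (List.mem_append_right _ ?_))
      exact List.mem_append_left _ (mem_seg.2 ⟨q, hc, by omega, rfl⟩)

/-- The initial vine: the chord of the first vertex nearest behind the first jump. -/
theorem exists_vine (hP : LongPath G s p l) [DecidableEq V] (h2 : ∀ v, Linked G (s.erase v))
    {a : ℕ} (h0 : 0 < a) (hal : a < l) (ha : G.Adj (p 0) (p a))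
    (hamax : ∀ q ≤ l, G.Adj (p 0) (p q) → q ≤ a) :
    ∃ e α A B, Vine G s p l a e α A B := by
  classical
  obtain ⟨i₀, j₀, hi₀, hj₀, hE₀⟩ := exists_ear hP h2 h0 hal
  let J := (Finset.range (l + 1)).filter fun j => ∃ i < a, Ear G s p l i j
  have hJ : J.Nonempty :=
    ⟨j₀, Finset.mem_filter.2 ⟨Finset.mem_range.2 (by have := hE₀.2.1; omega), i₀, hi₀, hE₀⟩⟩
  obtain ⟨i, hi, hE⟩ := (Finset.mem_filter.1 (J.max'_mem hJ)).2
  have hmax : ∀ i' j', Ear G s p l i' j' → i' < a → j' ≤ J.max' hJ := fun i' j' hE' hi' =>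
    J.le_max' j' (Finset.mem_filter.2 ⟨Finset.mem_range.2 (by have := hE'.2.1; omega), i', hi', hE'⟩)
  generalize J.max' hJ = j at hE hmax
  have hej : a < j := lt_of_lt_of_le hj₀ (hmax i₀ j₀ hE₀ hi₀)
  have hi0 : i ≠ 0 := by
    rintro rfl
    exact absurd (hamax j hE.2.1 (hE.from_zero hP)) (by omega)
  obtain ⟨hij, hjl, Q, hQn, hQ, hQc⟩ := hE
  let N := (Finset.Ioc i a).filter fun q => G.Adj (p 0) (p q)
  have hN : N.Nonempty := ⟨a, Finset.mem_filter.2 ⟨Finset.mem_Ioc.2 ⟨hi, le_rfl⟩, ha⟩⟩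
  obtain ⟨hmem, hadj⟩ := Finset.mem_filter.1 (N.min'_mem hN)
  have hmin : ∀ q, i < q → q ≤ a → G.Adj (p 0) (p q) → N.min' hN ≤ q := fun q h1 h2' h3 =>
    N.min'_le q (Finset.mem_filter.2 ⟨Finset.mem_Ioc.2 ⟨h1, h2'⟩, h3⟩)
  generalize N.min' hN = α at hmem hadj hmin
  obtain ⟨hiα, hαa⟩ := Finset.mem_Ioc.1 hmem
  let B := seg p 0 i ++ (Q ++ [p j])
  have hB : ∀ z ∈ B, (∃ q, 0 < q ∧ q ≤ i ∧ p q = z) ∨ (z ∈ Q ∧ Off s p l z) ∨ p j = z := by
    intro z hz
    simp only [B, List.mem_append, mem_seg, List.mem_singleton] at hz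
    rcases hz with hz | hz | rfl
    exacts [.inl hz, .inr (.inl ⟨hz, hQ z hz⟩), .inr (.inr rfl)]
  refine ⟨j, α, [p α], B, hαa, hej, hjl, ?_, ?_, ?_, ?_, rfl, ?_, ?_, ?_, ?_, hmax, ?_⟩
  · simp only [List.nodup_cons, List.mem_singleton]
    refine ⟨fun e => ?_, by simp⟩
    have := hP.inj 0 (Nat.zero_le l) α (by omega) e
    omega
  · refine List.nodup_cons.2 ⟨fun hz => ?_, List.nodup_append.2 ⟨hP.nodup_seg (by omega),
      List.nodup_append.2 ⟨hQn, List.nodup_singleton _, ?_⟩, ?_⟩⟩
    · rcases hB _ hz with ⟨q, h1, h2', h3⟩ | ⟨-, ho⟩ | h3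
      · have := hP.inj q (by omega) 0 (Nat.zero_le l) h3; omega
      · exact ho.2 0 (Nat.zero_le l) rfl
      · have := hP.inj j hjl 0 (Nat.zero_le l) h3; omega
    · intro u hu v hv huv
      obtain rfl := List.mem_singleton.1 hv
      exact (hQ u hu).2 j hjl huv.symm
    · intro u hu v hv huv
      subst huv
      obtain ⟨q, hq1, hq2, rfl⟩ := mem_seg.1 hu
      rcases List.mem_append.1 hv with hv | hv
      · exact (hQ _ hv).2 q (by omega) rfl
      · have := hP.inj q (by omega) j hjl (List.mem_singleton.1 hv); omega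
  · exact List.isChain_pair.2 hadj
  · exact isChain_glue (hP.chain_seg (by omega)) (getLast_cons_seg p (Nat.zero_le i)) hQc
  · rw [getLast?_glue (getLast_cons_seg p (Nat.zero_le i)), ← List.cons_append,
      List.getLast?_concat]
  · intro z hz hz'
    obtain rfl := List.mem_singleton.1 hz
    rcases hB _ hz' with ⟨q, h1, h2', h3⟩ | ⟨-, ho⟩ | h3
    · have := hP.inj q (by omega) α (by omega) h3; omega
    · exact ho.2 α (by omega) rfl
    · have := hP.inj j hjl α (by omega) h3; omega
  · intro z hz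
    obtain rfl := List.mem_singleton.1 hz
    exact .inl ⟨α, le_rfl, rfl⟩
  · intro z hz
    rcases hB z hz with ⟨q, h1, h2', hqz⟩ | ⟨hq, ho⟩ | hqz
    · exact .inl ⟨q, .inl (by omega), hqz⟩
    · exact .inr ⟨ho, i, hi, hangs_of_mem hQn hQ hQc hq⟩
    · exact .inl ⟨j, .inr rfl, hqz⟩
  · intro q hq hq0 hq'
    refine ⟨hamax q hq hq', ?_⟩
    by_cases hqi : q ≤ i
    · exact .inr (.inl (List.mem_append_left _ (mem_seg.2 ⟨q, hq0, hqi, rfl⟩)))
    · rcases eq_or_lt_of_le (hmin q (by omega) (hamax q hq hq') hq') with rfl | h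
      · exact .inl List.mem_cons_self
      · exact .inr (.inr h)

open Classical in
/-- The positions of the neighbours of `z` on the path. -/
noncomputable def nbrPos (G : SimpleGraph V) (p : ℕ → V) (l : ℕ) (z : V) : Finset ℕ :=
  (Finset.range (l + 1)).filter fun q => G.Adj z (p q)

theorem mem_nbrPos {z : V} {q : ℕ} : q ∈ nbrPos G p l z ↔ q ≤ l ∧ G.Adj z (p q) := by
  simp [nbrPos]

theorem LongPath.le_card_pos (_hP : LongPath G s p l) (z : V)
    (hz : ∀ w, G.Adj z w → w ∈ s → ∃ q ≤ l, p q = w) :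
    degIn G s z ≤ (nbrPos G p l z).card := by
  classical
  refine (Finset.card_le_card (t := (nbrPos G p l z).image p) fun w hw => ?_).trans
    Finset.card_image_le
  obtain ⟨hws, hzw⟩ := Finset.mem_filter.1 hw
  obtain ⟨q, hq, rfl⟩ := hz w hzw hws
  exact Finset.mem_image_of_mem p (mem_nbrPos.2 ⟨hq, hzw⟩)

/-- A cycle carrying `k` neighbours of one of its vertices. -/
def DiracCycle (G : SimpleGraph V) (s : Finset V) (k : ℕ) (C : List V) : Prop :=
  CycleIn G s C ∧ min s.card (2 * k) ≤ C.length ∧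
    ∃ x ∈ C, k ≤ Set.ncard {w | w ∈ C ∧ G.Adj x w}

theorem le_ncard_adj {C : List V} {x : V} (hdeg : k ≤ degIn G s x)
    (h : ∀ w, G.Adj x w → w ∈ s → w ∈ C) : k ≤ Set.ncard {w | w ∈ C ∧ G.Adj x w} := by
  classical
  refine hdeg.trans ?_
  rw [degIn, ← Set.ncard_coe_finset]
  refine Set.ncard_le_ncard (fun w hw => ?_) (C.finite_toSet.subset fun w hw => hw.1)
  simp only [Finset.coe_filter, Set.mem_ofPred_eq] at hw
  exact ⟨h w hw.2 hw.1, hw.2⟩

/-- Interleaved ends give a cycle through the whole path, hence through all of `s`. -/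
theorem cycle_of_interleave (hP : LongPath G s p l)
    (hdeg : ∀ x ∈ s, k ≤ degIn G s x) (hs : Linked G s) (hl : 2 ≤ l) {i : ℕ} (hi : i < l)
    (h0 : G.Adj (p 0) (p (i + 1))) (h1 : G.Adj (p l) (p i)) : ∃ C, DiracCycle G s k C := by
  classical
  let C := (p 0 :: seg p 0 i) ++ (seg p i l).reverse
  have hlast : (seg p i l).getLast? = some (p l) := by
    have := getLast_cons_seg p (show i ≤ l by omega)
    rw [List.getLast?_cons, Option.some_inj] at this
    rcases h : (seg p i l).getLast? with _ | w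
    · simp [List.getLast?_eq_none_iff, seg] at h; omega
    · simpa [h] using this
  have hhead : (seg p i l).head? = some (p (i + 1)) := by
    rw [seg, show l - i = (l - i - 1) + 1 by omega, List.range_succ_eq_map]
    simp
  have hmem : ∀ z, z ∈ C ↔ ∃ q ≤ l, p q = z := by
    intro z
    simp only [C, List.mem_append, List.mem_cons, List.mem_reverse, mem_seg]
    constructor
    · rintro ((rfl | ⟨q, -, hq, rfl⟩) | ⟨q, -, hq, rfl⟩)
      exacts [⟨0, by omega, rfl⟩, ⟨q, by omega, rfl⟩, ⟨q, hq, rfl⟩]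
    · rintro ⟨q, hq, rfl⟩
      rcases Nat.eq_zero_or_pos q with rfl | h
      · exact .inl (.inl rfl)
      · by_cases hqi : q ≤ i
        · exact .inl (.inr ⟨q, h, hqi, rfl⟩)
        · exact .inr ⟨q, by omega, hq, rfl⟩
  have hn : C.Nodup := by
    refine List.nodup_append.2 ⟨List.nodup_cons.2 ⟨fun h => ?_, hP.nodup_seg (by omega)⟩,
      List.nodup_reverse.2 (hP.nodup_seg le_rfl), ?_⟩
    · obtain ⟨q, h0', hq, e⟩ := mem_seg.1 h
      have := hP.inj q (by omega) 0 (by omega) e; omega
    · intro u hu v hv huv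
      subst huv
      obtain ⟨q, hq, hql, rfl⟩ := mem_seg.1 (List.mem_reverse.1 hv)
      rcases List.mem_cons.1 hu with hu | hu
      · have := hP.inj q hql 0 (by omega) hu; omega
      · obtain ⟨q', -, hq', e⟩ := mem_seg.1 hu
        have := hP.inj q' (by omega) q hql e; omega
  have hc : C.IsChain G.Adj := by
    refine List.isChain_append.2 ⟨hP.chain_seg (by omega), ?_, ?_⟩
    · rw [List.isChain_reverse]
      exact (hP.chain_seg le_rfl).tail.imp fun _ _ h => h.symm
    · rw [getLast_cons_seg p (Nat.zero_le i), List.head?_reverse, hlast]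
      simpa using h1.symm
  have hlen : C.length = l + 1 := by simp [C, length_seg]; omega
  have hcyc : CycleIn G s C := by
    refine ⟨hn, by omega, fun z hz => ?_, hc, ?_⟩
    · obtain ⟨q, hq, rfl⟩ := (hmem z).1 hz
      exact hP.mem q hq
    · simp only [C, List.cons_append, List.head?_cons, Option.mem_some_iff]
      intro a ha z hz
      rw [← List.cons_append, List.getLast?_append, List.getLast?_reverse, hhead] at hz
      subst ha
      obtain rfl : p (i + 1) = z := by simpa using hz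
      exact h0.symm
  have hall : ∀ z ∈ s, z ∈ C := by
    by_contra hno
    push Not at hno
    obtain ⟨z, hz, hzC⟩ := hno
    obtain ⟨a, ha, b, hb, hbC, hab⟩ := hs C.toFinset
      (fun w hw => hcyc.mem w (List.mem_toFinset.1 hw))
      ⟨p 0, List.mem_toFinset.2 ((hmem _).2 ⟨0, by omega, rfl⟩)⟩
      (fun e => hzC (List.mem_toFinset.1 (e ▸ hz)))
    obtain ⟨C₁, C₂, hsplit⟩ := List.append_of_mem (List.mem_toFinset.1 ha)
    rw [hsplit] at hn hc
    have hb' : b ∉ C₁ ++ a :: C₂ := hsplit ▸ fun h => hbC (List.mem_toFinset.2 h)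
    have hperm : (a :: C₂ ++ C₁).Perm (C₁ ++ a :: C₂) := List.perm_append_comm
    have := hP.max (b :: (a :: C₂ ++ C₁)) ?_ ?_ ?_
    · have h' := hperm.length_eq
      rw [← hsplit, hlen] at h'
      simp only [List.length_cons] at this
      omega
    · exact List.nodup_cons.2 ⟨fun h => hb' (hperm.mem_iff.1 h), hperm.nodup_iff.2 hn⟩
    · refine List.isChain_cons_cons.2 ⟨hab.symm, ?_⟩
      show ((a :: C₂) ++ C₁).IsChain G.Adj
      refine List.isChain_append.2 ⟨hc.right_of_append, hc.left_of_append, ?_⟩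
      intro x hx y hy
      refine hcyc.closed y ?_ x ?_
      · rw [hsplit, List.head?_append, Option.mem_def.1 hy]; rfl
      · rw [hsplit, List.getLast?_append, Option.mem_def.1 hx]; rfl
    · simp only [List.mem_cons]
      rintro w (rfl | hw)
      · exact hb
      · exact hcyc.mem w (hsplit ▸ hperm.mem_iff.1 (by simpa using hw))
  refine ⟨C, hcyc, le_trans (min_le_left _ _) ?_, p 0, (hmem _).2 ⟨0, by omega, rfl⟩,
    le_ncard_adj (hdeg _ (hP.mem 0 (by omega))) fun w _ hw => hall w hw⟩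
  rw [← List.toFinset_card_of_nodup hcyc.nodup]
  exact Finset.card_le_card fun z hz => List.mem_toFinset.2 (hall z hz)

/-- Overlapping ends without interleaving. -/
theorem cycle_of_overlap (hP : LongPath G s p l) (hk : 2 ≤ k)
    (hdeg : ∀ x ∈ s, k ≤ degIn G s x)
    (hno : ∀ i < l, G.Adj (p 0) (p (i + 1)) → ¬ G.Adj (p l) (p i))
    {a b : ℕ} (ha : a ≤ l) (hba : b < a) (ha' : G.Adj (p 0) (p a)) (hb' : G.Adj (p l) (p b)) :
    ∃ C, DiracCycle G s k C := by
  classical
  let Q : ℕ → Prop := fun d => ∃ i j, j < i ∧ i ≤ l ∧ i - j = d ∧ G.Adj (p 0) (p i) ∧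
    G.Adj (p l) (p j)
  have hex : ∃ d, Q d := ⟨a - b, a, b, hba, ha, rfl, ha', hb'⟩
  obtain ⟨i, j, hji, hil, hd, hi, hj⟩ := Nat.find_spec hex
  have hmin : ∀ i' j', j' < i' → i' ≤ l → G.Adj (p 0) (p i') → G.Adj (p l) (p j') →
      i - j ≤ i' - j' := fun i' j' h h' h'' h''' =>
    hd ▸ Nat.find_min' hex ⟨i', j', h, h', rfl, h'', h'''⟩
  have hij : j + 2 ≤ i := by
    by_contra h
    obtain rfl : i = j + 1 := by omega
    exact hno j (by omega) hi hj
  let C := (p 0 :: seg p 0 j) ++ (seg p (i - 1) l).reverse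
  let A := nbrPos G p l (p 0)
  let B := nbrPos G p l (p l)
  have hA : ∀ q ∈ A, 0 < q ∧ q ≤ l ∧ (q ≤ j ∨ i ≤ q) := by
    intro q hq
    obtain ⟨hql, hq'⟩ := mem_nbrPos.1 hq
    refine ⟨Nat.pos_of_ne_zero fun e => hq'.ne (e ▸ rfl), hql, ?_⟩
    by_contra h
    have := hmin q j (by omega) hql hq' hj
    omega
  have hB : ∀ q ∈ B, q < l ∧ (q ≤ j ∨ i ≤ q) := by
    intro q hq
    obtain ⟨hql, hq'⟩ := mem_nbrPos.1 hq
    refine ⟨lt_of_le_of_ne hql fun e => hq'.ne (e ▸ rfl), ?_⟩
    by_contra h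
    have := hmin i q (by omega) hil hi hq'
    omega
  have hsub : A.image (· - 1) ∪ B ⊆ Finset.range (j + 1) ∪ Finset.Ico (i - 1) l := by
    intro q hq
    simp only [Finset.mem_union, Finset.mem_image, Finset.mem_range, Finset.mem_Ico] at hq ⊢
    rcases hq with ⟨r, hr, rfl⟩ | hq
    · obtain ⟨h1, h2', h3⟩ := hA r hr; omega
    · obtain ⟨h1, h2'⟩ := hB q hq; omega
  have hdisj : Disjoint (A.image (· - 1)) B := by
    rw [Finset.disjoint_left]
    intro q hq hqB
    obtain ⟨r, hr, rfl⟩ := Finset.mem_image.1 hq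
    obtain ⟨h1, h2', -⟩ := hA r hr
    refine hno (r - 1) (by omega) ?_ (mem_nbrPos.1 hqB).2
    rw [show r - 1 + 1 = r by omega]
    exact (mem_nbrPos.1 hr).2
  have hcard := Finset.card_le_card hsub
  rw [Finset.card_union_of_disjoint hdisj, Finset.card_image_of_injOn (fun x hx y hy e => by
    have := (hA x hx).1; have := (hA y hy).1
    omega)] at hcard
  have hcard' := hcard.trans (Finset.card_union_le _ _)
  simp only [Finset.card_range, Nat.card_Ico] at hcard'
  have hnb0 : ∀ w, G.Adj (p 0) w → w ∈ s → ∃ q ≤ l, p q = w := fun w h h' =>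
    let ⟨q, _, hq, e⟩ := hP.first h h'; ⟨q, hq, e⟩
  have hnbl : ∀ w, G.Adj (p l) w → w ∈ s → ∃ q ≤ l, p q = w := fun w h h' =>
    let ⟨q, hq, e⟩ := hP.last h h'; ⟨q, hq.le, e⟩
  have k0 := (hdeg _ (hP.mem 0 (by omega))).trans (hP.le_card_pos _ hnb0)
  have kl := (hdeg _ (hP.mem l le_rfl)).trans (hP.le_card_pos _ hnbl)
  have hlen : C.length = j + 1 + (l - (i - 1)) := by simp [C, length_seg]; omega
  change k ≤ A.card at k0
  change k ≤ B.card at kl
  have hnodup : C.Nodup := by
    refine List.nodup_append.2 ⟨List.nodup_cons.2 ⟨fun h => ?_, hP.nodup_seg (by omega)⟩,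
      List.nodup_reverse.2 (hP.nodup_seg le_rfl), ?_⟩
    · obtain ⟨q, h0', hq, e⟩ := mem_seg.1 h
      have := hP.inj q (by omega) 0 (by omega) e; omega
    · intro u hu v hv huv
      subst huv
      obtain ⟨q, hq, hql, rfl⟩ := mem_seg.1 (List.mem_reverse.1 hv)
      rcases List.mem_cons.1 hu with hu | hu
      · have := hP.inj q hql 0 (by omega) hu; omega
      · obtain ⟨q', -, hq', e⟩ := mem_seg.1 hu
        have := hP.inj q' (by omega) q hql e; omega
  have hlast : (seg p (i - 1) l).getLast? = some (p l) := by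
    have := getLast_cons_seg p (show i - 1 ≤ l by omega)
    rw [List.getLast?_cons, Option.some_inj] at this
    rcases h : (seg p (i - 1) l).getLast? with _ | w
    · simp [List.getLast?_eq_none_iff, seg] at h; omega
    · simpa [h] using this
  have hhead : (seg p (i - 1) l).head? = some (p i) := by
    rw [seg, show l - (i - 1) = (l - i) + 1 by omega, List.range_succ_eq_map]
    simp [show i - 1 + 1 = i by omega]
  refine ⟨C, ⟨hnodup, by omega, ?_, ?_, ?_⟩, by omega, p 0, by simp [C],
    le_ncard_adj (hdeg _ (hP.mem 0 (by omega))) fun w hw hws => ?_⟩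
  · intro z hz
    simp only [C, List.mem_append, List.mem_cons, List.mem_reverse, mem_seg] at hz
    rcases hz with (rfl | ⟨q, -, hq, rfl⟩) | ⟨q, -, hq, rfl⟩
    exacts [hP.mem 0 (by omega), hP.mem q (by omega), hP.mem q hq]
  · refine List.isChain_append.2 ⟨hP.chain_seg (by omega), ?_, ?_⟩
    · rw [List.isChain_reverse]
      exact (hP.chain_seg le_rfl).tail.imp fun _ _ h => h.symm
    · rw [getLast_cons_seg p (Nat.zero_le j), List.head?_reverse, hlast]
      simpa using hj.symm
  · simp only [C, List.cons_append, List.head?_cons, Option.mem_some_iff]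
    intro x hx z hz
    rw [← List.cons_append, List.getLast?_append, List.getLast?_reverse, hhead] at hz
    subst hx
    obtain rfl : p i = z := by simpa using hz
    exact hi.symm
  · obtain ⟨q, hq, rfl⟩ := hnb0 w hw hws
    obtain ⟨h1, h2', h3⟩ := hA q (mem_nbrPos.2 ⟨hq, hw⟩)
    simp only [C, List.mem_append, List.mem_cons, List.mem_reverse, mem_seg]
    rcases h3 with h3 | h3
    · exact .inl (.inr ⟨q, h1, h3, rfl⟩)
    · exact .inr ⟨q, by omega, hq, rfl⟩

/-- A vine that has passed the first neighbour of the last vertex closes. -/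
theorem Vine.close (hP : LongPath G s p l) (hk : 2 ≤ k) (hdeg : ∀ x ∈ s, k ≤ degIn G s x)
    {e' e α : ℕ} {A B : List V} (h : Vine G s p l e' e α A B)
    (hlow : ∀ q ≤ l, G.Adj (p l) (p q) → e' ≤ q) {q₀ : ℕ} (hq₀ : q₀ < e)
    (hq₀' : G.Adj (p l) (p q₀)) : ∃ C, DiracCycle G s k C := by
  classical
  have hlt := h.lt
  have hle := h.le
  have hel := h.le_last
  have hdec : ∃ b', b' < e ∧ G.Adj (p l) (p b') ∧ ∀ q < e, G.Adj (p l) (p q) → q ≤ b' := by
    let N := (Finset.range e).filter fun q => G.Adj (p l) (p q)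
    have hN : N.Nonempty := ⟨q₀, Finset.mem_filter.2 ⟨Finset.mem_range.2 hq₀, hq₀'⟩⟩
    obtain ⟨h1, h2'⟩ := Finset.mem_filter.1 (N.max'_mem hN)
    exact ⟨N.max' hN, Finset.mem_range.1 h1, h2', fun q h3 h4 =>
      N.le_max' q (Finset.mem_filter.2 ⟨Finset.mem_range.2 h3, h4⟩)⟩
  obtain ⟨b', hb'e, hb', hb'max⟩ := hdec
  have hαb : α ≤ b' := hle.trans (hlow b' (by omega) hb')
  let Y := (seg p α b') ++ (seg p e l).reverse
  let C := (p 0 :: A) ++ (Y ++ B.reverse)
  have hY : ∀ z ∈ Y, ∃ q, ((α < q ∧ q ≤ b') ∨ (e < q ∧ q ≤ l)) ∧ p q = z := by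
    intro z hz
    simp only [Y, List.mem_append, List.mem_reverse, mem_seg] at hz
    rcases hz with ⟨q, h1, h2', rfl⟩ | ⟨q, h1, h2', rfl⟩
    exacts [⟨q, .inl ⟨h1, h2'⟩, rfl⟩, ⟨q, .inr ⟨h1, h2'⟩, rfl⟩]
  have hYn : Y.Nodup := by
    refine List.nodup_append.2 ⟨hP.nodup_seg (by omega),
      List.nodup_reverse.2 (hP.nodup_seg le_rfl), ?_⟩
    intro u hu v hv huv
    subst huv
    obtain ⟨q, h1, h2', rfl⟩ := mem_seg.1 hu
    obtain ⟨q', h3, h4, e'⟩ := mem_seg.1 (List.mem_reverse.1 hv)
    have := hP.inj q' h4 q (by omega) e'; omega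
  have hA : ∀ z ∈ p 0 :: A, (∃ q ≤ α, p q = z) ∨ Off s p l z := by
    intro z hz
    rcases List.mem_cons.1 hz with rfl | hz
    · exact .inl ⟨0, by omega, rfl⟩
    · exact (h.posA z hz).imp id And.left
  have hB : ∀ z ∈ B, (∃ q, (q < α ∨ q = e) ∧ p q = z) ∨ Off s p l z :=
    fun z hz => (h.posB z hz).imp id And.left
  have hp0A : p 0 ∉ B := (List.nodup_cons.1 h.nodupB).1
  have hn : C.Nodup := by
    refine List.nodup_append.2 ⟨h.nodupA, List.nodup_append.2 ⟨hYn,
      List.nodup_reverse.2 (List.nodup_cons.1 h.nodupB).2, ?_⟩, ?_⟩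
    · intro u hu v hv huv
      subst huv
      obtain ⟨q, hq, rfl⟩ := hY u hu
      rcases hB _ (List.mem_reverse.1 hv) with ⟨q', hq', e'⟩ | ho
      · have := hP.inj q' (by omega) q (by omega) e'; omega
      · exact ho.2 q (by omega) rfl
    · intro u hu v hv huv
      subst huv
      rcases List.mem_append.1 hv with hv | hv
      · obtain ⟨q, hq, rfl⟩ := hY u hv
        rcases hA _ hu with ⟨q', hq', e'⟩ | ho
        · have := hP.inj q' (by omega) q (by omega) e'; omega
        · exact ho.2 q (by omega) rfl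
      · rcases List.mem_cons.1 hu with rfl | hu
        · exact hp0A (List.mem_reverse.1 hv)
        · exact h.disj u hu (List.mem_reverse.1 hv)
  have hmemC : ∀ z ∈ C, z ∈ s := by
    intro z hz
    simp only [C, List.mem_append] at hz
    rcases hz with hz | hz | hz
    · rcases hA z hz with ⟨q, hq, rfl⟩ | ho
      exacts [hP.mem q (by omega), ho.1]
    · obtain ⟨q, hq, rfl⟩ := hY z hz
      exact hP.mem q (by omega)
    · rcases hB z (List.mem_reverse.1 hz) with ⟨q, hq, rfl⟩ | ho
      exacts [hP.mem q (by omega), ho.1]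
  -- the way from `p 0` through `A`, then forward, the chord, and back to `p e`
  have hback : (p l :: (seg p e l).reverse.tail).IsChain G.Adj ∧
      (p l :: (seg p e l).reverse.tail).getLast? = some (if e = l then p l else p (e + 1)) := by
    by_cases hel' : e = l
    · subst hel'
      simp [seg]
    · have hne : (seg p e l).reverse ≠ [] := by simp [seg]; omega
      have hh : (seg p e l).reverse.head? = some (p l) := by
        have := getLast_cons_seg p hel
        rw [List.getLast?_cons, Option.some_inj] at this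
        rw [List.head?_reverse]
        rcases h' : (seg p e l).getLast? with _ | w
        · simp [List.getLast?_eq_none_iff, seg] at h'; omega
        · simpa [h'] using this
      have he : p l :: (seg p e l).reverse.tail = (seg p e l).reverse := by
        cases h' : (seg p e l).reverse with
        | nil => exact absurd h' hne
        | cons x L => rw [h'] at hh; simp at hh; simp [hh]
      rw [he, if_neg hel', List.isChain_reverse, List.getLast?_reverse]
      refine ⟨(hP.chain_seg le_rfl).tail.imp fun _ _ h => h.symm, ?_⟩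
      rw [seg, show l - e = (l - e - 1) + 1 by omega, List.range_succ_eq_map]
      simp
  have hchain : C.IsChain G.Adj ∧ ∀ z ∈ C.getLast?, G.Adj z (p 0) := by
    have h1 : (p 0 :: (A ++ seg p α b')).IsChain G.Adj :=
      isChain_glue h.chainA h.lastA (hP.chain_seg (by omega))
    have h2' : (p 0 :: (A ++ seg p α b')).getLast? = some (p b') := by
      rw [getLast?_glue h.lastA, getLast_cons_seg p hαb]
    have hrev : (p e :: ((p 0 :: B).reverse.tail)) = (p 0 :: B).reverse := by
      have := h.lastB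
      rw [← List.head?_reverse] at this
      cases h' : (p 0 :: B).reverse with
      | nil => simp at h'
      | cons x L => rw [h'] at this; simp at this; simp [this]
    have hBne : B ≠ [] := by
      rintro rfl
      have := h.lastB
      simp at this
      have := hP.inj 0 (by omega) e hel this
      omega
    have h3 : B.reverse.IsChain G.Adj := by
      rw [List.isChain_reverse]; exact h.chainB.tail.imp fun _ _ h => h.symm
    have h4 : B.reverse.head? = some (p e) := by
      rw [List.head?_reverse]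
      have := h.lastB
      cases B with
      | nil => exact absurd rfl hBne
      | cons c B => rwa [List.getLast?_cons_cons] at this
    have h5 : ∀ z ∈ B.reverse.getLast?, G.Adj z (p 0) := by
      cases B with
      | nil => exact absurd rfl hBne
      | cons c B =>
        intro z hz
        rw [List.getLast?_reverse] at hz
        obtain rfl : c = z := by simpa using hz
        exact (List.isChain_cons_cons.1 h.chainB).1.symm
    have eC : C = (p 0 :: (A ++ seg p α b')) ++ ((seg p e l).reverse ++ B.reverse) := by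
      simp [C, Y]
    have h6 : ((seg p e l).reverse ++ B.reverse).IsChain G.Adj ∧
        ((seg p e l).reverse ++ B.reverse).head? = some (p l) := by
      by_cases hel' : e = l
      · subst hel'
        simp [seg, h3, h4]
      · obtain ⟨hc1, hc2⟩ := hback
        rw [if_neg hel'] at hc2
        have hh : (seg p e l).reverse = p l :: (seg p e l).reverse.tail := by
          have := getLast_cons_seg p hel
          rw [List.getLast?_cons, Option.some_inj] at this
          cases h' : (seg p e l).reverse with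
          | nil => simp [seg] at h'; omega
          | cons x L =>
            have hx : (seg p e l).getLast? = some x := by
              rw [← List.head?_reverse, h']; rfl
            simp [hx] at this
            simp [this]
        rw [hh]
        refine ⟨List.isChain_append.2 ⟨hc1, h3, ?_⟩, rfl⟩
        rw [hc2, h4]
        simpa using (hP.adj e (by omega)).symm
    refine ⟨eC ▸ List.isChain_append.2 ⟨h1, h6.1, ?_⟩, ?_⟩
    · rw [h2', h6.2]
      simpa using hb'.symm
    · intro z hz
      refine h5 z ?_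
      rw [eC, List.getLast?_append, List.getLast?_append] at hz
      cases h' : B.reverse.getLast? with
      | none => simp [hBne] at h'
      | some w => simpa [h'] using hz
  have hcov : ∀ q ∈ nbrPos G p l (p 0), q ≤ e' ∧ p q ∈ C := by
    intro q hq
    obtain ⟨hql, hq'⟩ := mem_nbrPos.1 hq
    obtain ⟨hqe, hc⟩ := h.cover q hql (Nat.pos_of_ne_zero fun e'' => hq'.ne (e'' ▸ rfl)) hq'
    refine ⟨hqe, ?_⟩
    simp only [C, Y, List.mem_append, List.mem_cons, List.mem_reverse, mem_seg]
    rcases hc with hc | hc | hc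
    · exact .inl (.inr hc)
    · exact .inr (.inr hc)
    · exact .inr (.inl (.inl ⟨q, hc, hqe.trans (hlow b' (by omega) hb'), rfl⟩))
  have heC : p e ∈ C := by
    have h' := List.mem_of_getLast? h.lastB
    rcases List.mem_cons.1 h' with h' | h'
    · have := hP.inj e hel 0 (by omega) h'; omega
    · simp [C, h']
  have hαC : p α ∈ C := List.mem_append_left _ (List.mem_of_getLast? h.lastA)
  have hcovl : ∀ q ∈ nbrPos G p l (p l), e' ≤ q ∧ q < l ∧ p q ∈ C := by
    intro q hq
    obtain ⟨hql, hq'⟩ := mem_nbrPos.1 hq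
    have hql' : q < l := lt_of_le_of_ne hql fun e'' => hq'.ne (e'' ▸ rfl)
    refine ⟨hlow q hql hq', hql', ?_⟩
    rcases lt_trichotomy q e with h1 | rfl | h1
    · rcases eq_or_lt_of_le (hle.trans (hlow q hql hq')) with rfl | h2'
      · exact hαC
      · simp only [C, Y, List.mem_append, List.mem_cons, List.mem_reverse, mem_seg]
        exact .inr (.inl (.inl ⟨q, h2', hb'max q h1 hq', rfl⟩))
    · exact heC
    · simp only [C, Y, List.mem_append, List.mem_cons, List.mem_reverse, mem_seg]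
      exact .inr (.inl (.inr ⟨q, h1, hql, rfl⟩))
  have hlC : p l ∈ C := by
    rcases eq_or_lt_of_le hel with h' | h'
    · exact h' ▸ heC
    · simp only [C, Y, List.mem_append, List.mem_reverse, mem_seg]
      exact .inr (.inl (.inr ⟨l, h', le_rfl, rfl⟩))
  have hnb0 : ∀ w, G.Adj (p 0) w → w ∈ s → ∃ q ≤ l, p q = w := fun w h h' =>
    let ⟨q, _, hq, e⟩ := hP.first h h'; ⟨q, hq, e⟩
  have hnbl : ∀ w, G.Adj (p l) w → w ∈ s → ∃ q ≤ l, p q = w := fun w h h' =>
    let ⟨q, hq, e⟩ := hP.last h h'; ⟨q, hq.le, e⟩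
  have k0 := (hdeg _ (hP.mem 0 (by omega))).trans (hP.le_card_pos _ hnb0)
  have kl := (hdeg _ (hP.mem l le_rfl)).trans (hP.le_card_pos _ hnbl)
  let S := insert 0 (insert l (nbrPos G p l (p 0) ∪ nbrPos G p l (p l)))
  have hS : ∀ q ∈ S, q ≤ l ∧ p q ∈ C := by
    intro q hq
    simp only [S, Finset.mem_insert, Finset.mem_union] at hq
    rcases hq with rfl | rfl | hq | hq
    exacts [⟨by omega, by simp [C]⟩, ⟨le_rfl, hlC⟩, ⟨(mem_nbrPos.1 hq).1, (hcov q hq).2⟩,
      ⟨(mem_nbrPos.1 hq).1, (hcovl q hq).2.2⟩]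
  have hle' : S.card ≤ C.length := by
    rw [← List.toFinset_card_of_nodup hn]
    exact Finset.card_le_card_of_injOn p (fun q hq => List.mem_toFinset.2 (hS q hq).2)
      fun q hq q' hq' => hP.inj q (hS q hq).1 q' (hS q' hq').1
  have hinter : (nbrPos G p l (p 0) ∩ nbrPos G p l (p l)).card ≤ 1 :=
    Finset.card_le_one.2 fun x hx y hy => by
      rw [Finset.mem_inter] at hx hy
      have := (hcov x hx.1).1; have := (hcovl x hx.2).1
      have := (hcov y hy.1).1; have := (hcovl y hy.2).1
      omega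
  have hScard : 2 * k + 1 ≤ S.card := by
    have h0 : 0 ∉ insert l (nbrPos G p l (p 0) ∪ nbrPos G p l (p l)) := by
      simp only [Finset.mem_insert, Finset.mem_union]
      rintro (h' | h' | h')
      · omega
      · exact (mem_nbrPos.1 h').2.ne rfl
      · obtain ⟨q, hq⟩ := Finset.card_pos.1 (show 0 < (nbrPos G p l (p 0)).card by omega)
        have := (hcov q hq).1
        have hq0 : q ≠ 0 := fun e'' => (mem_nbrPos.1 hq).2.ne (e'' ▸ rfl)
        have := (hcovl 0 h').1
        omega
    have hl' : l ∉ nbrPos G p l (p 0) ∪ nbrPos G p l (p l) := by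
      simp only [Finset.mem_union]
      rintro (h' | h')
      · have := (hcov l h').1; omega
      · have := (hcovl l h').2.1; omega
    have := Finset.card_union_add_card_inter (nbrPos G p l (p 0)) (nbrPos G p l (p l))
    simp only [S, Finset.card_insert_of_notMem h0, Finset.card_insert_of_notMem hl']
    omega
  refine ⟨C, ⟨hn, by omega, hmemC, hchain.1, ?_⟩, by omega, p 0, by simp [C],
    le_ncard_adj (hdeg _ (hP.mem 0 (by omega))) fun w hw hws => ?_⟩
  · intro a ha z hz
    obtain rfl : p 0 = a := by simpa [C] using ha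
    exact hchain.2 z hz
  · obtain ⟨q, hq, rfl⟩ := hnb0 w hw hws
    exact (hcov q (mem_nbrPos.2 ⟨hq, hw⟩)).2

/-- **Dirac**: without a cut vertex and with inner degrees at least `k ≥ 2` there is a cycle on
at least `min |s| (2 k)` vertices, one of which has `k` neighbours on it. -/
theorem exists_diracCycle [DecidableEq V] (hs : Linked G s) (h2 : ∀ v, Linked G (s.erase v))
    (hne : s.Nonempty) (hk : 2 ≤ k) (hdeg : ∀ x ∈ s, k ≤ degIn G s x) :
    ∃ C, DiracCycle G s k C := by
  classical
  obtain ⟨p, l, hP⟩ := exists_longPath (G := G) hne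
  have hnb0 : ∀ w, G.Adj (p 0) w → w ∈ s → ∃ q ≤ l, p q = w := fun w h h' =>
    let ⟨q, _, hq, e⟩ := hP.first h h'; ⟨q, hq, e⟩
  have hnbl : ∀ w, G.Adj (p l) w → w ∈ s → ∃ q ≤ l, p q = w := fun w h h' =>
    let ⟨q, hq, e⟩ := hP.last h h'; ⟨q, hq.le, e⟩
  have k0 := (hdeg _ (hP.mem 0 (Nat.zero_le l))).trans (hP.le_card_pos _ hnb0)
  have kl := (hdeg _ (hP.mem l le_rfl)).trans (hP.le_card_pos _ hnbl)
  have hl : 2 ≤ l := by
    have hsub : nbrPos G p l (p 0) ⊆ Finset.Icc 1 l := fun q hq => by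
      obtain ⟨hql, hq'⟩ := mem_nbrPos.1 hq
      exact Finset.mem_Icc.2 ⟨Nat.pos_of_ne_zero fun e => hq'.ne (e ▸ rfl), hql⟩
    have := Finset.card_le_card hsub
    simp at this
    omega
  by_cases hi : ∃ i < l, G.Adj (p 0) (p (i + 1)) ∧ G.Adj (p l) (p i)
  · obtain ⟨i, hil, h0, h1⟩ := hi
    exact cycle_of_interleave hP hdeg hs hl hil h0 h1
  push Not at hi
  have hA : (nbrPos G p l (p 0)).Nonempty := Finset.card_pos.1 (by omega)
  have hB : (nbrPos G p l (p l)).Nonempty := Finset.card_pos.1 (by omega)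
  obtain ⟨hal, ha⟩ := mem_nbrPos.1 ((nbrPos G p l (p 0)).max'_mem hA)
  obtain ⟨hbl, hb⟩ := mem_nbrPos.1 ((nbrPos G p l (p l)).min'_mem hB)
  have hamax : ∀ q ≤ l, G.Adj (p 0) (p q) → q ≤ (nbrPos G p l (p 0)).max' hA :=
    fun q hq hq' => Finset.le_max' _ q (mem_nbrPos.2 ⟨hq, hq'⟩)
  have hbmin : ∀ q ≤ l, G.Adj (p l) (p q) → (nbrPos G p l (p l)).min' hB ≤ q :=
    fun q hq hq' => Finset.min'_le _ q (mem_nbrPos.2 ⟨hq, hq'⟩)
  generalize (nbrPos G p l (p 0)).max' hA = a at hal ha hamax
  generalize (nbrPos G p l (p l)).min' hB = b at hbl hb hbmin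
  by_cases hba : b < a
  · exact cycle_of_overlap hP hk hdeg hi hal hba ha hb
  have hbl' : b < l := lt_of_le_of_ne hbl fun e => hb.ne (e ▸ rfl)
  obtain ⟨e, α, A, B, hV⟩ := exists_vine hP h2
    (Nat.pos_of_ne_zero fun e => ha.ne (e ▸ rfl)) (by omega) ha hamax
  suffices ∀ n e' e α (A B : List V), l - e ≤ n → Vine G s p l e' e α A B → e' ≤ b →
      ∃ C, DiracCycle G s k C from this _ _ _ _ _ _ le_rfl hV (by omega)
  intro n
  induction n with
  | zero =>
    intro e' e α A B hn hV he
    exact hV.close hP hk hdeg (fun q hq hq' => he.trans (hbmin q hq hq'))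
      (show b < e by omega) hb
  | succ n ih =>
    intro e' e α A B hn hV he
    by_cases hbe : b < e
    · exact hV.close hP hk hdeg (fun q hq hq' => he.trans (hbmin q hq hq')) hbe hb
    · obtain ⟨e'', A', B', hV'⟩ := hV.step hP h2 (by omega)
      exact ih _ _ _ _ _ (by have := hV'.lt; omega) hV' (by omega)

/-- The same, assuming only that no vertex disconnects `s`. -/
theorem exists_diracCycle' [DecidableEq V] (h2 : ∀ v, Linked G (s.erase v))
    (hne : s.Nonempty) (hk : 2 ≤ k) (hdeg : ∀ x ∈ s, k ≤ degIn G s x) :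
    ∃ C, DiracCycle G s k C := by
  classical
  refine exists_diracCycle (fun T hT hT0 hTs => ?_) h2 hne hk hdeg
  by_contra hno
  push Not at hno
  obtain ⟨w, hw, hwT⟩ : ∃ w ∈ s, w ∉ T := by
    by_contra h
    push Not at h
    exact hTs (Finset.Subset.antisymm hT h)
  obtain ⟨y, hy⟩ := hT0
  have hd := hdeg y (hT hy)
  obtain ⟨y', hy'⟩ := Finset.card_pos.1 (show 0 < (s.filter fun z => G.Adj y z).card by
    simp only [degIn] at hd; omega)
  obtain ⟨hy's, hyy⟩ := Finset.mem_filter.1 hy'
  have hy'T : y' ∈ T := by_contra fun h => hno y hy y' hy's h hyy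
  obtain ⟨a, ha, b, hb, hbT, hab⟩ := h2 y (T.erase y) (Finset.erase_subset_erase y hT)
    ⟨y', Finset.mem_erase.2 ⟨hyy.ne', hy'T⟩⟩ (fun e => by
      have : w ∈ T.erase y := e ▸ Finset.mem_erase.2 ⟨fun h => hwT (h ▸ hy), hw⟩
      exact hwT (Finset.mem_of_mem_erase this))
  obtain ⟨hby, hbs⟩ := Finset.mem_erase.1 hb
  exact hno a (Finset.mem_of_mem_erase ha) b hbs
    (fun h => hbT (Finset.mem_erase.2 ⟨hby, h⟩)) hab

end Vale.Agent.P048C
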