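import Vale.Agent.P048.Path
import Vale.Agent.P048C.Dirac

/-!
# Common definitions for the cycle-complete argument

`Setup` is a minimal counterexample to `|U| ≤ a d` for sets without an independent set of more
than `a` members in a graph without a cycle of length `d + 1`. A blob is a small dense set.
-/

namespace Vale.Agent.P048C

variable {V : Type*} (G : SimpleGraph V)

/-- No two members are adjacent. -/
def Indep (s : Finset V) : Prop := ∀ x ∈ s, ∀ y ∈ s, ¬ G.Adj x y

/-- Every independent subset of `U` has at most `a` members. -/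
def AlphaLe (U : Finset V) (a : ℕ) : Prop := ∀ T ⊆ U, Indep G T → T.card ≤ a

/-- A minimal counterexample. -/
structure Setup (U : Finset V) (d a : ℕ) : Prop where
  alpha : AlphaLe G U a
  le : a ≤ d
  card : a * d < U.card
  small : ∀ W ⊆ U, ∀ k < a, AlphaLe G W k → W.card ≤ k * d
  deg : ∀ x ∈ U, d ≤ degIn G U x
  noCyc : ¬ Vale.Agent.P048.Cyc G (d + 1)

/-- At most `d - 1` vertices, each with at least `d / 2 + 1` neighbours among them. -/
def Blob (d : ℕ) (B : Finset V) : Prop :=
  B.Nonempty ∧ B.card < d ∧ ∀ x ∈ B, d / 2 + 1 ≤ degIn G B x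

/-- A path from `u` to `v` on exactly `n` vertices, all in `X`. -/
def PathOn (X : Finset V) (u v : V) (n : ℕ) : Prop :=
  ∃ l : List V, l.Nodup ∧ l.IsChain G.Adj ∧ l.head? = some u ∧ l.getLast? = some v ∧
    (∀ z ∈ l, z ∈ X) ∧ l.length = n

/-- `z` can be reached from `y` inside `X` by a path with at most `k` steps. -/
def Within (X : Finset V) (y z : V) (k : ℕ) : Prop := ∃ n ≤ k + 1, PathOn G X y z n

/-- Roots in `S` are joined through `R`: whenever at least two roots are involved, some
two-colouring separates them and all differently coloured pairs have a path of one common length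
`lam ≤ Λ` with interior in `R`. -/
def RootLink (R S : Finset V) (Λ : ℕ) : Prop :=
  ∀ S' ⊆ S, 1 < S'.card → ∃ (f : V → Bool) (lam : ℕ), (∃ y ∈ S', ∃ y' ∈ S', f y ≠ f y') ∧
    2 ≤ lam ∧ lam ≤ Λ ∧ ∀ y ∈ S', ∀ y' ∈ S', f y ≠ f y' →
      ∃ l : List V, l.Nodup ∧ (y :: (l ++ [y'])).IsChain G.Adj ∧ (∀ z ∈ l, z ∈ R) ∧
        l.length + 1 = lam

end Vale.Agent.P048C
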