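import Vale.Agent.P048C.NB
import Vale.Agent.P048C.Critical

/-!
# Paths between two colours inside a critical set

A critical set with at least three colours to spare is connected, has three neighbours for every
member, is not bipartite and has Dirac's cycle, so every nonconstant colouring has paths of every
length below `min |U| (2 t)` with ends of different colours.
-/

namespace Vale.Agent.P048C

open Finset

variable {V α : Type*} {G : SimpleGraph V} {U : Finset V} {t l : ℕ}

/-- A critical set is connected. -/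
theorem Critical.linked_self [DecidableEq V] (hU : Critical G t U) (ht : 1 ≤ t) :
    Linked G U := by
  classical
  intro T hT hT0 hTne
  obtain ⟨v, hv, hvT⟩ : ∃ v ∈ U, v ∉ T := by
    by_contra h
    push Not at h
    exact hTne (Finset.Subset.antisymm hT h)
  by_cases he : T = U.erase v
  · have hdeg := ht.trans (hU.deg v hv)
    obtain ⟨w, hw⟩ := Finset.card_pos.1 (show 0 < degIn G U v from hdeg)
    obtain ⟨hwU, hvw⟩ := Finset.mem_filter.1 hw
    exact ⟨w, he ▸ Finset.mem_erase.2 ⟨hvw.ne', hwU⟩, v, hv, hvT, hvw.symm⟩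
  · obtain ⟨a, ha, b, hb, hbT, hab⟩ := hU.linked v T
      (fun x hx => Finset.mem_erase.2 ⟨fun e => hvT (e ▸ hx), hT hx⟩) hT0 he
    exact ⟨a, ha, b, Finset.mem_of_mem_erase hb, hbT, hab⟩

/-- Inside a critical set every short length joins two colours. -/
theorem Critical.exists_bichromatic_path [DecidableEq V] (hU : Critical G t U) (ht : 3 ≤ t)
    (hl0 : 0 < l) (hlU : l < U.card) (hlt : l < 2 * t) {c : V → α}
    (hc : ∃ x ∈ U, ∃ y ∈ U, c x ≠ c y) :
    ∃ P : List V, P.Nodup ∧ P.IsChain G.Adj ∧ (∀ z ∈ P, z ∈ U) ∧ P.length = l + 1 ∧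
      ∃ a ∈ P.head?, ∃ b ∈ P.getLast?, c a ≠ c b := by
  obtain ⟨h2, C, hC⟩ := hU.exists_cycle (by omega)
  refine Vale.Agent.P048C.exists_bichromatic_path hC.1 hl0
    (lt_of_lt_of_le (lt_min hlU hlt) hC.2.1) (hU.linked_self (by omega))
    (fun x hx => ht.trans (hU.deg x hx)) (fun f => ?_) hc
  by_contra hf
  push Not at hf
  refine h2 ⟨fun v => if f v then 1 else 0, fun v _ => by dsimp only; split_ifs <;> omega,
    fun x hx y hy e h => hf x hx y hy e ?_⟩
  cases hx' : f x <;> cases hy' : f y <;> simp_all

end Vale.Agent.P048C
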