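import Vale.Agent.P048C.Layers
import Vale.Agent.P048C.CriticalPath

/-!
# The engine

In a smallest counterexample, grow layers from a set `S` of roots joined through `R`. If every
layer up to `K` can be coloured with `t` colours, the parity sums of the layers' independence
numbers grow in every step, and soon exceed `a`. So some layer carries a critical set, and closing
cycles through the tree shows that it has fewer than `d` members.
-/

namespace Vale.Agent.P048C

open Finset Vale.Agent.P048

variable {V : Type*} {G : SimpleGraph V} {U X R S : Finset V} {d a t : ℕ}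

/-- The sum of the independence numbers of the layers `i, i - 2, …`. -/
noncomputable def parSum (G : SimpleGraph V) (X S : Finset V) : ℕ → ℕ
  | 0 => S.card
  | 1 => alphaIn G (layer G X S 1)
  | i + 2 => parSum G X S i + alphaIn G (layer G X S (i + 2))

theorem parSum_le_ball (hS : S ⊆ X) (hI : Indep G S) :
    ∀ i, parSum G X S i ≤ alphaIn G (ball G X S i)
  | 0 => (alphaIn_of_indep hI).ge
  | 1 => alphaIn_mono (layer_subset 1)
  | i + 2 => by
    classical
    refine (Nat.add_le_add_right (parSum_le_ball hS hI i) _).trans ((alphaIn_union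
      ((disjoint_ball_layer (i + 1)).mono_left (ball_subset_succ i)) fun y hy x hx => ?_).trans
      (alphaIn_mono (Finset.union_subset (ball_mono (by omega)) (layer_subset _))))
    exact not_adj_ball (layer_mem hS hx)
      (fun h => Finset.disjoint_left.1 (disjoint_ball_layer (i + 1)) h hx) hy

theorem card_ball_le (ht : 1 ≤ t) : ∀ i,
    (∀ j, 1 ≤ j → j ≤ i + 1 → ColorableIn G (layer G X S j) t) →
      (ball G X S (i + 1)).card + (t - 1) * S.card ≤
        t * (parSum G X S i + parSum G X S (i + 1)) := by
  classical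
  intro i
  induction i with
  | zero =>
    intro hc
    have h1 := (hc 1 le_rfl le_rfl).card_le_alphaIn
    rw [ball_succ, Finset.card_union_of_disjoint (disjoint_ball_layer 0)]
    obtain ⟨u, rfl⟩ : ∃ u, t = u + 1 := ⟨t - 1, by omega⟩
    simp only [ball, parSum, Nat.add_sub_cancel, zero_add, Nat.mul_add, Nat.add_mul, one_mul] at *
    omega
  | succ i ih =>
    intro hc
    have h1 := (hc (i + 2) (by omega) le_rfl).card_le_alphaIn
    have h2 := ih fun j h1 h2 => hc j h1 (by omega)
    have h3 : (ball G X S (i + 2)).card =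
        (ball G X S (i + 1)).card + (layer G X S (i + 2)).card := by
      rw [ball_succ, Finset.card_union_of_disjoint (disjoint_ball_layer (i + 1))]
    show (ball G X S (i + 2)).card + _ ≤ t * (parSum G X S (i + 1) + parSum G X S (i + 2))
    simp only [parSum, Nat.mul_add] at *
    omega

/-- One step: the parity sums grow. -/
theorem Setup.parSum_step [DecidableEq V] (h : Setup G U d a) (hS : S ⊆ U \ R) (hS0 : S.Nonempty)
    (hI : Indep G S) (ht : 1 ≤ t) {i : ℕ}
    (hc : ∀ j, 1 ≤ j → j ≤ i + 1 → ColorableIn G (layer G (U \ R) S j) t) :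
    1 + (t - 1) * S.card + d * parSum G (U \ R) S i ≤
      R.card + t * parSum G (U \ R) S i + t * parSum G (U \ R) S (i + 1) := by
  let Y := (U \ R) \ ball G (U \ R) S (i + 1)
  have hsum := (alphaIn_union (G := G) (U := ball G (U \ R) S i) (W := Y)
    ((Finset.disjoint_sdiff).mono_left (ball_subset_succ i)) fun y hy x hx => by
      rw [Finset.mem_sdiff] at hx
      exact not_adj_ball hx.1 hx.2 hy).trans
    (alphaIn_mono (W := U) (Finset.union_subset ((ball_subset hS i).trans Finset.sdiff_subset)
      (Finset.sdiff_subset.trans Finset.sdiff_subset)))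
  have ha := hsum.trans h.alphaIn_le_a
  have hp := parSum_le_ball hS hI i
  have h0 : 0 < alphaIn G (ball G (U \ R) S i) := by
    have := card_le_alphaIn (G := G) (ball_mono (G := G) (X := U \ R) (S := S) (Nat.zero_le i)) hI
    have := hS0.card_pos
    simp only [ball] at *
    omega
  have hY := h.card_le (W := Y) (Finset.sdiff_subset.trans Finset.sdiff_subset) (by omega)
  have hU : U.card ≤ R.card + (ball G (U \ R) S (i + 1)).card + Y.card := by
    refine (Finset.card_le_card (t := R ∪ ball G (U \ R) S (i + 1) ∪ Y) fun x hx => ?_).trans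
      ((Finset.card_union_le _ _).trans (Nat.add_le_add_right (Finset.card_union_le _ _) _))
    simp only [Y, Finset.mem_union, Finset.mem_sdiff]
    tauto
  have hb := card_ball_le (G := G) (X := U \ R) (S := S) ht i hc
  have hm : (alphaIn G Y + parSum G (U \ R) S i) * d ≤ a * d :=
    Nat.mul_le_mul_right d (by omega)
  have := h.card
  rw [Nat.add_mul, Nat.mul_comm (parSum G (U \ R) S i) d] at hm
  rw [Nat.mul_add] at hb
  omega

theorem Setup.parSum_le [DecidableEq V] (h : Setup G U d a) (hS : S ⊆ U \ R) (hI : Indep G S)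
    (i : ℕ) : parSum G (U \ R) S i ≤ a :=
  ((parSum_le_ball hS hI i).trans
    (alphaIn_mono ((ball_subset hS i).trans Finset.sdiff_subset))).trans h.alphaIn_le_a

/-- A critical set in a layer has fewer than `d` members, and at most `d - 3` unless it lies
under one vertex. -/
theorem critical_in_layer [DecidableEq V] (hno : ¬ Cyc G (d + 1)) (hS : S ⊆ X)
    (hXR : Disjoint X R) {Λ j : ℕ} (hj : 1 ≤ j) (hlink : RootLink G R S Λ)
    (hjd : 2 * j + Λ ≤ d) (ht : 3 ≤ t) (htd : d ≤ 2 * t) {W : Finset V}
    (hW : W ⊆ layer G X S j) (hcrit : Critical G t W) :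
    W.card + 1 ≤ d ∧
      (W.card + 3 ≤ d ∨ ∃ w ∈ layer G X S (j - 1), ∀ x ∈ W, G.Adj x w) := by
  classical
  obtain ⟨x₀, hx₀⟩ : W.Nonempty := Finset.card_pos.1 (lt_of_le_of_lt (Nat.zero_le t) hcrit.lt_card)
  by_cases hall : ∀ x ∈ W, ∀ y ∈ W, anc G X S j x = anc G X S j y
  · have hex : ∃ h, ∀ x ∈ W, ∀ y ∈ W, anc G X S h x = anc G X S h y := ⟨j, hall⟩
    have hhj : Nat.find hex ≤ j := Nat.find_min' hex hall
    have hh1 : 1 ≤ Nat.find hex := by
      by_contra h0
      have h0' : Nat.find hex = 0 := by omega
      have hs := Nat.find_spec hex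
      rw [h0'] at hs
      have := Finset.card_le_one.2 hs
      have := hcrit.lt_card
      omega
    have hkey : W.card + 2 * Nat.find hex ≤ d + 1 := by
      by_contra hlt
      obtain ⟨P, hPn, hPc, hPm, hPl, x, hx, y, hy, hne⟩ := hcrit.exists_bichromatic_path
        (l := d + 1 - 2 * Nat.find hex) (c := fun x => anc G X S (Nat.find hex - 1) x)
        ht (by omega) (by omega) (by omega) (by
          have := Nat.find_min hex (show Nat.find hex - 1 < Nat.find hex by omega)
          push Not at this
          exact this)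
      rw [Option.mem_def] at hx hy
      have := cyc_meet (G := G) (X := X) (S := S) hh1 hhj (by omega) hPn hPc
        (fun z hz => hW (hPm z hz)) hx hy hPl
        (Nat.find_spec hex x (hPm x (List.mem_of_head? hx)) y (hPm y (List.mem_of_getLast? hy))) hne
      exact hno (by rwa [show d + 1 - 2 * Nat.find hex + 2 * Nat.find hex = d + 1 by omega] at this)
    refine ⟨by omega, ?_⟩
    by_cases h1 : Nat.find hex = 1
    · have hs := Nat.find_spec hex
      rw [h1] at hs
      refine .inr ⟨anc G X S 1 x₀, anc_mem (hW hx₀) 1 hj, fun x hx => ?_⟩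
      rw [← hs x hx x₀ hx₀]
      simpa [anc_zero] using anc_adj (X := X) (S := S) (hW hx) (show 0 < j by omega)
    · exact .inl (by omega)
  · push Not at hall
    obtain ⟨x₁, hx₁, y₁, hy₁, hne₁⟩ := hall
    have hroot : ∀ x ∈ W, anc G X S j x ∈ S := fun x hx => by
      simpa [layer_zero] using anc_mem (X := X) (S := S) (hW hx) j le_rfl
    obtain ⟨f, lam, ⟨u, hu, v, hv, huv⟩, hlam2, hlamΛ, hjoin⟩ :=
      hlink (W.image (anc G X S j)) (Finset.image_subset_iff.2 hroot)
        (Finset.one_lt_card.2 ⟨_, Finset.mem_image_of_mem _ hx₁, _,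
          Finset.mem_image_of_mem _ hy₁, hne₁⟩)
    suffices hkey : W.card + 2 * j + lam ≤ d + 1 from ⟨by omega, .inl (by omega)⟩
    by_contra hlt
    obtain ⟨x', hx', rfl⟩ := Finset.mem_image.1 hu
    obtain ⟨y', hy', rfl⟩ := Finset.mem_image.1 hv
    obtain ⟨P, hPn, hPc, hPm, hPl, x, hx, y, hy, hne⟩ := hcrit.exists_bichromatic_path
      (l := d + 1 - 2 * j - lam) (c := fun x => f (anc G X S j x))
      ht (by omega) (by omega) (by omega) ⟨x', hx', y', hy', huv⟩
    rw [Option.mem_def] at hx hy
    have := cyc_roots (G := G) (R := R) (X := X) (S := S) hS hXR (show 1 ≤ d + 1 - 2 * j - lam by omega)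
      hlam2 (hjoin _ (Finset.mem_image_of_mem _ (hPm y (List.mem_of_getLast? hy))) _
        (Finset.mem_image_of_mem _ (hPm x (List.mem_of_head? hx))) hne.symm)
      hPn hPc (fun z hz => hW (hPm z hz)) hx hy hPl fun e => hne (congrArg f e)
    exact hno (by rwa [show d + 1 - 2 * j - lam + 2 * j + lam = d + 1 by omega] at this)

/-- The engine. With `2 * t ≤ d + e`, a growth `g` per step and `K` steps past `a`, some layer
carries a critical set of fewer than `d` members. -/
theorem Setup.exists_small_critical [DecidableEq V] (h : Setup G U d a) (hS : S ⊆ U \ R)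
    (hS0 : S.Nonempty) (hI : Indep G S) {Λ K e g : ℕ} (hlink : RootLink G R S Λ)
    (hKd : 2 * K + Λ ≤ d) (ht : 3 ≤ t) (htd : d ≤ 2 * t) (he : 2 * t ≤ d + e)
    (hg : g * t + R.card + e * a ≤ (t - 1) * S.card + t) (hK : a < S.card + K * g) :
    ∃ j W, 1 ≤ j ∧ j ≤ K ∧ W ⊆ layer G (U \ R) S j ∧ Critical G t W ∧ W.card + 1 ≤ d ∧
      (W.card + 3 ≤ d ∨ ∃ w ∈ layer G (U \ R) S (j - 1), ∀ x ∈ W, G.Adj x w) := by
  by_contra hno
  push Not at hno
  have hcol : ∀ j, 1 ≤ j → j ≤ K → ColorableIn G (layer G (U \ R) S j) t := by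
    intro j h1 h2
    by_contra hn
    obtain ⟨W, hW, hcrit⟩ := exists_critical hn
    obtain ⟨ha, hb⟩ := critical_in_layer (G := G) h.noCyc hS Finset.sdiff_disjoint h1 hlink
      (by omega) ht htd hW hcrit
    obtain ⟨hc, hd⟩ := hno j W h1 h2 hW hcrit ha
    rcases hb with hb | ⟨w, hw, hw'⟩
    · omega
    · obtain ⟨x, hx, hxw⟩ := hd w hw
      exact hxw (hw' x hx)
  have hgrow : ∀ i ≤ K, S.card + i * g ≤ parSum G (U \ R) S i := by
    intro i hi
    induction i with
    | zero => simp [parSum]
    | succ i ih =>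
      have hstep := h.parSum_step hS hS0 hI (i := i) (t := t) (by omega)
        fun j h1 h2 => hcol j h1 (by omega)
      have hle := h.parSum_le hS hI i
      have h2 := ih (by omega)
      have h3 : 2 * t * parSum G (U \ R) S i ≤ (d + e) * parSum G (U \ R) S i :=
        Nat.mul_le_mul_right _ he
      have h4 : e * parSum G (U \ R) S i ≤ e * a := Nat.mul_le_mul_left _ hle
      rw [Nat.mul_assoc, two_mul, Nat.add_mul] at h3
      have h6 : t * (parSum G (U \ R) S i + g) < t * (parSum G (U \ R) S (i + 1) + 1) := by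
        rw [Nat.mul_add, Nat.mul_add, Nat.mul_one, Nat.mul_comm t g]
        omega
      have := Nat.lt_of_mul_lt_mul_left h6
      rw [Nat.add_mul, one_mul]
      omega
  have := hgrow K le_rfl
  have := h.parSum_le hS hI K
  omega

end Vale.Agent.P048C
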