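import Vale.Agent.P048C.Engine

/-!
# The engine in the form used by the main argument

Around roots `S` from which no blob can be reached in `K` steps, there are independent sets
`A 0 = |S|, A 1, …, A K` with explicit witnesses near `S` that grow by the engine's recursion.
-/

namespace Vale.Agent.P048C

open Finset Vale.Agent.P048

variable {V : Type*} {G : SimpleGraph V} {U X R S : Finset V} {d a : ℕ}

/-- The first member of `layer j` above which `z` lies is reached from it by `j` steps. -/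
theorem within_root (hS : S ⊆ X) {j : ℕ} {z : V} (hz : z ∈ layer G X S j) :
    anc G X S j z ∈ S ∧ Within G X (anc G X S j z) z j := by
  refine ⟨by simpa [layer_zero] using anc_mem (X := X) (S := S) hz j le_rfl, j + 1, le_rfl,
    (z :: up G X S j z).reverse, List.nodup_reverse.2 (cons_up_nodup hz le_rfl),
    reverse_up_chain hz le_rfl, head?_reverse_up j z, by simp [List.getLast?_reverse],
    fun w hw => ?_, by simp [length_up]⟩
  rcases List.mem_cons.1 (List.mem_reverse.1 hw) with rfl | hw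
  · exact layer_mem hS hz
  · obtain ⟨i, -, h⟩ := up_layer hz le_rfl hw
    exact layer_mem hS h

theorem Within.mono {y z : V} {i j : ℕ} (h : Within G X y z i) (hij : i ≤ j) : Within G X y z j := by
  obtain ⟨n, hn, hp⟩ := h
  exact ⟨n, by omega, hp⟩

/-- The parity sums are realised by independent sets in the layers `i, i - 2, …`. -/
theorem parSum_witness (hS : S ⊆ X) (hI : Indep G S) : ∀ i, ∃ I ⊆ X, Indep G I ∧
    I.card = parSum G X S i ∧ ∀ z ∈ I, ∃ j ≤ i, j % 2 = i % 2 ∧ z ∈ layer G X S j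
  | 0 => ⟨S, hS, hI, rfl, fun z hz => ⟨0, le_rfl, rfl, hz⟩⟩
  | 1 => by
    obtain ⟨I, hI1, hIi, e⟩ := exists_alphaIn G (layer G X S 1)
    exact ⟨I, fun z hz => layer_mem hS (hI1 hz), hIi, e, fun z hz => ⟨1, le_rfl, rfl, hI1 hz⟩⟩
  | i + 2 => by
    classical
    obtain ⟨I, hIX, hIi, e, hl⟩ := parSum_witness hS hI i
    obtain ⟨J, hJ, hJi, eJ⟩ := exists_alphaIn G (layer G X S (i + 2))
    have hball : ∀ z ∈ I, z ∈ ball G X S i := fun z hz => by
      obtain ⟨j, hj, -, hzl⟩ := hl z hz
      exact ball_mono hj (layer_subset j hzl)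
    have hfar : ∀ z ∈ I, ∀ w ∈ J, ¬ G.Adj z w := fun z hz w hw =>
      not_adj_ball (layer_mem hS (hJ hw))
        (fun h => Finset.disjoint_left.1 (disjoint_ball_layer (i + 1)) h (hJ hw)) (hball z hz)
    refine ⟨I ∪ J, Finset.union_subset hIX fun w hw => layer_mem hS (hJ hw), ?_, ?_, ?_⟩
    · intro x hx y hy
      rcases Finset.mem_union.1 hx with hx | hx <;> rcases Finset.mem_union.1 hy with hy | hy
      · exact hIi x hx y hy
      · exact hfar x hx y hy
      · exact fun e => hfar y hy x hx e.symm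
      · exact hJi x hx y hy
    · rw [Finset.card_union_of_disjoint, e, eJ]
      · rfl
      · exact Finset.disjoint_left.2 fun z hz hzJ => Finset.disjoint_left.1
          (disjoint_ball_layer (i + 1)) (ball_subset_succ i (hball z hz)) (hJ hzJ)
    · intro z hz
      rcases Finset.mem_union.1 hz with hz | hz
      · obtain ⟨j, hj, hp, hzl⟩ := hl z hz
        exact ⟨j, by omega, by omega, hzl⟩
      · exact ⟨i + 2, le_rfl, rfl, hJ hz⟩

/-- The engine: growing independent sets near clean roots. -/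
theorem engine [DecidableEq V] (h : Setup G U d a) (hd : 4 ≤ d) (hS : S ⊆ U \ R)
    (hS0 : S.Nonempty) (hSi : Indep G S) {Λ K : ℕ} (hlink : RootLink G R S Λ)
    (hK : 2 * K + Λ ≤ d)
    (hclean : ∀ B, Blob G d B → B ⊆ U \ R → ∀ z ∈ B, ∀ y ∈ S, ¬ Within G (U \ R) y z K) :
    ∃ A : ℕ → ℕ, A 0 = S.card ∧
      (∀ i ≤ K, ∃ I ⊆ U \ R, Indep G I ∧ I.card = A i ∧
        ∀ z ∈ I, (∃ y ∈ S, Within G (U \ R) y z i) ∧ (Odd i → z ∉ S)) ∧
      ∀ i < K, (d - (d / 2 + 1)) * A i + S.card * (d / 2) + 1 ≤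
        R.card + (d / 2 + 1) * A (i + 1) := by
  classical
  have hcol : ∀ j, 1 ≤ j → j ≤ K → ColorableIn G (layer G (U \ R) S j) (d / 2 + 1) := by
    intro j h1 h2
    by_contra hn
    obtain ⟨W, hW, hcrit⟩ := exists_critical hn
    obtain ⟨hcard, -⟩ := critical_in_layer (G := G) h.noCyc hS Finset.sdiff_disjoint h1 hlink
      (by omega) (by omega) (by omega) hW hcrit
    obtain ⟨z, hz⟩ : W.Nonempty :=
      Finset.card_pos.1 (lt_of_le_of_lt (Nat.zero_le _) hcrit.lt_card)
    obtain ⟨hy, hw⟩ := within_root hS (hW hz)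
    exact hclean W ⟨⟨z, hz⟩, by omega, hcrit.deg⟩ (fun w hw => layer_mem hS (hW hw)) z hz _ hy
      (hw.mono h2)
  refine ⟨parSum G (U \ R) S, rfl, fun i _ => ?_, fun i hi => ?_⟩
  · obtain ⟨I, hIX, hIi, e, hl⟩ := parSum_witness hS hSi i
    refine ⟨I, hIX, hIi, e, fun z hz => ?_⟩
    obtain ⟨j, hj, hp, hzl⟩ := hl z hz
    obtain ⟨hy, hw⟩ := within_root hS hzl
    refine ⟨⟨_, hy, hw.mono hj⟩, fun hodd hzS => ?_⟩
    have := layer_inj (i := 0) (by rwa [layer_zero]) hzl
    subst this
    rw [Nat.odd_iff] at hodd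
    omega
  · have hstep := h.parSum_step hS hS0 hSi (i := i) (t := d / 2 + 1) (by omega)
      fun j h1 h2 => hcol j h1 (by omega)
    rw [Nat.sub_mul, Nat.mul_comm S.card]
    have : (d / 2 + 1) * parSum G (U \ R) S i ≤ d * parSum G (U \ R) S i :=
      Nat.mul_le_mul_right _ (by omega)
    simp only [Nat.add_sub_cancel] at hstep
    omega

end Vale.Agent.P048C
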