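import Vale.Agent.P048C.EngineForm

/-!
# Short connections

`Within` composes: a walk inside a set contains a path inside it.
-/

namespace Vale.Agent.P048C

variable {V : Type*} {G : SimpleGraph V} {X Y : Finset V} {u v w : V} {i j k : ℕ}

theorem pathOn_self (h : u ∈ X) : PathOn G X u u 1 :=
  ⟨[u], List.nodup_singleton u, List.isChain_singleton u, rfl, rfl, by simp [h], rfl⟩

theorem within_self (h : u ∈ X) (k : ℕ) : Within G X u u k := ⟨1, by omega, pathOn_self h⟩

theorem Within.mono_set (h : Within G X u v i) (hXY : X ⊆ Y) : Within G Y u v i := by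
  obtain ⟨n, hn, l, h1, h2, h3, h4, h5, h6⟩ := h
  exact ⟨n, hn, l, h1, h2, h3, h4, fun z hz => hXY (h5 z hz), h6⟩

/-- Dropping the loops of a walk leaves a path. -/
theorem within_of_chain : ∀ (l : List V) (u : V), (u :: l).IsChain G.Adj →
    (∀ z ∈ u :: l, z ∈ X) → ∀ {v : V}, (u :: l).getLast? = some v → Within G X u v l.length := by
  intro l
  induction l with
  | nil =>
    intro u _ hm v hv
    obtain rfl : u = v := by simpa using hv
    exact within_self (hm u List.mem_cons_self) _
  | cons b l ih =>
    intro u hc hm v hv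
    obtain ⟨hub, hc'⟩ := List.isChain_cons_cons.1 hc
    obtain ⟨n, hn, P, hPn, hPc, hPh, hPl, hPm, hPlen⟩ :=
      ih b hc' (fun z hz => hm z (List.mem_cons_of_mem _ hz)) (by simpa using hv)
    by_cases huP : u ∈ P
    · obtain ⟨A, C, rfl⟩ := List.append_of_mem huP
      refine ⟨(u :: C).length, ?_, u :: C, hPn.of_append_right, hPc.right_of_append, rfl, ?_,
        fun z hz => hPm z (List.mem_append_right _ hz), rfl⟩
      · simp only [List.length_append, List.length_cons] at hPlen ⊢
        omega
      · rw [List.getLast?_append] at hPl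
        rw [List.getLast?_eq_some_getLast (List.cons_ne_nil u C)] at hPl ⊢
        simpa using hPl
    · refine ⟨P.length + 1, ?_, u :: P, List.nodup_cons.2 ⟨huP, hPn⟩, ?_, rfl, ?_, ?_, by simp⟩
      · simp only [List.length_cons]
        omega
      · refine List.isChain_cons.2 ⟨fun y hy => ?_, hPc⟩
        rw [hPh] at hy
        obtain rfl : b = y := by simpa using hy
        exact hub
      · cases P with
        | nil => simp at hPh
        | cons p P => simpa using hPl
      · intro z hz
        rcases List.mem_cons.1 hz with rfl | hz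
        · exact hm _ List.mem_cons_self
        · exact hPm z hz

theorem Within.symm (h : Within G X u v i) : Within G X v u i := by
  obtain ⟨n, hn, l, h1, h2, h3, h4, h5, h6⟩ := h
  refine ⟨n, hn, l.reverse, List.nodup_reverse.2 h1, ?_, by simpa using h4, by simpa using h3,
    fun z hz => h5 z (List.mem_reverse.1 hz), by simpa using h6⟩
  rw [List.isChain_reverse]
  exact h2.imp fun _ _ e => e.symm

theorem Within.trans (h₁ : Within G X u v i) (h₂ : Within G X v w j) :
    Within G X u w (i + j) := by
  obtain ⟨n, hn, l, -, hc, hh, hl, hm, hlen⟩ := h₁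
  obtain ⟨n', hn', l', -, hc', hh', hl', hm', hlen'⟩ := h₂
  obtain ⟨r, rfl⟩ : ∃ r, l = u :: r := by
    cases l with
    | nil => simp at hh
    | cons a r => exact ⟨r, by simp at hh; rw [hh]⟩
  obtain ⟨r', rfl⟩ : ∃ r', l' = v :: r' := by
    cases l' with
    | nil => simp at hh'
    | cons a r' => exact ⟨r', by simp at hh'; rw [hh']⟩
  have hlast : ((u :: r) ++ r').getLast? = some w := by
    cases r' with
    | nil =>
      obtain rfl : v = w := by simpa using hl'
      simpa using hl
    | cons a r' =>
      rw [List.getLast?_append]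
      simp only [List.getLast?_cons_cons] at hl'
      simp [hl']
  have hchain : ((u :: r) ++ r').IsChain G.Adj := by
    refine List.isChain_append.2 ⟨hc, hc'.tail, fun x hx y hy => ?_⟩
    obtain rfl : v = x := by rw [hl] at hx; simpa using hx
    exact (List.isChain_cons.1 hc').1 y hy
  refine (within_of_chain (r ++ r') u (by simpa using hchain) (fun z hz => ?_)
    (by simpa using hlast)).mono ?_
  · rcases List.mem_append.1 (show z ∈ (u :: r) ++ r' by simpa using hz) with h | h
    · exact hm z h
    · exact hm' z (List.mem_cons_of_mem _ h)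
  · simp only [List.length_cons, List.length_append] at hlen hlen' ⊢
    omega

theorem Within.of_adj (hu : u ∈ X) (hv : v ∈ X) (h : G.Adj u v) : Within G X u v 1 :=
  ⟨2, by omega, [u, v], by simp [h.ne], by simp [h], rfl, rfl, by simp [hu, hv], rfl⟩

theorem Within.right_mem (h : Within G X u v i) : v ∈ X := by
  obtain ⟨n, hn, l, h1, h2, h3, h4, h5, h6⟩ := h
  exact h5 v (List.mem_of_getLast? h4)

theorem Within.left_mem (h : Within G X u v i) : u ∈ X := h.symm.right_mem

/-- A blob has more than `d / 2 + 1` members. -/
theorem Blob.lt_card {d : ℕ} {B : Finset V} (hB : Blob G d B) : d / 2 + 1 < B.card := by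
  classical
  obtain ⟨x, hx⟩ := hB.1
  refine lt_of_le_of_lt (hB.2.2 x hx) (Finset.card_lt_card ?_)
  rw [Finset.ssubset_iff_of_subset (Finset.filter_subset _ _)]
  exact ⟨x, hx, by simp⟩

end Vale.Agent.P048C
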