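import Vale.Agent.P048C.Pancon
import Vale.Agent.P048C.Walks

/-!
# No wheel on `d` vertices

In a smallest counterexample no vertex is adjacent to all of a cycle on `d - 1` vertices: two
members of such a wheel are joined inside it by paths on `d`, `d - 1` and `d - 2` vertices, so
their outside neighbours give too large an independent set.
-/

namespace Vale.Agent.P048C

open Finset Vale.Agent.P048

variable {V : Type*} {G : SimpleGraph V} {U s : Finset V} {C : List V} {d a : ℕ}

/-- The member of a cycle at a position taken cyclically. -/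
def cycAt (hC : CycleIn G s C) (i : ℕ) : V :=
  C[i % C.length]'(Nat.mod_lt _ (by have := hC.three_le; omega))

/-- `k` consecutive members from position `i` on. -/
def cycRun (hC : CycleIn G s C) (i k : ℕ) : List V := (List.range k).map fun j => cycAt hC (i + j)

variable (hC : CycleIn G s C)
include hC

theorem cycAt_mem (i : ℕ) : cycAt hC i ∈ C := List.getElem_mem _

theorem cycAt_adj (i : ℕ) : G.Adj (cycAt hC i) (cycAt hC (i + 1)) := hC.adj_mod i

theorem cycAt_inj {i j : ℕ} (h : cycAt hC i = cycAt hC j) : i % C.length = j % C.length :=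
  (hC.nodup.getElem_inj_iff).1 h

theorem cycAt_ne {i j : ℕ} (hij : i < j) (hj : j < i + C.length) : cycAt hC i ≠ cycAt hC j := by
  intro h
  have h3 := Nat.sub_mod_eq_zero_of_mod_eq (cycAt_inj hC h).symm
  rw [Nat.mod_eq_of_lt (by omega)] at h3
  omega

theorem cycAt_add_length (i : ℕ) : cycAt hC (i + C.length) = cycAt hC i := by
  simp [cycAt]

theorem exists_cycAt {x : V} (hx : x ∈ C) : ∃ i < C.length, cycAt hC i = x := by
  obtain ⟨i, hi, rfl⟩ := List.getElem_of_mem hx
  exact ⟨i, hi, by simp [cycAt, Nat.mod_eq_of_lt hi]⟩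

theorem length_cycRun (i k : ℕ) : (cycRun hC i k).length = k := by simp [cycRun]

theorem mem_cycRun {i k : ℕ} {z : V} :
    z ∈ cycRun hC i k ↔ ∃ j < k, cycAt hC (i + j) = z := by simp [cycRun]

theorem chain_cycRun (i k : ℕ) : (cycRun hC i k).IsChain G.Adj := by
  rw [List.isChain_iff_getElem]
  intro j hj
  simp only [cycRun, List.getElem_map, List.getElem_range]
  exact cycAt_adj hC (i + j)

theorem nodup_cycRun {i k : ℕ} (hk : k ≤ C.length) : (cycRun hC i k).Nodup := by
  refine (List.nodup_range).map_on fun p hp q hq e => ?_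
  rw [List.mem_range] at hp hq
  by_contra hne
  rcases Nat.lt_or_ge p q with h | h
  · exact cycAt_ne hC (show i + p < i + q by omega) (by omega) e
  · exact cycAt_ne hC (show i + q < i + p by omega) (by omega) e.symm

theorem head?_cycRun {i k : ℕ} (hk : 0 < k) : (cycRun hC i k).head? = some (cycAt hC i) := by
  obtain ⟨k, rfl⟩ : ∃ k', k = k' + 1 := ⟨k - 1, by omega⟩
  simp [cycRun, List.range_succ_eq_map]

theorem getLast?_cycRun {i k : ℕ} (hk : 0 < k) :
    (cycRun hC i k).getLast? = some (cycAt hC (i + (k - 1))) := by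
  obtain ⟨k, rfl⟩ : ∃ k', k = k' + 1 := ⟨k - 1, by omega⟩
  simp [cycRun, List.range_succ]

/-- Paths through the hub, ending with a run. -/
theorem hub_path {y : V} (hy : y ∉ C) (hadj : ∀ z ∈ C, G.Adj y z) {j k : ℕ} (hk : 0 < k)
    (hk' : k ≤ C.length) {K : Finset V} (hyK : y ∈ K) (hCK : ∀ z ∈ C, z ∈ K) :
    PathOn G K y (cycAt hC j) (k + 1) := by
  refine ⟨y :: cycRun hC (j + C.length + 1 - k) k, List.nodup_cons.2 ⟨fun h => ?_,
    nodup_cycRun hC hk'⟩, List.isChain_cons.2 ⟨fun z hz => ?_, chain_cycRun hC _ _⟩, rfl, ?_,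
    fun z hz => ?_, by simp [length_cycRun]⟩
  · obtain ⟨p, -, hp⟩ := (mem_cycRun hC).1 h
    exact hy (hp ▸ cycAt_mem hC _)
  · rw [head?_cycRun hC hk, Option.mem_some_iff] at hz
    exact hz ▸ hadj _ (cycAt_mem hC _)
  · rw [List.getLast?_cons, getLast?_cycRun hC hk,
      show j + C.length + 1 - k + (k - 1) = j + C.length by omega, cycAt_add_length]
    rfl
  · rcases List.mem_cons.1 hz with rfl | hz
    · exact hyK
    · obtain ⟨p, -, hp⟩ := (mem_cycRun hC).1 hz
      exact hCK z (hp ▸ cycAt_mem hC _)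

/-- Two members of a wheel are joined by long paths of every length. -/
theorem wheel_path [DecidableEq V] {y : V} (hy : y ∉ C) (hadj : ∀ z ∈ C, G.Adj y z) {K : Finset V}
    (hK : ∀ z, z ∈ K ↔ z = y ∨ z ∈ C) {x x' : V} (hx : x ∈ K) (hx' : x' ∈ K) (hne : x ≠ x')
    {n : ℕ} (hn : 3 ≤ n) (hn' : n ≤ C.length + 1) : PathOn G K x x' n := by
  have hyK : y ∈ K := (hK y).2 (.inl rfl)
  have hCK : ∀ z ∈ C, z ∈ K := fun z hz => (hK z).2 (.inr hz)
  have h3 := hC.three_le
  have hub : ∀ j, PathOn G K y (cycAt hC j) n := fun j => by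
    simpa [show n - 1 + 1 = n by omega] using
      hub_path hC hy hadj (j := j) (k := n - 1) (by omega) (by omega) hyK hCK
  rcases (hK x).1 hx with rfl | hxC
  · obtain ⟨j, -, rfl⟩ := exists_cycAt hC (((hK x').1 hx').resolve_left hne.symm)
    exact hub j
  rcases (hK x').1 hx' with rfl | hxC'
  · obtain ⟨j, -, rfl⟩ := exists_cycAt hC hxC
    obtain ⟨l, h1, h2, h3, h4, h5, h6⟩ := hub j
    refine ⟨l.reverse, List.nodup_reverse.2 h1, ?_, by simpa using h4, by simpa using h3,
      fun z hz => h5 z (List.mem_reverse.1 hz), by simpa using h6⟩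
    rw [List.isChain_reverse]
    exact h2.imp fun _ _ e => e.symm
  obtain ⟨i, hi, rfl⟩ := exists_cycAt hC hxC
  obtain ⟨i', hi', rfl⟩ := exists_cycAt hC hxC'
  have hii : i ≠ i' := fun e => hne (by rw [e])
  obtain ⟨w, hw1, hw2, hw⟩ :
      ∃ w, 1 ≤ w ∧ w < C.length ∧ cycAt hC i' = cycAt hC (i + w) := by
    rcases Nat.lt_or_ge i i' with h | h
    · exact ⟨i' - i, by omega, by omega, by rw [show i + (i' - i) = i' by omega]⟩
    · exact ⟨i' + C.length - i, by omega, by omega,
        by rw [show i + (i' + C.length - i) = i' + C.length by omega, cycAt_add_length]⟩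
  rw [hw]
  set kb := min (C.length - w) (n - 2) with hkb
  set kf := n - 1 - kb with hkf
  have hb1 : 1 ≤ kb := by omega
  have hf1 : 1 ≤ kf := by omega
  have hfw : kf ≤ w := by omega
  have hbw : kb ≤ C.length - w := by omega
  refine ⟨(cycRun hC (i + C.length + 1 - kb) kb).reverse ++
    y :: cycRun hC (i + w + 1 + C.length - kf) kf, ?_, ?_, ?_, ?_, ?_, ?_⟩
  · refine List.nodup_append.2 ⟨List.nodup_reverse.2 (nodup_cycRun hC (by omega)),
      List.nodup_cons.2 ⟨fun h => ?_, nodup_cycRun hC (by omega)⟩, fun p hp q hq e => ?_⟩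
    · obtain ⟨u, -, hu⟩ := (mem_cycRun hC).1 h
      exact hy (hu ▸ cycAt_mem hC _)
    · obtain ⟨u, hu, rfl⟩ := (mem_cycRun hC).1 (List.mem_reverse.1 hp)
      rcases List.mem_cons.1 hq with rfl | hq
      · exact hy (e ▸ cycAt_mem hC _)
      · obtain ⟨v, hv, rfl⟩ := (mem_cycRun hC).1 hq
        rw [show i + w + 1 + C.length - kf + v = i + w + 1 - kf + v + C.length by omega,
          cycAt_add_length] at e
        rw [← cycAt_add_length hC (i + w + 1 - kf + v)] at e
        exact cycAt_ne hC (show i + C.length + 1 - kb + u < i + w + 1 - kf + v + C.length by omega)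
          (by omega) e
  · refine List.isChain_append.2 ⟨?_, List.isChain_cons.2 ⟨fun z hz => ?_, chain_cycRun hC _ _⟩,
      fun p hp q hq => ?_⟩
    · rw [List.isChain_reverse]
      exact (chain_cycRun hC _ _).imp fun _ _ e => e.symm
    · rw [head?_cycRun hC hf1, Option.mem_some_iff] at hz
      exact hz ▸ hadj _ (cycAt_mem hC _)
    · rw [List.getLast?_reverse, head?_cycRun hC hb1, Option.mem_some_iff] at hp
      obtain rfl : y = q := by simpa using hq
      exact hp ▸ (hadj _ (cycAt_mem hC _)).symm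
  · rw [List.head?_append, List.head?_reverse, getLast?_cycRun hC hb1,
      show i + C.length + 1 - kb + (kb - 1) = i + C.length by omega, cycAt_add_length]
    rfl
  · rw [List.getLast?_append, List.getLast?_cons, getLast?_cycRun hC hf1,
      show i + w + 1 + C.length - kf + (kf - 1) = i + w + C.length by omega, cycAt_add_length]
    rfl
  · intro z hz
    rcases List.mem_append.1 hz with h | h
    · obtain ⟨u, -, hu⟩ := (mem_cycRun hC).1 (List.mem_reverse.1 h)
      exact hCK z (hu ▸ cycAt_mem hC _)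
    · rcases List.mem_cons.1 h with rfl | h
      · exact hyK
      · obtain ⟨u, -, hu⟩ := (mem_cycRun hC).1 h
        exact hCK z (hu ▸ cycAt_mem hC _)
  · simp [length_cycRun]
    omega

omit hC

/-- A path in `K` closed outside `K`. -/
theorem cyc_of_path_outside [DecidableEq V] {K : Finset V} {x x' : V} {n m : ℕ}
    (hp : PathOn G K x x' n) {Q : List V} (hQn : Q.Nodup) (hQK : ∀ z ∈ Q, z ∉ K)
    (hQc : (x' :: (Q ++ [x])).IsChain G.Adj) (hQ0 : Q ≠ []) (hm : n + Q.length = m) (h3 : 3 ≤ m) :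
    Cyc G m := by
  obtain ⟨l, hln, hlc, hlh, hll, hlm, hlen⟩ := hp
  obtain ⟨r, rfl⟩ : ∃ r, l = x :: r := by
    cases l with
    | nil => simp at hlh
    | cons p r => exact ⟨r, by simp at hlh; rw [hlh]⟩
  obtain ⟨Q', z, rfl⟩ : ∃ Q' z, Q = Q' ++ [z] := by
    rcases List.eq_nil_or_concat Q with rfl | ⟨Q', z, e⟩
    · exact absurd rfl hQ0
    · exact ⟨Q', z, by simpa using e⟩
  rw [← List.cons_append] at hQc
  obtain ⟨hQc1, -, hzx⟩ := List.isChain_append.1 hQc
  refine cyc_of_list h3 x (r ++ (Q' ++ [z])) ?_ ?_ ?_ ?_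
  · simp only [List.length_cons, List.length_append] at hlen hm ⊢
    omega
  · rw [← List.cons_append]
    exact List.nodup_append.2 ⟨hln, hQn, fun p hp q hq e => hQK q hq (e ▸ hlm p hp)⟩
  · rw [← List.cons_append]
    refine List.isChain_append.2 ⟨hlc, hQc1.tail, fun p hp q hq => ?_⟩
    rw [hll, Option.mem_some_iff] at hp
    subst hp
    exact (List.isChain_cons.1 hQc1).1 q hq
  · intro w hw
    rw [← List.cons_append, ← List.append_assoc, List.getLast?_concat, Option.mem_some_iff] at hw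
    subst hw
    exact hzx _ (by rw [← List.cons_append, List.getLast?_concat]; rfl) x rfl

/-- **No wheel on `d` vertices.** -/
theorem Setup.no_wheel [DecidableEq V] (h : Setup G U d a) (hd : 5 ≤ d) {y : V} (hyU : y ∈ U)
    (hC : CycleIn G U C) (hlen : C.length + 1 = d) (hy : y ∉ C) (hadj : ∀ z ∈ C, G.Adj y z) :
    False := by
  classical
  let K : Finset V := insert y C.toFinset
  have hK : ∀ z, z ∈ K ↔ z = y ∨ z ∈ C := fun z => by simp [K]
  have hKU : K ⊆ U := fun z hz => ((hK z).1 hz).elim (fun e => e ▸ hyU) (hC.mem z)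
  have hKc : K.card = d := by
    rw [card_insert_of_notMem (by simpa using hy), List.toFinset_card_of_nodup hC.nodup, hlen]
  have hno : ∀ x ∈ K, ∀ x' ∈ K, x ≠ x' → ∀ Q : List V, Q.Nodup → (∀ z ∈ Q, z ∉ K) →
      (x' :: (Q ++ [x])).IsChain G.Adj → 1 ≤ Q.length → Q.length ≤ 3 → False := by
    intro x hx x' hx' hne Q h1 h2 h3 h4 h5
    exact h.noCyc (cyc_of_path_outside (wheel_path hC hy hadj hK hx hx' hne
      (n := d + 1 - Q.length) (by omega) (by omega)) h1 h2 h3
      (by rintro rfl; simp at h4) (by omega) (by omega))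
  have hout : ∀ x ∈ K, ∃ z ∈ U \ K, G.Adj x z := by
    intro x hx
    by_contra hno'
    push Not at hno'
    have h1 := h.deg x (hKU hx)
    have h2 : degIn G U x ≤ (K.erase x).card := card_le_card fun z hz => by
      rw [mem_filter] at hz
      refine mem_erase.2 ⟨hz.2.ne.symm, ?_⟩
      by_contra hzK
      exact hno' z (mem_sdiff.2 ⟨hz.1, hzK⟩) hz.2
    rw [card_erase_of_mem hx] at h2
    omega
  choose! zf hzf hzx using hout
  have hzK : ∀ x ∈ K, zf x ∉ K := fun x hx => (mem_sdiff.1 (hzf x hx)).2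
  have hone : ∀ x ∈ K, ∀ x' ∈ K, x ≠ x' → ¬ G.Adj x (zf x') := fun x hx x' hx' hne e =>
    hno x hx x' hx' hne [zf x'] (List.nodup_singleton _) (by simpa using hzK x' hx')
      (by simp [hzx x' hx', e.symm]) le_rfl (by simp)
  have hzne : ∀ x ∈ K, ∀ x' ∈ K, x ≠ x' → zf x ≠ zf x' := fun x hx x' hx' hne e =>
    hone x hx x' hx' hne (e ▸ hzx x hx)
  have hzz : ∀ x ∈ K, ∀ x' ∈ K, ¬ G.Adj (zf x) (zf x') := fun x hx x' hx' e => by
    have hne : x ≠ x' := by rintro rfl; exact e.ne rfl
    exact hno x hx x' hx' hne [zf x', zf x] (by simp [(hzne x hx x' hx' hne).symm])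
      (by simp [hzK x hx, hzK x' hx']) (by simp [hzx x' hx', e.symm, (hzx x hx).symm]) (by simp)
      (by simp)
  let I := K.image zf
  have hI : Indep G I := fun p hp q hq => by
    obtain ⟨x, hx, rfl⟩ := mem_image.1 hp
    obtain ⟨x', hx', rfl⟩ := mem_image.1 hq
    exact hzz x hx x' hx'
  have hIU : I ⊆ U := image_subset_iff.2 fun x hx => (mem_sdiff.1 (hzf x hx)).1
  have hIc : I.card = d := by
    rw [card_image_of_injOn fun x hx x' hx' e => by_contra fun hne => hzne x hx x' hx' hne e, hKc]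
  have hda : d ≤ a := hIc ▸ h.alpha I hIU hI
  have hadd : ∀ x ∈ K, ∀ p ∈ U, ∀ q ∈ U, p ≠ q → ¬ G.Adj p q →
      (∀ x' ∈ K, x' ≠ x → p ≠ zf x' ∧ q ≠ zf x' ∧ ¬ G.Adj p (zf x') ∧ ¬ G.Adj q (zf x')) →
        False := by
    intro x hx p hp q hq hpq hnpq hfar
    have hsep : ∀ r ∈ I.erase (zf x),
        p ≠ r ∧ q ≠ r ∧ ¬ G.Adj p r ∧ ¬ G.Adj q r := by
      intro r hr
      obtain ⟨hr1, hr2⟩ := mem_erase.1 hr
      obtain ⟨x', hx', rfl⟩ := mem_image.1 hr2
      exact hfar x' hx' fun e => hr1 (by rw [e])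
    have hJ : Indep G (insert p (insert q (I.erase (zf x)))) := by
      intro u hu v hv
      simp only [mem_insert] at hu hv
      rcases hu with rfl | rfl | hu <;> rcases hv with rfl | rfl | hv
      · exact G.irrefl
      · exact hnpq
      · exact (hsep v hv).2.2.1
      · exact fun e => hnpq e.symm
      · exact G.irrefl
      · exact (hsep v hv).2.2.2
      · exact fun e => (hsep u hu).2.2.1 e.symm
      · exact fun e => (hsep u hu).2.2.2 e.symm
      · exact hI u (erase_subset _ _ hu) v (erase_subset _ _ hv)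
    have hc := h.alpha _ (insert_subset hp (insert_subset hq ((erase_subset _ _).trans hIU))) hJ
    rw [card_insert_of_notMem (by simp only [mem_insert, not_or]; exact ⟨hpq, fun e => (hsep p e).1 rfl⟩),
      card_insert_of_notMem (fun e => (hsep q e).2.1 rfl),
      card_erase_of_mem (mem_image_of_mem _ hx)] at hc
    have := h.le
    have : (K.image zf).card = d := hIc
    omega
  have hyK : y ∈ K := (hK y).2 (.inl rfl)
  let N := (U \ K).filter fun u => G.Adj (zf y) u
  have hNc : d ≤ N.card + 1 := by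
    have h1 := h.deg (zf y) (mem_sdiff.1 (hzf y hyK)).1
    have h2 : degIn G U (zf y) ≤ (insert y N).card := card_le_card fun u hu => by
      rw [mem_filter] at hu
      by_cases huK : u ∈ K
      · exact mem_insert.2 (.inl (by_contra fun hne => hone u huK y hyK hne hu.2.symm))
      · exact mem_insert_of_mem (mem_filter.2 ⟨mem_sdiff.2 ⟨hu.1, huK⟩, hu.2⟩)
    have := card_insert_le y N
    omega
  have hfarN : ∀ u ∈ N, ∀ x' ∈ K, x' ≠ y → u ≠ zf x' ∧ ¬ G.Adj u (zf x') := by
    intro u hu x' hx' hne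
    obtain ⟨huX, hau⟩ := mem_filter.1 hu
    have hu1 : u ≠ zf x' := fun e => hzz y hyK x' hx' (e ▸ hau)
    refine ⟨hu1, fun e => hno x' hx' y hyK hne [zf y, u, zf x'] ?_ ?_ ?_ (by simp) (by simp)⟩
    · simp [hau.ne, hu1, hzne y hyK x' hx' hne.symm]
    · simp [hzK y hyK, hzK x' hx', (mem_sdiff.1 huX).2]
    · simp [hzx y hyK, hau, e, (hzx x' hx').symm]
  by_cases hcl : ∀ p ∈ N, ∀ q ∈ N, p ≠ q → G.Adj p q
  · have hz : zf y ∉ N := fun e => (mem_filter.1 e).2.ne rfl
    obtain ⟨u, hu, hyu⟩ : ∃ u ∈ N, ¬ G.Adj y u := by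
      by_contra hall
      push Not at hall
      refine h.noCyc (cyc_of_clique (Q := insert y (insert (zf y) N)) (by omega) ?_ ?_)
      · intro p hp q hq hpq
        simp only [mem_insert] at hp hq
        rcases hp with rfl | rfl | hp <;> rcases hq with rfl | rfl | hq
        · exact absurd rfl hpq
        · exact hzx _ hyK
        · exact hall q hq
        · exact (hzx _ hyK).symm
        · exact absurd rfl hpq
        · exact (mem_filter.1 hq).2
        · exact (hall p hp).symm
        · exact (mem_filter.1 hp).2.symm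
        · exact hcl p hp q hq hpq
      · have hy1 : y ∉ insert (zf y) N := by
          simp only [mem_insert, not_or]
          exact ⟨(hzx y hyK).ne, fun e => (mem_sdiff.1 (mem_filter.1 e).1).2 hyK⟩
        rw [card_insert_of_notMem hy1, card_insert_of_notMem hz]
        omega
    have huK := (mem_sdiff.1 (mem_filter.1 hu).1)
    exact hadd y hyK y hyU u huK.1 (fun e => huK.2 (e ▸ hyK)) hyu fun x' hx' hne =>
      ⟨fun e => hzK x' hx' (e ▸ hyK), (hfarN u hu x' hx' hne).1, hone y hyK x' hx' hne.symm,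
        (hfarN u hu x' hx' hne).2⟩
  · push Not at hcl
    obtain ⟨p, hp, q, hq, hpq, hnpq⟩ := hcl
    exact hadd y hyK p (mem_sdiff.1 (mem_filter.1 hp).1).1 q (mem_sdiff.1 (mem_filter.1 hq).1).1
      hpq hnpq fun x' hx' hne =>
        ⟨(hfarN p hp x' hx' hne).1, (hfarN q hq x' hx' hne).1, (hfarN p hp x' hx' hne).2,
          (hfarN q hq x' hx' hne).2⟩

end Vale.Agent.P048C
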