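import Vale.Agent.P048C.EngineForm
import Vale.Agent.P048C.CriticalPath
import Vale.Agent.P048C.Wheel

/-!
# The engine with a smaller first layer

When the roots are far apart, a critical set in the first layer lies in the neighbourhood of one
root, and with that root it is a blob or a wheel. So the first layer needs one colour less, and
the recursion gains `A 1` in every step.
-/

namespace Vale.Agent.P048C

open Finset Vale.Agent.P048

variable {V : Type*} {G : SimpleGraph V} {U X R S : Finset V} {d a t : ℕ}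

/-- The ball when the first layer takes one colour less. -/
theorem card_ball_le_one (ht : 1 ≤ t) (h1 : ColorableIn G (layer G X S 1) (t - 1)) : ∀ i,
    (∀ j, 2 ≤ j → j ≤ i + 1 → ColorableIn G (layer G X S j) t) →
      (ball G X S (i + 1)).card + (t - 1) * S.card + parSum G X S 1 ≤
        t * (parSum G X S i + parSum G X S (i + 1)) := by
  classical
  intro i
  induction i with
  | zero =>
    intro _
    have h1 := h1.card_le_alphaIn
    rw [ball_succ, Finset.card_union_of_disjoint (disjoint_ball_layer 0)]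
    obtain ⟨u, rfl⟩ : ∃ u, t = u + 1 := ⟨t - 1, by omega⟩
    simp only [ball, parSum, Nat.add_sub_cancel, zero_add, Nat.mul_add, Nat.add_mul, one_mul] at *
    omega
  | succ i ih =>
    intro hc
    have h1 := (hc (i + 2) (by omega) le_rfl).card_le_alphaIn
    have h2 := ih fun j h1 h2 => hc j h1 (by omega)
    have h3 : (ball G X S (i + 2)).card =
        (ball G X S (i + 1)).card + (layer G X S (i + 2)).card := by
      rw [ball_succ, Finset.card_union_of_disjoint (disjoint_ball_layer (i + 1))]
    show (ball G X S (i + 2)).card + _ + _ ≤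
      t * (parSum G X S (i + 1) + parSum G X S (i + 2))
    simp only [parSum, Nat.mul_add] at *
    omega

/-- One step with the gain. -/
theorem Setup.parSum_step_one [DecidableEq V] (h : Setup G U d a) (hS : S ⊆ U \ R)
    (hS0 : S.Nonempty) (hI : Indep G S) (ht : 1 ≤ t)
    (h1 : ColorableIn G (layer G (U \ R) S 1) (t - 1)) {i : ℕ}
    (hc : ∀ j, 2 ≤ j → j ≤ i + 1 → ColorableIn G (layer G (U \ R) S j) t) :
    1 + (t - 1) * S.card + parSum G (U \ R) S 1 + d * parSum G (U \ R) S i ≤
      R.card + t * parSum G (U \ R) S i + t * parSum G (U \ R) S (i + 1) := by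
  let Y := (U \ R) \ ball G (U \ R) S (i + 1)
  have hsum := (alphaIn_union (G := G) (U := ball G (U \ R) S i) (W := Y)
    ((Finset.disjoint_sdiff).mono_left (ball_subset_succ i)) fun y hy x hx => by
      rw [Finset.mem_sdiff] at hx
      exact not_adj_ball hx.1 hx.2 hy).trans
    (alphaIn_mono (W := U) (Finset.union_subset ((ball_subset hS i).trans Finset.sdiff_subset)
      (Finset.sdiff_subset.trans Finset.sdiff_subset)))
  have ha := hsum.trans h.alphaIn_le_a
  have hp := parSum_le_ball hS hI i
  have h0 : 0 < alphaIn G (ball G (U \ R) S i) := by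
    have := card_le_alphaIn (G := G) (ball_mono (G := G) (X := U \ R) (S := S) (Nat.zero_le i)) hI
    have := hS0.card_pos
    simp only [ball] at *
    omega
  have hY := h.card_le (W := Y) (Finset.sdiff_subset.trans Finset.sdiff_subset) (by omega)
  have hU : U.card ≤ R.card + (ball G (U \ R) S (i + 1)).card + Y.card := by
    refine (Finset.card_le_card (t := R ∪ ball G (U \ R) S (i + 1) ∪ Y) fun x hx => ?_).trans
      ((Finset.card_union_le _ _).trans (Nat.add_le_add_right (Finset.card_union_le _ _) _))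
    simp only [Y, Finset.mem_union, Finset.mem_sdiff]
    tauto
  have hb := card_ball_le_one (G := G) (X := U \ R) (S := S) ht h1 i hc
  have hm : (alphaIn G Y + parSum G (U \ R) S i) * d ≤ a * d :=
    Nat.mul_le_mul_right d (by omega)
  have := h.card
  rw [Nat.add_mul, Nat.mul_comm (parSum G (U \ R) S i) d] at hm
  rw [Nat.mul_add] at hb
  omega

/-- Around clean roots that are far apart the first layer needs only `d / 2` colours. -/
theorem Setup.first_layer [DecidableEq V] (h : Setup G U d a) (hd : 6 ≤ d) (hS : S ⊆ U \ R)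
    (hfar : ∀ z ∈ S, ∀ z' ∈ S, z ≠ z' → ∀ n ≤ 4, ¬ PathOn G (U \ R) z z' n)
    (hclean : ∀ B, Blob G d B → B ⊆ U \ R → ∀ z ∈ B, z ∉ S) :
    ColorableIn G (layer G (U \ R) S 1) (d / 2) := by
  classical
  by_contra hn
  obtain ⟨H, hH, hcrit⟩ := exists_critical hn
  have hHX : ∀ z ∈ H, z ∈ U \ R := fun z hz => layer_mem hS (hH hz)
  have hHS : ∀ z ∈ H, z ∉ S := fun z hz hzS => by
    have := layer_inj (i := 0) (by rwa [layer_zero]) (hH hz)
    omega
  have hroot : ∀ z ∈ H, ∃ y ∈ S, G.Adj y z := fun z hz => by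
    have hm := anc_mem (X := U \ R) (S := S) (hH hz) 1 le_rfl
    have ha := anc_adj (X := U \ R) (S := S) (hH hz) (show 0 < 1 by omega)
    simp only [Nat.sub_self, layer_zero] at hm
    rw [anc_zero] at ha
    exact ⟨_, hm, ha.symm⟩
  obtain ⟨z₀, hz₀⟩ : H.Nonempty := card_pos.1 (lt_of_le_of_lt (Nat.zero_le _) hcrit.lt_card)
  obtain ⟨y, hy, hyz₀⟩ := hroot z₀ hz₀
  have hstep : ∀ p ∈ H, ∀ q ∈ H, G.Adj p q → G.Adj y p → G.Adj y q := by
    intro p hp q hq hpq hyp
    obtain ⟨y', hy', hy'q⟩ := hroot q hq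
    by_cases hne : y = y'
    · exact hne ▸ hy'q
    · refine absurd ⟨[y, p, q, y'], ?_, ?_, rfl, rfl, ?_, rfl⟩ (hfar y hy y' hy' hne 4 le_rfl)
      · simp only [List.nodup_cons, List.mem_cons, List.not_mem_nil, or_false, not_false_iff,
          List.nodup_nil, and_true, not_or]
        exact ⟨⟨hyp.ne, fun e => hHS q hq (e ▸ hy), hne⟩,
          ⟨hpq.ne, fun e => hHS p hp (e.symm ▸ hy')⟩, hy'q.ne.symm⟩
      · simp [hyp, hpq, hy'q.symm]
      · simp only [List.mem_cons, List.not_mem_nil, or_false]
        rintro w (rfl | rfl | rfl | rfl)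
        exacts [hS hy, hHX _ hp, hHX _ hq, hS hy']
  have hall : ∀ z ∈ H, G.Adj y z := by
    by_contra hno
    push Not at hno
    obtain ⟨z₁, hz₁, hn₁⟩ := hno
    obtain ⟨p, hp, q, hq, hqT, hpq⟩ := hcrit.linked_self (by omega) (H.filter fun z => G.Adj y z)
      (filter_subset _ _) ⟨z₀, mem_filter.2 ⟨hz₀, hyz₀⟩⟩ fun e => hn₁ (by
        have : z₁ ∈ H.filter fun z => G.Adj y z := e.symm ▸ hz₁
        exact (mem_filter.1 this).2)
    rw [mem_filter] at hp
    exact hqT (mem_filter.2 ⟨hq, hstep p hp.1 q hq hpq hp.2⟩)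
  have hyH : y ∉ H := fun e => hHS y e hy
  have hlt := hcrit.lt_card
  by_cases hsmall : H.card + 1 < d
  · refine hclean (insert y H) ⟨⟨y, mem_insert_self y H⟩,
      by rw [card_insert_of_notMem hyH]; omega, fun x hx => ?_⟩
      (insert_subset (hS hy) hHX) y (mem_insert_self y H) hy
    rcases mem_insert.1 hx with rfl | hxH
    · refine le_trans ?_ (card_le_card (s := H) fun w hw =>
        mem_filter.2 ⟨mem_insert_of_mem hw, hall w hw⟩)
      omega
    · have h1 := hcrit.deg x hxH
      refine le_trans (Nat.succ_le_succ h1) (le_trans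
        (card_insert_of_notMem (s := H.filter fun w => G.Adj x w) (a := y)
          (fun e => hyH (mem_filter.1 e).1)).ge (card_le_card fun w hw => ?_))
      rcases mem_insert.1 hw with rfl | hw
      · exact mem_filter.2 ⟨mem_insert_self _ _, (hall x hxH).symm⟩
      · exact mem_filter.2 ⟨mem_insert_of_mem (mem_filter.1 hw).1, (mem_filter.1 hw).2⟩
  · obtain ⟨-, C, hC, hlen, -⟩ := hcrit.exists_cycle (by omega)
    have hL : d ≤ C.length + 1 := by omega
    have hyC : y ∉ C := fun e => hyH (hC.mem y e)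
    rcases Nat.lt_or_ge C.length d with hlt' | hge
    · have hC' : CycleIn G U C :=
        ⟨hC.nodup, hC.three_le, fun z hz => (mem_sdiff.1 (hHX z (hC.mem z hz))).1, hC.chain,
          hC.closed⟩
      exact h.no_wheel (by omega) (mem_sdiff.1 (hS hy)).1 hC' (by omega) hyC
        fun z hz => hall z (hC.mem z hz)
    · refine h.noCyc (cyc_of_list (by omega) y (C.take d) ?_ ?_ ?_ ?_)
      · simp [List.length_take]; omega
      · exact List.nodup_cons.2 ⟨fun e => hyC (List.mem_of_mem_take e),
          hC.nodup.sublist (List.take_sublist d C)⟩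
      · refine List.isChain_cons.2 ⟨fun z hz => ?_, hC.chain.take d⟩
        exact hall z (hC.mem z (List.mem_of_mem_take (List.mem_of_head? hz)))
      · intro z hz
        rcases List.mem_cons.1 (List.mem_of_getLast? hz) with rfl | hz'
        · exfalso
          cases hCd : C.take d with
          | nil => have := congrArg List.length hCd; rw [List.length_take, List.length_nil] at this; omega
          | cons p l =>
            rw [hCd, List.getLast?_cons_cons] at hz
            exact hyC (List.mem_of_mem_take (hCd ▸ List.mem_of_getLast? hz))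
        · exact (hall z (hC.mem z (List.mem_of_mem_take hz'))).symm

/-- The engine with the gain in the first layer. -/
theorem engine_one [DecidableEq V] (h : Setup G U d a) (hd : 6 ≤ d) (hS : S ⊆ U \ R)
    (hS0 : S.Nonempty) (hSi : Indep G S) {Λ K : ℕ} (hlink : RootLink G R S Λ)
    (hK : 2 * K + Λ ≤ d)
    (hfar : ∀ z ∈ S, ∀ z' ∈ S, z ≠ z' → ∀ n ≤ 4, ¬ PathOn G (U \ R) z z' n)
    (hclean : ∀ B, Blob G d B → B ⊆ U \ R → ∀ z ∈ B, ∀ y ∈ S, ¬ Within G (U \ R) y z K) :
    ∃ A : ℕ → ℕ, A 0 = S.card ∧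
      (∀ i ≤ K, ∃ I ⊆ U \ R, Indep G I ∧ I.card = A i ∧
        ∀ z ∈ I, ∃ y ∈ S, Within G (U \ R) y z i) ∧
      ∀ i < K, (d - (d / 2 + 1)) * A i + S.card * (d / 2) + 1 + A 1 ≤
        R.card + (d / 2 + 1) * A (i + 1) := by
  classical
  have h1 : ColorableIn G (layer G (U \ R) S 1) (d / 2 + 1 - 1) := h.first_layer hd hS hfar
    fun B hB hBX z hz hzS =>
      hclean B hB hBX z hz z hzS ⟨1, by omega, [z], List.nodup_singleton z,
        List.isChain_singleton z, rfl, rfl, fun w hw => (List.mem_singleton.1 hw) ▸ hS hzS, rfl⟩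
  have hcol : ∀ j, 2 ≤ j → j ≤ K → ColorableIn G (layer G (U \ R) S j) (d / 2 + 1) := by
    intro j h2 h3
    by_contra hn
    obtain ⟨W, hW, hcrit⟩ := exists_critical hn
    obtain ⟨hcard, -⟩ := critical_in_layer (G := G) h.noCyc hS Finset.sdiff_disjoint (by omega)
      hlink (by omega) (by omega) (by omega) hW hcrit
    obtain ⟨z, hz⟩ : W.Nonempty :=
      Finset.card_pos.1 (lt_of_le_of_lt (Nat.zero_le _) hcrit.lt_card)
    obtain ⟨hy, hw⟩ := within_root hS (hW hz)
    exact hclean W ⟨⟨z, hz⟩, by omega, hcrit.deg⟩ (fun w hw => layer_mem hS (hW hw)) z hz _ hy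
      (hw.mono h3)
  refine ⟨parSum G (U \ R) S, rfl, fun i _ => ?_, fun i hi => ?_⟩
  · obtain ⟨I, hIX, hIi, e, hl⟩ := parSum_witness hS hSi i
    refine ⟨I, hIX, hIi, e, fun z hz => ?_⟩
    obtain ⟨j, hj, -, hzl⟩ := hl z hz
    obtain ⟨hy, hw⟩ := within_root hS hzl
    exact ⟨_, hy, hw.mono hj⟩
  · have hstep := h.parSum_step_one hS hS0 hSi (i := i) (t := d / 2 + 1) (by omega) h1
      fun j h2 h3 => hcol j h2 (by omega)
    rw [Nat.sub_mul, Nat.mul_comm S.card]
    have : (d / 2 + 1) * parSum G (U \ R) S i ≤ d * parSum G (U \ R) S i :=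
      Nat.mul_le_mul_right _ (by omega)
    simp only [Nat.add_sub_cancel] at hstep
    omega

end Vale.Agent.P048C
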