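import Vale.Agent.P048.Claw
import Vale.Agent.P048C.EngineForm

/-!
# A smallest counterexample has a blob

Without a claw the claw-free theorem closes the cycle. A claw gives three roots around its centre;
the engine turns them into six roots one layer further, and from those the independent sets
outgrow `a`.
-/

namespace Vale.Agent.P048C

open Finset Vale.Agent.P048

variable {V : Type*} {G : SimpleGraph V} {U : Finset V} {d a : ℕ}

theorem cyc_of_induced [DecidableEq V] {W : Type*} [DecidableEq W] {f : W → V} (hf : f.Injective)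
    {m : ℕ} (h : Cyc (G.comap f) m) : Cyc G m := by
  obtain ⟨v, p, hp, hl⟩ := h
  let φ : G.comap f →g G := ⟨f, fun e => e⟩
  exact ⟨f v, p.map φ, hp.map hf, by rw [SimpleGraph.Walk.length_map, hl]⟩

/-- A smallest counterexample has a claw. -/
theorem Setup.exists_claw [DecidableEq V] (h : Setup G U d a) (hd : 3 ≤ d) :
    ∃ v ∈ U, ∃ S ⊆ U, Indep G S ∧ S.card = 3 ∧ ∀ s ∈ S, G.Adj v s := by
  classical
  by_contra hno
  push Not at hno
  have ha : 1 ≤ a := by
    by_contra ha0
    obtain ⟨x, hx⟩ := Finset.card_pos.1 (Nat.lt_of_le_of_lt (Nat.zero_le _) h.card)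
    have := h.alpha {x} (Finset.singleton_subset_iff.2 hx) (by simp [Indep])
    simp at this
    omega
  refine h.noCyc (cyc_of_induced (f := (Subtype.val : ↥U → V)) Subtype.val_injective
    (ramsey_core (G := G.comap (Subtype.val : ↥U → V)) (m := d + 1) (by omega) ?_ (a + 1)
      (by omega) (Nat.succ_le_succ h.le) Finset.univ ?_ ?_))
  · intro v x y z hvx hvy hvz hxy hxz hyz
    by_contra hc
    push Not at hc
    simp only [SimpleGraph.comap_adj] at hc hvx hvy hvz
    obtain ⟨s, hs, hns⟩ := hno v.1 v.2 {x.1, y.1, z.1}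
      (by intro w hw; simp only [Finset.mem_insert, Finset.mem_singleton] at hw
          rcases hw with rfl | rfl | rfl <;> exact Subtype.prop _)
      (by intro p hp q hq
          simp only [Finset.mem_insert, Finset.mem_singleton] at hp hq
          rcases hp with rfl | rfl | rfl <;> rcases hq with rfl | rfl | rfl <;>
            first
              | exact G.irrefl
              | exact hc.1
              | exact hc.2.1
              | exact hc.2.2
              | exact fun e => hc.1 e.symm
              | exact fun e => hc.2.1 e.symm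
              | exact fun e => hc.2.2 e.symm)
      (by
        rw [Finset.card_insert_of_notMem, Finset.card_insert_of_notMem, Finset.card_singleton]
        · simpa [Subtype.val_inj] using hyz
        · simp [hxy, hxz])
    simp only [Finset.mem_insert, Finset.mem_singleton] at hs
    rcases hs with rfl | rfl | rfl
    · exact hns hvx
    · exact hns hvy
    · exact hns hvz
  · simpa [Nat.mul_comm] using h.card
  · intro T _ hT
    have := h.alpha (T.map ⟨Subtype.val, Subtype.val_injective⟩)
      (fun w hw => by obtain ⟨p, -, rfl⟩ := Finset.mem_map.1 hw; exact p.2)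
      (fun p hp q hq => by
        obtain ⟨p', hp', rfl⟩ := Finset.mem_map.1 hp
        obtain ⟨q', hq', rfl⟩ := Finset.mem_map.1 hq
        exact hT p' hp' q' hq')
    rw [Finset.card_map] at this
    omega

/-- Without a blob, a claw starts two runs of the engine: `s` roots after one step, then the
independence sums `B i` grow from `s`. -/
theorem claw_growth [DecidableEq V] (h : Setup G U d a) (hd : 4 ≤ d)
    (hno : ∀ B ⊆ U, ¬ Blob G d B) :
    ∃ (s : ℕ) (B : ℕ → ℕ), (d - (d / 2 + 1)) * 3 + 3 * (d / 2) ≤ (d / 2 + 1) * s ∧ B 0 = s ∧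
      (∀ i ≤ (d - 4) / 2, B i ≤ a) ∧
      ∀ i < (d - 4) / 2, (d - (d / 2 + 1)) * B i + s * (d / 2) ≤
        3 + (d / 2 + 1) * B (i + 1) := by
  classical
  obtain ⟨v, hv, S, hSU, hSi, hS3, hvS⟩ := h.exists_claw (by omega)
  have hclean : ∀ {R S' : Finset V} {K : ℕ}, ∀ B, Blob G d B → B ⊆ U \ R → ∀ z ∈ B, ∀ y ∈ S',
      ¬ Within G (U \ R) y z K :=
    fun B hB hBU => absurd hB (hno B (hBU.trans Finset.sdiff_subset))
  have hS1 : S ⊆ U \ {v} := fun s hs =>
    Finset.mem_sdiff.2 ⟨hSU hs, Finset.notMem_singleton.2 (hvS s hs).ne'⟩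
  have hlink1 : RootLink G {v} S 2 := fun S' hS' hcard => by
    obtain ⟨y, hy, y', hy', hne⟩ := Finset.one_lt_card.1 hcard
    exact ⟨fun w => decide (w = y), 2, ⟨y, hy, y', hy', by simp [hne.symm]⟩, le_rfl, le_rfl,
      fun p hp q hq _ => ⟨[v], List.nodup_singleton v,
        by simp [(hvS p (hS' hp)).symm, hvS q (hS' hq)], by simp, rfl⟩⟩
  obtain ⟨A, hA0, hAI, hA⟩ := engine h (by omega) hS1 (Finset.card_pos.1 (by omega)) hSi hlink1
    (K := 1) (by omega) hclean
  obtain ⟨I, hIU, hIi, hIc, hIw⟩ := hAI 1 le_rfl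
  have hA1 : (d - (d / 2 + 1)) * 3 + 3 * (d / 2) ≤ (d / 2 + 1) * A 1 := by
    have h1 := hA 0 (by omega)
    rw [hA0, hS3, Finset.card_singleton, zero_add] at h1
    omega
  have hApos : 0 < A 1 := by
    rcases Nat.eq_zero_or_pos (A 1) with h0 | h0
    · rw [h0, Nat.mul_zero] at hA1
      omega
    · exact h0
  obtain ⟨I₀, hI₀, hI₀c⟩ : ∃ I₀, I₀ ⊆ I ∧ I₀.card = A 1 := ⟨I, le_rfl, hIc⟩
  have hpar : ∀ z ∈ I₀, ∃ s ∈ S, G.Adj s z := by
    intro z hz
    obtain ⟨⟨y, hy, n, hn, l, -, hlc, hlh, hll, -, hlen⟩, hnS⟩ := hIw z (hI₀ hz)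
    refine ⟨y, hy, ?_⟩
    match l, hlen with
    | [], _ => simp at hlh
    | [p], _ =>
      simp only [List.head?_cons, List.getLast?_singleton, Option.some.injEq] at hlh hll
      exact absurd (hlh.symm.trans hll ▸ hy) (hnS odd_one)
    | [p, q], _ =>
      simp only [List.head?_cons, List.getLast?_cons_cons, List.getLast?_singleton,
        Option.some.injEq] at hlh hll
      subst hlh hll
      simpa using hlc
    | _ :: _ :: _ :: _, hlen => simp at hlen; omega
  let p : V → V := fun z => if hz : z ∈ I₀ then (hpar z hz).choose else v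
  have hp : ∀ z ∈ I₀, p z ∈ S ∧ G.Adj (p z) z := fun z hz => by
    simp only [p, dif_pos hz]
    exact (hpar z hz).choose_spec
  have hlink2 : RootLink G (insert v S) I₀ 4 := fun S' hS' hcard => by
    obtain ⟨y, hy, y', hy', hne⟩ := Finset.one_lt_card.1 hcard
    by_cases hall : ∀ z ∈ S', p z = p y
    · refine ⟨fun w => decide (w = y), 2, ⟨y, hy, y', hy', by simp [hne.symm]⟩, le_rfl, by omega,
        fun q hq r hr _ => ⟨[p y], List.nodup_singleton _, ?_, ?_, rfl⟩⟩
      · have h1 := (hp q (hS' hq)).2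
        have h2 := (hp r (hS' hr)).2
        rw [hall q hq] at h1
        rw [hall r hr] at h2
        simp [h1.symm, h2]
      · simp [(hp y (hS' hy)).1]
    · push Not at hall
      obtain ⟨y₁, hy₁, hne₁⟩ := hall
      refine ⟨fun w => decide (p w = p y), 4, ⟨y, hy, y₁, hy₁, by simp [hne₁]⟩, by omega, le_rfl,
        fun q hq r hr hqr => ⟨[p q, v, p r], ?_, ?_, ?_, rfl⟩⟩
      · have hne2 : p q ≠ p r := fun e => hqr (by simp [e])
        have hv1 : v ≠ p r := (hvS _ (hp r (hS' hr)).1).ne
        have hv2 : p q ≠ v := (hvS _ (hp q (hS' hq)).1).ne'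
        simp [hne2, hv1, hv2]
      · simp [(hp q (hS' hq)).2.symm, (hvS _ (hp q (hS' hq)).1).symm, hvS _ (hp r (hS' hr)).1,
          (hp r (hS' hr)).2]
      · simp [(hp q (hS' hq)).1, (hp r (hS' hr)).1]
  have hS2 : I₀ ⊆ U \ insert v S := fun z hz => by
    obtain ⟨hzU, hzv⟩ := Finset.mem_sdiff.1 (hIU (hI₀ hz))
    rw [Finset.mem_singleton] at hzv
    exact Finset.mem_sdiff.2 ⟨hzU, by simp [hzv, (hIw z (hI₀ hz)).2 odd_one]⟩
  obtain ⟨B, hB0, hBI, hB⟩ := engine h (by omega) hS2 (Finset.card_pos.1 (by omega))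
    (fun x hx y hy => hIi x (hI₀ hx) y (hI₀ hy)) hlink2 (K := (d - 4) / 2) (by omega) hclean
  have hR : (insert v S).card ≤ 4 := (Finset.card_insert_le _ _).trans (by omega)
  have hle : ∀ i ≤ (d - 4) / 2, B i ≤ a := fun i hi => by
    obtain ⟨J, hJU, hJi, hJc, -⟩ := hBI i hi
    exact hJc ▸ h.alpha J (hJU.trans Finset.sdiff_subset) hJi
  refine ⟨A 1, B, hA1, hB0.trans hI₀c, hle, fun i hi => ?_⟩
  have h1 := hB i hi
  rw [hI₀c] at h1
  omega

/-- A smallest counterexample has a blob. -/
theorem exists_blob [DecidableEq V] (h : Setup G U d a) (hd : 17 ≤ d) :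
    ∃ B ⊆ U, Blob G d B := by
  by_contra hno
  push Not at hno
  obtain ⟨s, B, hs, hB0, hle, hB⟩ := claw_growth h (by omega) hno
  have hs6 : 6 ≤ s := by
    by_contra hlt
    have : (d / 2 + 1) * s ≤ (d / 2 + 1) * 5 := Nat.mul_le_mul_left _ (by omega)
    omega
  have hgrow : ∀ i ≤ (d - 4) / 2, 6 + i * 2 ≤ B i := by
    intro i hi
    induction i with
    | zero => omega
    | succ i ih =>
      have h1 := hB i (by omega)
      have h2 := ih (by omega)
      have h3 := hle i (by omega)
      have h4 : (d / 2 + 1) * B i ≤ (d - (d / 2 + 1) + 2) * B i := Nat.mul_le_mul_right _ (by omega)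
      rw [Nat.add_mul (d - (d / 2 + 1)) 2] at h4
      have h6 : 6 * (d / 2) ≤ s * (d / 2) := Nat.mul_le_mul_right _ hs6
      have := h.le
      by_contra hlt
      have h5 : (d / 2 + 1) * B (i + 1) ≤ (d / 2 + 1) * (B i + 1) :=
        Nat.mul_le_mul_left _ (by omega)
      rw [Nat.mul_add] at h5
      omega
  have := hgrow _ le_rfl
  have := hle _ le_rfl
  have := h.le
  omega

/-- A smallest counterexample has a blob, up to the few smallest cases. -/
theorem exists_blob_low [DecidableEq V] (h : Setup G U d a) (hd : 7 ≤ d)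
    (hcase : a < d ∨ 15 ≤ d ∨ (d % 2 = 1 ∧ 9 ≤ d)) : ∃ B ⊆ U, Blob G d B := by
  rcases Nat.lt_or_ge d 17 with hd' | hd'
  · by_contra hno
    push Not at hno
    obtain ⟨s, B, hs, hB0, hle, hB⟩ := claw_growth h (by omega) hno
    have := h.le
    have h0 := hB 0
    have h1 := hB 1
    have h2 := hB 2
    have h3 := hB 3
    have h4 := hB 4
    have h5 := hB 5
    have hK := hle _ le_rfl
    have hs0 := hle 0 (Nat.zero_le _)
    interval_cases d <;>
      (norm_num at hs hK h0 h1 h2 h3 h4 h5
       omega)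
  · exact exists_blob h hd'

end Vale.Agent.P048C
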