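import Vale.Agent.P048C.Exist

/-!
# Blobs exist from `d = 8` on

Without a blob one step of the engine hands independent roots to the next stage: their parents
join the connecting set and the common connection length grows by two. Three stages from a claw
outgrow `a` for every `d` between `8` and `14`.
-/

namespace Vale.Agent.P048C

open Finset Vale.Agent.P048

variable {V : Type*} {G : SimpleGraph V} {U R S : Finset V} {d a Λ : ℕ}

/-- Independent children of roots are roots, connected through their parents. -/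
theorem RootLink.children [DecidableEq V] (hlink : RootLink G R S Λ)
    (hSR : Disjoint S R) {I : Finset V} (hI : ∀ z ∈ I, ∃ y ∈ S, G.Adj y z) :
    RootLink G (R ∪ S) I (Λ + 2) := by
  classical
  let p : V → V := fun z => if hz : z ∈ I then (hI z hz).choose else z
  have hp : ∀ z ∈ I, p z ∈ S ∧ G.Adj (p z) z := fun z hz => by
    simp only [p, dif_pos hz]
    exact (hI z hz).choose_spec
  intro S' hS' hcard
  obtain ⟨y, hy, y', hy', hne⟩ := Finset.one_lt_card.1 hcard
  by_cases hall : ∀ z ∈ S', p z = p y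
  · refine ⟨fun w => decide (w = y), 2, ⟨y, hy, y', hy', by simp [hne.symm]⟩, le_rfl, by omega,
      fun q hq r hr _ => ⟨[p y], List.nodup_singleton _, ?_, ?_, rfl⟩⟩
    · have h1 := (hp q (hS' hq)).2
      have h2 := (hp r (hS' hr)).2
      rw [hall q hq] at h1
      rw [hall r hr] at h2
      simp [h1.symm, h2]
    · simp [(hp y (hS' hy)).1]
  · push Not at hall
    obtain ⟨y₁, hy₁, hne₁⟩ := hall
    obtain ⟨f, lam, ⟨u, hu, w, hw, huw⟩, hlam, hlamΛ, hjoin⟩ := hlink (S'.image p)
      (Finset.image_subset_iff.2 fun z hz => (hp z (hS' hz)).1)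
      (Finset.one_lt_card.2 ⟨p y₁, Finset.mem_image_of_mem p hy₁, p y,
        Finset.mem_image_of_mem p hy, hne₁⟩)
    obtain ⟨u', hu', rfl⟩ := Finset.mem_image.1 hu
    obtain ⟨w', hw', rfl⟩ := Finset.mem_image.1 hw
    refine ⟨fun z => f (p z), lam + 2, ⟨u', hu', w', hw', huw⟩, by omega, by omega,
      fun q hq r hr hqr => ?_⟩
    obtain ⟨l, hln, hlc, hlR, hll⟩ := hjoin (p q) (Finset.mem_image_of_mem p hq) (p r)
      (Finset.mem_image_of_mem p hr) hqr
    have hq1 := hp q (hS' hq)
    have hr1 := hp r (hS' hr)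
    refine ⟨p q :: (l ++ [p r]), ?_, ?_, ?_, by simp; omega⟩
    · rw [List.nodup_cons, List.nodup_append, List.mem_append, List.mem_singleton]
      refine ⟨?_, hln, List.nodup_singleton _, fun z hz z' hz' e => ?_⟩
      · rintro (h | h)
        · exact Finset.disjoint_left.1 hSR hq1.1 (hlR _ h)
        · exact hqr (congrArg f h)
      · rw [List.mem_singleton] at hz'
        exact Finset.disjoint_left.1 hSR hr1.1 (hz' ▸ e ▸ hlR z hz)
    · rw [List.cons_append, List.isChain_cons_cons, ← List.cons_append, List.isChain_append]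
      refine ⟨hq1.2.symm, hlc, List.isChain_singleton _, fun z hz z' hz' => ?_⟩
      rw [← List.cons_append, List.getLast?_concat, Option.mem_some] at hz
      simp only [List.head?_cons, Option.mem_some] at hz'
      exact hz ▸ hz' ▸ hr1.2
    · intro z hz
      simp only [List.mem_cons, List.mem_append, List.not_mem_nil, or_false] at hz
      rcases hz with rfl | hz | rfl
      · exact Finset.mem_union_right _ hq1.1
      · exact Finset.mem_union_left _ (hlR z hz)
      · exact Finset.mem_union_right _ hr1.1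

/-- A stage: roots, what connects them, and the bounds on their number. -/
structure Stage (G : SimpleGraph V) (U R S : Finset V) (Λ : ℕ) [DecidableEq V] : Prop where
  sub : S ⊆ U \ R
  ne : S.Nonempty
  indep : Indep G S
  link : RootLink G R S Λ

/-- Without a blob a stage grows by the engine's recursion and yields the next one. -/
theorem Stage.next [DecidableEq V] (hT : Stage G U R S Λ) (h : Setup G U d a)
    (hd : 4 ≤ d) (hno : ∀ B ⊆ U, ¬ Blob G d B) (hΛ : Λ + 2 ≤ d) :
    ∃ A : ℕ → ℕ, A 0 = S.card ∧ (∀ i ≤ (d - Λ) / 2, A i ≤ a) ∧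
      (∀ i < (d - Λ) / 2, (d - (d / 2 + 1)) * A i + S.card * (d / 2) + 1 ≤
        R.card + (d / 2 + 1) * A (i + 1)) ∧
      (R.card < S.card * (d / 2) →
        ∃ S' : Finset V, Stage G U (R ∪ S) S' (Λ + 2) ∧ S'.card = A 1) := by
  classical
  obtain ⟨A, hA0, hAI, hA⟩ := engine h hd hT.sub hT.ne hT.indep hT.link
    (K := (d - Λ) / 2) (by omega) fun B hB hBU => absurd hB (hno B (hBU.trans Finset.sdiff_subset))
  obtain ⟨I, hIU, hIi, hIc, hIw⟩ := hAI 1 (by omega)
  refine ⟨A, hA0, fun i hi => ?_, hA, fun hR => ⟨I, ⟨fun z hz => ?_, Finset.card_pos.1 (by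
      have h0 := hA 0 (by omega)
      by_contra hlt
      have h1 : A (0 + 1) = 0 := by
        rw [hIc] at hlt
        simpa using hlt
      rw [h1, Nat.mul_zero] at h0
      omega), hIi,
    hT.link.children (Finset.disjoint_left.2 fun z hz => (Finset.mem_sdiff.1 (hT.sub hz)).2)
      fun z hz => ?_⟩, hIc⟩⟩
  · obtain ⟨J, hJU, hJi, hJc, -⟩ := hAI i hi
    exact hJc ▸ h.alpha J (hJU.trans Finset.sdiff_subset) hJi
  · obtain ⟨hzU, hzR⟩ := Finset.mem_sdiff.1 (hIU hz)
    exact Finset.mem_sdiff.2 ⟨hzU, by simp [hzR, (hIw z hz).2 odd_one]⟩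
  · obtain ⟨⟨y, hy, n, hn, l, -, hlc, hlh, hll, -, hlen⟩, hnS⟩ := hIw z hz
    refine ⟨y, hy, ?_⟩
    match l, hlen with
    | [], _ => simp at hlh
    | [q], _ =>
      simp only [List.head?_cons, List.getLast?_singleton, Option.some.injEq] at hlh hll
      exact absurd (hlh.symm.trans hll ▸ hy) (hnS odd_one)
    | [q, r], _ =>
      simp only [List.head?_cons, List.getLast?_cons_cons, List.getLast?_singleton,
        Option.some.injEq] at hlh hll
      subst hlh hll
      simpa using hlc
    | _ :: _ :: _ :: _, hlen => simp at hlen; omega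

/-- A blob exists for `8 ≤ d`. -/
theorem exists_blob_eight [DecidableEq V] (h : Setup G U d a) (hd : 8 ≤ d) :
    ∃ B ⊆ U, Blob G d B := by
  classical
  rcases Nat.lt_or_ge d 15 with hd' | hd'
  swap
  · exact exists_blob_low h (by omega) (.inr (.inl hd'))
  by_contra hno
  push Not at hno
  obtain ⟨v, hv, S, hSU, hSi, hS3, hvS⟩ := h.exists_claw (by omega)
  have hlink : RootLink G {v} S 2 := fun S' hS' hcard => by
    obtain ⟨y, hy, y', hy', hne⟩ := Finset.one_lt_card.1 hcard
    exact ⟨fun w => decide (w = y), 2, ⟨y, hy, y', hy', by simp [hne.symm]⟩, le_rfl, le_rfl,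
      fun p hp q hq _ => ⟨[v], List.nodup_singleton v,
        by simp [(hvS p (hS' hp)).symm, hvS q (hS' hq)], by simp, rfl⟩⟩
  have hT₁ : Stage G U {v} S 2 := ⟨fun s hs =>
    Finset.mem_sdiff.2 ⟨hSU hs, Finset.notMem_singleton.2 (hvS s hs).ne'⟩,
    Finset.card_pos.1 (by omega), hSi, hlink⟩
  have ha := h.le
  obtain ⟨A, hA0, hAle, hA, hA'⟩ := hT₁.next h (by omega) hno (by omega)
  obtain ⟨S₁, hT₂, hS₁⟩ := hA' (by rw [hS3, Finset.card_singleton]; omega)
  obtain ⟨B, hB0, hBle, hB, hB'⟩ := hT₂.next h (by omega) hno (by omega)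
  have hR₂ : ({v} ∪ S).card ≤ 4 := (Finset.card_union_le _ _).trans (by simp [hS3])
  have hs₁ : 5 ≤ S₁.card := by
    have h0 := hA 0 (by omega)
    rw [hA0, hS3, Finset.card_singleton, zero_add] at h0
    rw [hS₁]
    interval_cases d <;> omega
  obtain ⟨S₂, hT₃, hS₂⟩ := hB' (by
    have : 5 * (d / 2) ≤ S₁.card * (d / 2) := Nat.mul_le_mul_right _ hs₁
    omega)
  obtain ⟨C, hC0, hCle, hC, -⟩ := hT₃.next h (by omega) hno (by omega)
  have hR₃ : ({v} ∪ S ∪ S₁).card ≤ 4 + S₁.card :=
    (Finset.card_union_le _ _).trans (by omega)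
  have hBK := hBle _ le_rfl
  have hB1 := hBle 1 (by omega)
  have hCK := hCle _ le_rfl
  have hAK := hAle 1 (by omega)
  have b0 := hB 0
  have b1 := hB 1
  have b2 := hB 2
  have b3 := hB 3
  have b4 := hB 4
  have c0 := hC 0
  have c1 := hC 1
  have c2 := hC 2
  have c3 := hC 3
  generalize ({v} ∪ S ∪ S₁).card = r₃ at *
  generalize ({v} ∪ S).card = r₂ at *
  generalize S₁.card = n₁ at *
  generalize S₂.card = n₂ at *
  interval_cases d <;>
    (norm_num at hBK hCK b0 b1 b2 b3 b4 c0 c1 c2 c3
     omega)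

end Vale.Agent.P048C
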