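import Vale.Agent.P048C.Alpha

/-!
# The cycle-complete identity from the absence of a smallest counterexample

If no `Setup` exists for `d ≥ D`, every graph on `(m - 1) (n - 1) + 1` vertices with `m ≥ n` and
`m > D` has a cycle on exactly `m` vertices or `n` pairwise nonadjacent vertices; disjoint cliques
show that this number is least.
-/

namespace Vale.Agent.P048C

open Finset Vale.Agent.P048

/-- There is a graph on `(m - 1) (n - 1)` vertices with neither. -/
theorem exists_cliques (m n : ℕ) (hn : 3 ≤ n) (hnm : n ≤ m) :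
    ∃ G : SimpleGraph (Fin ((m - 1) * (n - 1))),
      (¬ ∃ v, ∃ p : G.Walk v v, p.IsCycle ∧ p.length = m) ∧ ¬ ∃ s, G.IsNIndepSet n s := by
  let G : SimpleGraph (Fin ((m - 1) * (n - 1))) :=
    { Adj := fun a b => a ≠ b ∧ a.val / (m - 1) = b.val / (m - 1)
      symm := ⟨fun a b h => ⟨h.1.symm, h.2.symm⟩⟩
      loopless := ⟨fun a h => h.1 rfl⟩ }
  have cls : ∀ (k : ℕ) (s : Finset (Fin ((m - 1) * (n - 1)))),
      (∀ x ∈ s, x.val / (m - 1) = k) → s.card ≤ m - 1 := by
    intro k s hs
    calc s.card = (s.image fun x => x.val % (m - 1)).card := by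
          rw [card_image_of_injOn]
          intro x hx y hy h
          apply Fin.ext
          simp only at h
          rw [← Nat.div_add_mod x.val (m - 1), ← Nat.div_add_mod y.val (m - 1), hs x hx, hs y hy,
            h]
      _ ≤ (range (m - 1)).card := card_le_card fun r hr => by
          obtain ⟨x, -, rfl⟩ := mem_image.1 hr
          exact mem_range.2 (Nat.mod_lt _ (by omega))
      _ = m - 1 := card_range _
  refine ⟨G, ?_, ?_⟩
  · rintro ⟨v, p, hp, hl⟩
    have same : ∀ {u w} (q : G.Walk u w), ∀ x ∈ q.support, x.val / (m - 1) = u.val / (m - 1) := by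
      intro u w q
      induction q with
      | nil => simp
      | cons h q ih =>
        intro x hx
        rw [SimpleGraph.Walk.support_cons, List.mem_cons] at hx
        rcases hx with rfl | hx
        · rfl
        · exact (ih x hx).trans h.2.symm
    have h1 := cls _ p.support.tail.toFinset
      (fun x hx => same p x (List.mem_of_mem_tail (List.mem_toFinset.1 hx)))
    rw [List.toFinset_card_of_nodup hp.support_nodup, List.length_tail, p.length_support] at h1
    omega
  · rintro ⟨s, hs, hsc⟩
    have h1 : (s.image fun x => x.val / (m - 1)).card = n := by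
      rw [card_image_of_injOn, hsc]
      intro x hx y hy h
      by_contra hxy
      exact hs hx hy hxy ⟨hxy, h⟩
    have h2 : (s.image fun x => x.val / (m - 1)).card ≤ n - 1 := by
      refine le_trans (card_le_card (t := range (n - 1)) fun r hr => ?_) (card_range _).le
      obtain ⟨x, -, rfl⟩ := mem_image.1 hr
      exact mem_range.2 (Nat.div_lt_of_lt_mul x.isLt)
    omega

/-- Both halves of the identity for all `3 ≤ n ≤ m` with `m > D`. -/
theorem ramsey_of_no_setup {D : ℕ}
    (H : ∀ (V : Type) [DecidableEq V] (G : SimpleGraph V) (d a : ℕ) (U : Finset V),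
      D ≤ d → Setup G U d a → False) :
    (∀ m n : ℕ, 3 ≤ n → n ≤ m → D + 1 ≤ m →
      ∀ (V : Type) [Fintype V] (G : SimpleGraph V), (m - 1) * (n - 1) + 1 ≤ Fintype.card V →
        (∃ (v : V) (p : G.Walk v v), p.IsCycle ∧ p.length = m) ∨
          ∃ s : Finset V, G.IsNIndepSet n s) ∧
    (∀ m n : ℕ, 3 ≤ n → n ≤ m →
      ∃ G : SimpleGraph (Fin ((m - 1) * (n - 1))),
        (¬ ∃ v, ∃ p : G.Walk v v, p.IsCycle ∧ p.length = m) ∧ ¬ ∃ s, G.IsNIndepSet n s) := by
  refine ⟨?_, exists_cliques⟩
  intro m n hn hnm hD V _ G hV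
  classical
  by_contra hcon
  push Not at hcon
  obtain ⟨hcyc, hind⟩ := hcon
  have key : AlphaLe G (univ : Finset V) (n - 1) := by
    intro T _ hT
    by_contra h
    obtain ⟨s, hs, hsc⟩ := exists_subset_card_eq (show n ≤ T.card by omega)
    exact hind s ⟨fun x hx y hy _ => hT x (hs hx) y (hs hy), hsc⟩
  obtain ⟨v, p, hp, hl⟩ := cyc_of_no_setup (d := m - 1)
    (fun U a hS => H V G (m - 1) a U (by omega) hS) (n - 1) (by omega) univ key
    (by rw [card_univ, mul_comm]; omega)
  exact hcyc v p hp (by omega)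

/-- The identity as a least number. -/
theorem isLeast_of_no_setup {D : ℕ}
    (H : ∀ (V : Type) [DecidableEq V] (G : SimpleGraph V) (d a : ℕ) (U : Finset V),
      D ≤ d → Setup G U d a → False) {m n : ℕ} (hn : 3 ≤ n) (hnm : n ≤ m) (hD : D + 1 ≤ m) :
    IsLeast {N : ℕ | ∀ (V : Type) [Fintype V] (G : SimpleGraph V), N ≤ Fintype.card V →
        (∃ (v : V) (p : G.Walk v v), p.IsCycle ∧ p.length = m) ∨
          ∃ s : Finset V, G.IsNIndepSet n s} ((m - 1) * (n - 1) + 1) := by
  refine ⟨fun V _ G hV => (ramsey_of_no_setup H).1 m n hn hnm hD V G hV, fun N hN => ?_⟩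
  by_contra hlt
  obtain ⟨G, h1, h2⟩ := exists_cliques m n hn hnm
  rcases hN _ G (by rw [Fintype.card_fin]; omega) with h | h
  · exact h1 h
  · exact h2 h

end Vale.Agent.P048C
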