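import Mathlib

/-!
# The growth recursion

Independent sets in balls around the roots satisfy a linear recursion; the numbers below make it
exceed the independence number within the available number of steps.
-/

namespace Vale.Agent.P048C

/-- One step of the least sequence allowed by the recursion. -/
def growStep (d sp R x : ℕ) : ℕ :=
  ((d - (d / 2 + 1)) * x + sp * (d / 2) + 1 - R + d / 2) / (d / 2 + 1)

/-- Does the least sequence exceed `cap` within `K` steps? -/
def exceeds (d sp R cap : ℕ) : ℕ → ℕ → Bool
  | 0, x => decide (cap < x)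
  | K + 1, x => decide (cap < x) || exceeds d sp R cap K (growStep d sp R x)

theorem growStep_le {d sp R x y z : ℕ} (hxy : x ≤ y)
    (h : (d - (d / 2 + 1)) * y + sp * (d / 2) + 1 ≤ R + (d / 2 + 1) * z) :
    growStep d sp R x ≤ z := by
  have hm : (d - (d / 2 + 1)) * x ≤ (d - (d / 2 + 1)) * y := Nat.mul_le_mul_left _ hxy
  rw [growStep, Nat.div_le_iff_le_mul_add_pred (by omega)]
  generalize (d - (d / 2 + 1)) * x = P at *
  generalize (d - (d / 2 + 1)) * y = Q at *
  generalize sp * (d / 2) = S at *
  generalize (d / 2 + 1) * z = T at *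
  omega

theorem exceeds_false {d sp R cap : ℕ} : ∀ (K x : ℕ) (A : ℕ → ℕ), x ≤ A 0 →
    (∀ i ≤ K, A i ≤ cap) →
    (∀ i < K, (d - (d / 2 + 1)) * A i + sp * (d / 2) + 1 ≤ R + (d / 2 + 1) * A (i + 1)) →
    exceeds d sp R cap K x = false
  | 0, x, A, hx, hcap, _ => by
    have := hcap 0 le_rfl
    simp [exceeds]; omega
  | K + 1, x, A, hx, hcap, hrec => by
    have := hcap 0 (Nat.zero_le _)
    have h := exceeds_false K (growStep d sp R x) (fun i => A (i + 1))
      (growStep_le hx (hrec 0 (Nat.succ_pos K)))
      (fun i hi => hcap (i + 1) (by omega)) (fun i hi => hrec (i + 1) (by omega))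
    simp only [exceeds, h, Bool.or_false, decide_eq_false_iff_not]
    omega

/-- The number of roots of a blob on `b` vertices. -/
def rootNum (d b : ℕ) : ℕ := (3 * b + 3 - d) / 3

/-- All cases for one `d`. -/
def checkAt (d : ℕ) : Bool :=
  (List.range d).all fun b => decide (b ≤ d / 2 + 1) ||
    (List.range (rootNum d b + 1)).all fun T =>
      decide (d < T * (rootNum d (d / 2 + 2) - 1)) ||
      (decide (T < rootNum d b) && exceeds d (rootNum d b - T) d
        (d - T * (rootNum d (d / 2 + 2) - 1)) ((d - 10) / 2) (rootNum d b - T))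

theorem check_small : ∀ k < 46, checkAt (26 + k) = true := by decide +kernel

/-- A lower bound for a sequence with increments at least `D`. -/
theorem add_mul_le_of_step {A : ℕ → ℕ} {K D : ℕ} (h : ∀ i < K, A i + D ≤ A (i + 1)) :
    A 0 + K * D ≤ A K := by
  induction K with
  | zero => simp
  | succ K ih =>
    have := ih fun i hi => h i (by omega)
    have := h K (by omega)
    rw [Nat.succ_mul]
    omega

theorem growth_arith {T c h : ℕ} (hT : T ≤ 6) (hc : 12 ≤ c) (hh : 4 ≤ h)
    (key : c * h + 2 * (T * c) ≤ T * h + 6 * h + 3) : False := by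
  rcases Nat.lt_or_ge (2 * c) h with hlt | hge
  · nlinarith
  · nlinarith

/-- **The recursion cannot stay below the independence number.** -/
theorem growth_contra {d b T R : ℕ} (hd : 26 ≤ d) (hb : d / 2 + 1 < b) (hbd : b < d)
    (hR : R ≤ d) (hT : T ≤ rootNum d b) (A : ℕ → ℕ) (hA0 : A 0 = rootNum d b - T)
    (hcap : T < rootNum d b → ∀ i ≤ (d - 10) / 2, A i + T * (rootNum d (d / 2 + 2) - 1) ≤ d)
    (hbad : T * (rootNum d (d / 2 + 2) - 1) ≤ d)
    (hrec : T < rootNum d b → ∀ i < (d - 10) / 2,
      (d - (d / 2 + 1)) * A i + (rootNum d b - T) * (d / 2) + 1 ≤ R + (d / 2 + 1) * A (i + 1)) :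
    False := by
  rcases Nat.lt_or_ge d 72 with hd' | hd'
  · have h := check_small (d - 26) (by omega)
    rw [show 26 + (d - 26) = d by omega] at h
    simp only [checkAt, List.all_eq_true, List.mem_range, Bool.or_eq_true, decide_eq_true_eq,
      Bool.and_eq_true] at h
    rcases h b hbd with h1 | h1
    · omega
    rcases h1 T (by omega) with h2 | ⟨hlt, h2⟩
    · omega
    rw [exceeds_false ((d - 10) / 2) (rootNum d b - T) A (by omega)
      (fun i hi => by have := hcap hlt i hi; omega)
      (fun i hi => by have := hrec hlt i hi; omega)] at h2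
    exact Bool.false_ne_true h2
  · obtain ⟨h, e, he, rfl⟩ : ∃ h e, e ≤ 1 ∧ d = 2 * h + e := ⟨d / 2, d % 2, by omega, by omega⟩
    have hh : (2 * h + e) / 2 = h := by omega
    simp only [hh] at *
    set s := rootNum (2 * h + e) b with hs
    set c := rootNum (2 * h + e) (h + 2) - 1 with hc
    have hsr : c + 1 ≤ s := by simp only [hs, hc, rootNum]; omega
    have hcl : h ≤ 3 * c := by simp only [hc, rootNum]; omega
    have hc12 : 12 ≤ c := by simp only [hc, rootNum]; omega
    have hT6 : T ≤ 6 := by
      by_contra hT6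
      have : 7 * c ≤ T * c := Nat.mul_le_mul_right _ (by omega)
      omega
    have hlt : T < s := by omega
    have hcap' := hcap hlt
    have hrec' := hrec hlt
    have hstep : ∀ i < (2 * h + e - 10) / 2, A i + 2 ≤ A (i + 1) := by
      intro i hi
      by_contra hno
      have h1 := hrec' i hi
      have h2 := hcap' i (by omega)
      rw [show 2 * h + e - (h + 1) = h + e - 1 by omega] at h1
      have h3 : (h + 1) * A (i + 1) ≤ (h + 1) * (A i + 1) := Nat.mul_le_mul_left _ (by omega)
      have h4 : (h + 1) * A i ≤ (h + e - 1) * A i + 2 * A i := by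
        rw [← Nat.add_mul]
        exact Nat.mul_le_mul_right _ (by omega)
      have h5 : (c + 1) * h ≤ s * h := Nat.mul_le_mul_right _ hsr
      rw [Nat.mul_add, Nat.mul_one] at h3
      rw [Nat.sub_mul s T h] at h1
      have h6 : T * h ≤ 6 * h := Nat.mul_le_mul_right _ hT6
      have h7 : T * h ≤ s * h := Nat.mul_le_mul_right _ (by omega)
      rw [Nat.add_mul, one_mul] at h5
      have key : c * h + 2 * (T * c) ≤ T * h + 6 * h + 3 := by omega
      exact growth_arith hT6 hc12 (by omega) key
    have := add_mul_le_of_step hstep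
    have h2 := hcap' ((2 * h + e - 10) / 2) le_rfl
    interval_cases T <;> omega

end Vale.Agent.P048C
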