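import Vale.Agent.P048C.Dirac

/-!
# Panconnectedness of dense sets

If every member of `s` has at least `t` neighbours inside and `|s| + 2 ≤ 2 t`, any two members
are joined by paths on every number of vertices from `3` to `|s|`: a spanning cycle of the other
members is cut between a neighbour of one end and a neighbour of the other at the wanted distance.
-/

namespace Vale.Agent.P048C

open Finset

variable {V : Type*} {G : SimpleGraph V} {s : Finset V}

/-- A part with no edge to the rest is large, and so is the rest. -/
theorem linked_of_dense {k : ℕ} (hdeg : ∀ x ∈ s, k ≤ degIn G s x) (h : s.card ≤ 2 * k + 1) :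
    Linked G s := by
  classical
  intro T hT hT0 hTs
  by_contra hno
  push Not at hno
  obtain ⟨x, hx⟩ := hT0
  obtain ⟨y, hy, hyT⟩ : ∃ y ∈ s, y ∉ T := by
    by_contra h'
    push Not at h'
    exact hTs (Finset.Subset.antisymm hT h')
  have h1 : degIn G s x + 1 ≤ T.card := by
    rw [degIn, ← Finset.card_insert_of_notMem (a := x) (by simp)]
    refine Finset.card_le_card fun z hz => ?_
    rw [Finset.mem_insert, Finset.mem_filter] at hz
    rcases hz with rfl | ⟨hz, hxz⟩
    · exact hx
    · exact by_contra fun hzT => hno x hx z hz hzT hxz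
  have h2 : degIn G s y + 1 ≤ (s \ T).card := by
    rw [degIn, ← Finset.card_insert_of_notMem (a := y) (by simp)]
    refine Finset.card_le_card fun z hz => ?_
    rw [Finset.mem_insert, Finset.mem_filter] at hz
    rcases hz with rfl | ⟨hz, hyz⟩
    · exact Finset.mem_sdiff.2 ⟨hy, hyT⟩
    · exact Finset.mem_sdiff.2 ⟨hz, fun hzT => hno z hzT y hy hyT hyz.symm⟩
  have := Finset.card_sdiff_add_card_eq_card hT
  have := hdeg x (hT hx)
  have := hdeg y hy
  omega

/-- A dense set has a spanning cycle. -/
theorem exists_spanning_cycle [DecidableEq V] {k : ℕ} (hk : 2 ≤ k)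
    (hdeg : ∀ x ∈ s, k ≤ degIn G s x) (h : s.card ≤ 2 * k) (hne : s.Nonempty) :
    ∃ C, CycleIn G s C ∧ ∀ z ∈ s, z ∈ C := by
  obtain ⟨C, hC, hlen, -⟩ := exists_diracCycle' (G := G) (s := s) (fun v => by
    by_cases hv : v ∈ s
    · refine linked_of_dense (k := k - 1) (fun x hx => ?_) ?_
      · have h1 := hdeg x (Finset.mem_of_mem_erase hx)
        have h2 := degIn_le_sdiff (G := G) s {v} x
        rw [Finset.sdiff_singleton_eq_erase] at h2
        simp at h2
        omega
      · rw [Finset.card_erase_of_mem hv]; omega
    · rw [Finset.erase_eq_of_notMem hv]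
      exact linked_of_dense hdeg (by omega)) hne hk hdeg
  refine ⟨C, hC, fun z hz => ?_⟩
  have hsub : C.toFinset ⊆ s := fun w hw => hC.mem w (List.mem_toFinset.1 hw)
  have hcard : s.card ≤ C.toFinset.card := by
    rw [List.toFinset_card_of_nodup hC.nodup]
    omega
  exact List.mem_toFinset.1 (Finset.eq_of_subset_of_card_le hsub hcard ▸ hz)

/-- Consecutive members of a cycle, cyclically. -/
theorem CycleIn.adj_mod {C : List V} (hC : CycleIn G s C) (i : ℕ) :
    G.Adj (C[i % C.length]'(Nat.mod_lt _ (by have := hC.three_le; omega)))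
      (C[(i + 1) % C.length]'(Nat.mod_lt _ (by have := hC.three_le; omega))) := by
  have h3 := hC.three_le
  have hlt := Nat.mod_lt i (show C.length > 0 by omega)
  have e : (i + 1) % C.length = (i % C.length + 1) % C.length := by simp [Nat.add_mod]
  by_cases h : i % C.length + 1 < C.length
  · simp only [e, Nat.mod_eq_of_lt h]
    exact List.isChain_iff_getElem.1 hC.chain _ h
  · have hlast : i % C.length + 1 = C.length := by omega
    simp only [e, hlast, Nat.mod_self]
    refine hC.closed _ ?_ _ ?_
    · rw [List.head?_eq_getElem?, List.getElem?_eq_getElem (show 0 < C.length by omega)]; rfl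
    · rw [List.getLast?_eq_getElem?, show C.length - 1 = i % C.length by omega,
        List.getElem?_eq_getElem hlt]; rfl

/-- **Panconnectedness**: paths on every number of vertices from `3` to `|s|`. -/
theorem exists_path_card [DecidableEq V] {t n : ℕ} (hdeg : ∀ x ∈ s, t ≤ degIn G s x)
    (ht : s.card + 2 ≤ 2 * t) (ht4 : 4 ≤ t) {u v : V} (hu : u ∈ s) (hv : v ∈ s) (huv : u ≠ v)
    (hn : 3 ≤ n) (hns : n ≤ s.card) :
    ∃ l : List V, l.Nodup ∧ l.IsChain G.Adj ∧ l.head? = some u ∧ l.getLast? = some v ∧
      (∀ z ∈ l, z ∈ s) ∧ l.length = n := by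
  classical
  let s' := s \ {u, v}
  have hsub : ({u, v} : Finset V) ⊆ s := by
    intro z hz
    simp only [Finset.mem_insert, Finset.mem_singleton] at hz
    rcases hz with rfl | rfl <;> assumption
  have hc2 : ({u, v} : Finset V).card = 2 := Finset.card_pair huv
  have hcard := Finset.card_sdiff_add_card_eq_card hsub
  rw [hc2] at hcard
  have hdeg' : ∀ x ∈ s', t - 2 ≤ degIn G s' x := fun x hx => by
    have h1 := hdeg x (Finset.mem_sdiff.1 hx).1
    have h2 := degIn_le_sdiff (G := G) s {u, v} x
    rw [hc2] at h2
    simp only [s']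
    omega
  have hne : s'.Nonempty := Finset.card_pos.1 (by simp only [s']; omega)
  obtain ⟨C, hC, hall⟩ := exists_spanning_cycle (s := s') (show 2 ≤ t - 2 by omega) hdeg'
    (by simp only [s']; omega) hne
  have hlen : C.length = s'.card := by
    rw [← List.toFinset_card_of_nodup hC.nodup]
    congr 1
    ext z
    exact ⟨fun h => hC.mem z (List.mem_toFinset.1 h), fun h => List.mem_toFinset.2 (hall z h)⟩
  have h3 := hC.three_le
  let c : ℕ → V := fun i => C[i % C.length]'(Nat.mod_lt _ (by omega))
  -- the positions next to `u`, and those next to `v` at the wanted distance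
  let A := (Finset.range C.length).filter fun i => G.Adj u (c i)
  let B := (Finset.range C.length).filter fun i => G.Adj v (c (i + (n - 3)))
  have hAB : ∀ (w : V) (j : ℕ), w ∈ ({u, v} : Finset V) → t ≤
      ((Finset.range C.length).filter fun i => G.Adj w (c (i + j))).card + 1 := by
    intro w j hw
    have h1 := hdeg w (hsub hw)
    have h2 : degIn G s w ≤ degIn G s' w + 1 := by
      have hsub' : s.filter (fun z => G.Adj w z) ⊆
          s'.filter (fun z => G.Adj w z) ∪ (({u, v} : Finset V).erase w) := by
        intro z hz
        simp only [Finset.mem_filter] at hz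
        by_cases hz' : z ∈ ({u, v} : Finset V)
        · exact Finset.mem_union_right _ (Finset.mem_erase.2 ⟨hz.2.ne', hz'⟩)
        · exact Finset.mem_union_left _ (Finset.mem_filter.2
            ⟨Finset.mem_sdiff.2 ⟨hz.1, hz'⟩, hz.2⟩)
      have h4 := (Finset.card_le_card hsub').trans (Finset.card_union_le _ _)
      rw [Finset.card_erase_of_mem hw, hc2] at h4
      simpa [degIn] using h4
    have h5 : degIn G s' w ≤
        ((Finset.range C.length).filter fun i => G.Adj w (c (i + j))).card := by
      refine (Finset.card_le_card (t := (((Finset.range C.length).filter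
        fun i => G.Adj w (c (i + j)))).image fun i => c (i + j)) fun z hz => ?_).trans
        Finset.card_image_le
      obtain ⟨hz, hwz⟩ := Finset.mem_filter.1 hz
      obtain ⟨q, hq, rfl⟩ := List.getElem_of_mem (hall z hz)
      have hjl := Nat.mod_lt j (show C.length > 0 by omega)
      have hk : ((q + (C.length - j % C.length)) % C.length + j) % C.length = q := by
        rw [Nat.add_mod, Nat.mod_mod, ← Nat.add_mod,
          Nat.add_mod (q + (C.length - j % C.length)) j, ← Nat.mod_mod j, ← Nat.add_mod,
          Nat.mod_mod, show q + (C.length - j % C.length) + j % C.length = q + C.length by omega,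
          Nat.add_mod_right, Nat.mod_eq_of_lt hq]
      refine Finset.mem_image.2 ⟨(q + (C.length - j % C.length)) % C.length, ?_, ?_⟩
      · refine Finset.mem_filter.2 ⟨Finset.mem_range.2 (Nat.mod_lt _ (by omega)), ?_⟩
        simpa [c, hk] using hwz
      · simp [c, hk]
    omega
  have hA : t ≤ A.card + 1 := hAB u 0 (by simp)
  have hB : t ≤ B.card + 1 := hAB v (n - 3) (by simp)
  obtain ⟨i, hi⟩ : (A ∩ B).Nonempty := by
    refine Finset.card_pos.1 ?_
    have h6 := Finset.card_union_add_card_inter A B
    have h7 : (A ∪ B).card ≤ C.length := (Finset.card_le_card (Finset.union_subset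
      (Finset.filter_subset _ _) (Finset.filter_subset _ _))).trans (by simp)
    simp only [s'] at hlen
    omega
  obtain ⟨hiA, hiB⟩ := Finset.mem_inter.1 hi
  have hui : G.Adj u (c i) := (Finset.mem_filter.1 hiA).2
  have hvi : G.Adj v (c (i + (n - 3))) := (Finset.mem_filter.1 hiB).2
  let M := (List.range (n - 2)).map fun j => c (i + j)
  have hMs : ∀ z ∈ M, z ∈ s ∧ z ≠ u ∧ z ≠ v := by
    intro z hz
    obtain ⟨j, -, rfl⟩ := List.mem_map.1 hz
    have hcm : c (i + j) ∈ s' := hC.mem _ (List.getElem_mem _)
    obtain ⟨h8, h9⟩ := Finset.mem_sdiff.1 hcm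
    simp only [Finset.mem_insert, Finset.mem_singleton, not_or] at h9
    exact ⟨h8, h9.1, h9.2⟩
  have hMn : M.Nodup := by
    refine List.nodup_range.map_on fun x hx y hy e => ?_
    simp only [List.mem_range] at hx hy
    have e' : (i + x) % C.length = (i + y) % C.length := hC.nodup.getElem_inj_iff.1 e
    simp only [s'] at hlen
    have e'' := Nat.ModEq.add_left_cancel' i e'
    exact Nat.ModEq.eq_of_lt_of_lt e'' (by omega) (by omega)
  have hMc : M.IsChain G.Adj := by
    rw [List.isChain_iff_getElem]
    intro j hj
    simp only [M, List.getElem_map, List.getElem_range, ← Nat.add_assoc]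
    exact hC.adj_mod (i + j)
  have hM0 : M.head? = some (c i) := by
    simp only [M]
    rw [show n - 2 = n - 3 + 1 by omega, List.range_succ_eq_map]
    simp
  have hM1 : M.getLast? = some (c (i + (n - 3))) := by
    simp only [M]
    rw [show n - 2 = n - 3 + 1 by omega, List.range_succ, List.map_append, List.map_singleton,
      List.getLast?_concat]
  refine ⟨u :: (M ++ [v]), ?_, ?_, rfl, by rw [← List.cons_append, List.getLast?_concat],
    fun z hz => ?_, by simp [M]; omega⟩
  · refine List.nodup_cons.2 ⟨fun h => ?_, List.nodup_append.2 ⟨hMn, List.nodup_singleton v,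
      fun a ha b hb => ?_⟩⟩
    · rcases List.mem_append.1 h with h | h
      · exact (hMs u h).2.1 rfl
      · exact huv (List.mem_singleton.1 h)
    · obtain rfl := List.mem_singleton.1 hb
      exact (hMs a ha).2.2
  · refine List.isChain_cons.2 ⟨?_, List.isChain_append.2 ⟨hMc, List.isChain_singleton v, ?_⟩⟩
    · rw [List.head?_append, hM0]
      simpa using hui
    · rw [hM1]
      simpa using hvi.symm
  · simp only [List.mem_cons, List.mem_append, List.not_mem_nil, or_false] at hz
    rcases hz with rfl | hz | rfl
    exacts [hu, (hMs z hz).1, hv]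

end Vale.Agent.P048C
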