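import Vale.Agent.P048C.Walks
import Vale.Agent.P048C.Growth
import Vale.Agent.P048C.Pancon

/-!
# No minimal counterexample

A blob `B` has roots that are pairwise far apart outside `W`. A root near another blob brings the
roots of that blob, all but one of them outside `W`; the other roots feed the engine. The
independent sets so obtained are pairwise non-adjacent, which contradicts the growth recursion.
-/

namespace Vale.Agent.P048C

open Finset

variable {V : Type*} {G : SimpleGraph V}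

/-- What the roots lemma provides for the blob `B`. -/
structure RootSys (G : SimpleGraph V) (U B : Finset V) (d s : ℕ) (W Z : Finset V)
    (own : V → V) [DecidableEq V] : Prop where
  subB : B ⊆ W
  subU : W ⊆ U
  cardW : W.card ≤ d
  subZ : Z ⊆ U \ W
  cardZ : Z.card = s
  inj : Set.InjOn own Z
  adj : ∀ z ∈ Z, own z ∈ B ∧ G.Adj z (own z)
  far : ∀ z ∈ Z, ∀ z' ∈ Z, z ≠ z' → ∀ n, n + 2 ≤ d → ¬ PathOn G (U \ W) z z' n
  touch : ∀ H, Blob G d H → H ⊆ U \ W → ∀ h₁ ∈ H, ∀ h₂ ∈ H, h₁ ≠ h₂ → ∀ z₁ ∈ W, ∀ z₂ ∈ W,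
    z₁ ≠ z₂ → G.Adj h₁ z₁ → G.Adj h₂ z₂ → False

variable [DecidableEq V] {U B W Z : Finset V} {own : V → V} {d a s : ℕ}

theorem RootSys.not_within (hR : RootSys G U B d s W Z own) {z z' : V} {k : ℕ} (hz : z ∈ Z)
    (hz' : z' ∈ Z) (hne : z ≠ z') (hk : k + 3 ≤ d) : ¬ Within G (U \ W) z z' k := by
  rintro ⟨n, hn, hp⟩
  exact hR.far z hz z' hz' hne n (by omega) hp

theorem RootSys.indep (hR : RootSys G U B d s W Z own) (hd : 4 ≤ d) : Indep G Z := by
  intro x hx y hy hxy
  exact hR.not_within hx hy hxy.ne (k := 1) (by omega)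
    (Within.of_adj (hR.subZ hx) (hR.subZ hy) hxy)

/-- Two members of a blob have a common neighbour in it. -/
theorem Blob.exists_common (hd : 6 ≤ d) (hB : Blob G d B) {x y : V} (hx : x ∈ B) (hy : y ∈ B)
    (hxy : x ≠ y) : ∃ w ∈ B, G.Adj x w ∧ G.Adj w y := by
  have hcard := hB.lt_card
  obtain ⟨l, hln, hlc, hlh, hll, hlm, hlen⟩ := exists_path_card (t := d / 2 + 1) (n := 3)
    hB.2.2 (by have := hB.2.1; omega) (by omega) hx hy hxy le_rfl (by omega)
  match l, hlen with
  | [p, w, q], _ =>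
    obtain rfl : p = x := by simpa using hlh
    obtain rfl : q = y := by simpa using hll
    simp only [List.isChain_cons_cons] at hlc
    exact ⟨w, hlm w (by simp), hlc.1, hlc.2.1⟩

theorem Blob.within_two (hd : 6 ≤ d) (hB : Blob G d B) {X : Finset V} (hBX : B ⊆ X) {x y : V}
    (hx : x ∈ B) (hy : y ∈ B) : Within G X x y 2 := by
  rcases eq_or_ne x y with rfl | hxy
  · exact within_self (hBX hx) 2
  · obtain ⟨w, hw, h1, h2⟩ := hB.exists_common hd hx hy hxy
    exact (Within.of_adj (hBX hx) (hBX hw) h1).trans (Within.of_adj (hBX hw) (hBX hy) h2)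

theorem RootSys.link (hR : RootSys G U B d s W Z own) (hd : 6 ≤ d) (hB : Blob G d B)
    {S : Finset V} (hS : S ⊆ Z) : RootLink G W S 4 := by
  intro S' hS' hcard
  obtain ⟨y₀, hy₀, y₁, hy₁, hne⟩ := one_lt_card.1 hcard
  refine ⟨fun z => decide (z = y₀), 4, ⟨y₀, hy₀, y₁, hy₁, by simp [hne.symm]⟩, by omega, le_rfl,
    fun y hy y' hy' hf => ?_⟩
  have hyy : y ≠ y' := by rintro rfl; exact hf rfl
  have hx := hR.adj y (hS (hS' hy))
  have hx' := hR.adj y' (hS (hS' hy'))
  have hown : own y ≠ own y' := fun e => hyy (hR.inj (hS (hS' hy)) (hS (hS' hy')) e)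
  obtain ⟨w, hw, h1, h2⟩ := hB.exists_common hd hx.1 hx'.1 hown
  refine ⟨[own y, w, own y'], by simp [hown, h1.ne, h2.ne], ?_, ?_, rfl⟩
  · simp [hx.2, h1, h2, hx'.2.symm]
  · simp [hR.subB hx.1, hR.subB hw, hR.subB hx'.1]

/-- A root near a blob brings that blob's roots, all but one outside `W`, close to it. -/
theorem RootSys.bad_set (hR : RootSys G U B d s W Z own) (hd : 6 ≤ d) {y : V}
    {H : Finset V} (hH : Blob G d H) (hHU : H ⊆ U \ W) {z : V} (hz : z ∈ H) {k : ℕ}
    (hyz : Within G (U \ W) y z k) {s' : ℕ} {W' Z' : Finset V} {own' : V → V}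
    (hR' : RootSys G U H d s' W' Z' own') :
    ∃ J ⊆ U \ W, Indep G J ∧ s' - 1 ≤ J.card ∧ ∀ w ∈ J, Within G (U \ W) y w (k + 3) := by
  refine ⟨Z' \ W, fun w hw => ?_, fun p hp q hq => ?_, ?_, fun w hw => ?_⟩
  · rw [mem_sdiff] at hw ⊢
    exact ⟨(mem_sdiff.1 (hR'.subZ hw.1)).1, hw.2⟩
  · exact hR'.indep (by omega) p (mem_sdiff.1 hp).1 q (mem_sdiff.1 hq).1
  · have h1 : (Z' ∩ W).card ≤ 1 := card_le_one.2 fun p hp q hq => by
      by_contra hne
      rw [mem_inter] at hp hq
      exact hR.touch H hH hHU _ (hR'.adj p hp.1).1 _ (hR'.adj q hq.1).1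
        (fun e => hne (hR'.inj hp.1 hq.1 e)) p hp.2 q hq.2 hne (hR'.adj p hp.1).2.symm
        (hR'.adj q hq.1).2.symm
    have := card_sdiff_add_card_inter Z' W
    rw [hR'.cardZ] at this
    omega
  · rw [mem_sdiff] at hw
    obtain ⟨ho, hadj⟩ := hR'.adj w hw.1
    have hwX : w ∈ U \ W := mem_sdiff.2 ⟨(mem_sdiff.1 (hR'.subZ hw.1)).1, hw.2⟩
    exact ((hyz.trans (hH.within_two hd hHU hz ho)).trans
      (Within.of_adj (hHU ho) hwX hadj.symm)).mono (by omega)

theorem RootSys.apart (hR : RootSys G U B d s W Z own) {y y' p q : V} {i j : ℕ} (hy : y ∈ Z)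
    (hy' : y' ∈ Z) (hne : y ≠ y') (hij : i + j + 4 ≤ d) (hp : Within G (U \ W) y p i)
    (hq : Within G (U \ W) y' q j) : p ≠ q ∧ ¬ G.Adj p q := by
  refine ⟨fun e => ?_, fun e => ?_⟩
  · subst e
    exact hR.not_within hy hy' hne (k := i + j) (by omega) (hp.trans hq.symm)
  · exact hR.not_within hy hy' hne (k := i + 1 + j) (by omega)
      ((hp.trans (Within.of_adj hp.right_mem hq.right_mem e)).trans hq.symm)

/-- **No minimal counterexample.** -/
theorem no_setup (h : Setup G U d a) (hd : 26 ≤ d)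
    (hblob : ∃ B ⊆ U, Blob G d B)
    (hroots : ∀ B ⊆ U, Blob G d B → ∀ s, 3 * s + d ≤ 3 * B.card + 3 →
      ∃ W Z own, RootSys G U B d s W Z own) : False := by
  classical
  obtain ⟨B, hBU, hB⟩ := hblob
  have hbt := hB.lt_card
  have hbd := hB.2.1
  obtain ⟨W, Z, own, hR⟩ := hroots B hBU hB (rootNum d B.card) (by rw [rootNum]; omega)
  set K := (d - 10) / 2 with hK
  set c := rootNum d (d / 2 + 2) - 1 with hc
  let isBad : V → Prop := fun y =>
    ∃ H, Blob G d H ∧ H ⊆ U \ W ∧ ∃ z ∈ H, Within G (U \ W) y z K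
  have hJ : ∀ y, ∃ J ⊆ U \ W, Indep G J ∧ (y ∈ Z → isBad y → c ≤ J.card) ∧
      ∀ w ∈ J, Within G (U \ W) y w (K + 3) := by
    intro y
    by_cases hy : y ∈ Z ∧ isBad y
    · obtain ⟨H, hH, hHU, z, hz, hyz⟩ := hy.2
      obtain ⟨W', Z', own', hR'⟩ := hroots H (hHU.trans sdiff_subset) hH (rootNum d (d / 2 + 2))
        (by rw [rootNum]; have := hH.lt_card; omega)
      obtain ⟨J, h1, h2, h3, h4⟩ := hR.bad_set (by omega) hH hHU hz hyz hR'
      exact ⟨J, h1, h2, fun _ _ => h3, h4⟩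
    · exact ⟨∅, empty_subset _, by simp [Indep], fun h1 h2 => absurd ⟨h1, h2⟩ hy, by simp⟩
  choose J hJX hJI hJc hJw using hJ
  set T := Z.filter isBad with hT
  set S := Z.filter fun y => ¬ isBad y with hS
  have hTS : T.card + S.card = rootNum d B.card :=
    (card_filter_add_card_filter_not isBad).trans hR.cardZ
  let JT := T.biUnion J
  have hJT : JT ⊆ U := biUnion_subset.2 fun y _ => (hJX y).trans sdiff_subset
  have hJTI : Indep G JT := by
    intro p hp q hq
    obtain ⟨y, hy, hpy⟩ := mem_biUnion.1 hp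
    obtain ⟨y', hy', hqy⟩ := mem_biUnion.1 hq
    by_cases hne : y = y'
    · subst hne; exact hJI y p hpy q hqy
    · exact (hR.apart (mem_filter.1 hy).1 (mem_filter.1 hy').1 hne (by omega) (hJw y p hpy)
        (hJw y' q hqy)).2
  have hJTc : T.card * c ≤ JT.card := by
    rw [card_biUnion fun y hy y' hy' hne => disjoint_left.2 fun p hp hp' =>
      (hR.apart (mem_filter.1 hy).1 (mem_filter.1 hy').1 hne (by omega) (hJw y p hp)
        (hJw y' p hp')).1 rfl, ← smul_eq_mul]
    exact card_nsmul_le_sum _ _ _ fun y hy => hJc y (mem_filter.1 hy).1 (mem_filter.1 hy).2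
  have hbad : T.card * c ≤ d := hJTc.trans ((h.alpha JT hJT hJTI).trans h.le)
  by_cases hS0 : S.Nonempty
  · have hSZ : S ⊆ Z := filter_subset _ _
    obtain ⟨A, hA0, hAI, hArec⟩ := engine h (R := W) (S := S) (by omega) (hSZ.trans hR.subZ) hS0
      (fun x hx y hy => hR.indep (by omega) x (hSZ hx) y (hSZ hy))
      (hR.link (by omega) hB hSZ) (Λ := 4) (K := K) (by omega)
      (fun H hH hHU z hz y hy hyz => (mem_filter.1 hy).2 ⟨H, hH, hHU, z, hz, hyz⟩)
    have hSc : S.card = rootNum d B.card - T.card := by omega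
    refine growth_contra hd hbt hbd hR.cardW (show T.card ≤ rootNum d B.card by omega) A
      (hA0.trans hSc) (fun _ i hi => ?_) hbad fun _ i hi => by rw [← hSc]; exact hArec i hi
    obtain ⟨I, hIX, hII, hIc, hIw⟩ := hAI i hi
    have hfar : ∀ p ∈ I, ∀ q ∈ JT, p ≠ q ∧ ¬ G.Adj p q := by
      intro p hp q hq
      obtain ⟨y, hy, hyp⟩ := (hIw p hp).1
      obtain ⟨y', hy', hqy⟩ := mem_biUnion.1 hq
      refine hR.apart (hSZ hy) (mem_filter.1 hy').1 (fun e => ?_) (by omega) hyp (hJw y' q hqy)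
      exact (mem_filter.1 hy).2 (e ▸ (mem_filter.1 hy').2)
    have hu : Indep G (I ∪ JT) := by
      intro p hp q hq
      rcases mem_union.1 hp with hp | hp <;> rcases mem_union.1 hq with hq | hq
      · exact hII p hp q hq
      · exact (hfar p hp q hq).2
      · exact fun e => (hfar q hq p hp).2 e.symm
      · exact hJTI p hp q hq
    have := h.alpha (I ∪ JT) (union_subset (hIX.trans sdiff_subset) hJT) hu
    rw [card_union_of_disjoint (disjoint_left.2 fun p hp hp' => (hfar p hp p hp').1 rfl), hIc]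
      at this
    have := h.le
    rw [hc] at hJTc
    omega
  · have h0 : S.card = 0 := card_eq_zero.2 (not_nonempty_iff_eq_empty.1 hS0)
    exact growth_contra (R := 0) hd hbt hbd (Nat.zero_le d) (show T.card ≤ rootNum d B.card by omega)
      (fun _ => 0) (show 0 = rootNum d B.card - T.card by omega) (fun hlt => absurd hlt (by omega)) hbad
      (fun hlt => absurd hlt (by omega))

end Vale.Agent.P048C
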