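import Vale.Agent.P048C.Roots

/-!
# No minimal counterexample: two radii

The engine runs to radius `k₁` on the roots that are clean there. Bad roots are used at a second
radius `k₂`: all of them if the sets near two of them cannot meet, otherwise just one. A blob on
`d / 2 + 2` vertices is a clique, so its roots are linked and far apart by one step more.
-/

namespace Vale.Agent.P048C

open Finset Vale.Agent.P048

variable {V : Type*} {G : SimpleGraph V}

/-- The number of bad roots used at radius `k₂`, when `n` roots are bad there. -/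
def usedAt (d e k₁ k₂ n : ℕ) : ℕ :=
  if k₁ + k₂ + 7 ≤ d + e then (if 2 * k₂ + 10 ≤ d + e then n else min 1 n) else 0

/-- The fewest roots of a blob on `b` vertices whose system fills `R` vertices. -/
def rootMin (b R : ℕ) : ℕ := (3 * b - R + 1) / 2

/-- The radii `(k₁, k₂)` exceed `cap`, with `n₁` and `n₂` roots bad at the two radii. -/
def hitPair (d e R cap s k₁ k₂ n₁ n₂ : ℕ) : Bool :=
  let u := usedAt d e k₁ k₂ n₂
  let gain := u * (rootMin (d / 2 + 2) d - 1)
  decide (cap < gain) || (decide (max n₁ u < s) && exceeds d (s - max n₁ u) R (cap - gain) k₁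
    (s - max n₁ u))

/-- Some pair of radii below the length of `f` works for the profile `f` of bad roots. -/
def hitList (d e R cap s : ℕ) (f : List ℕ) : Bool :=
  (List.range f.length).any fun k₁ => (List.range f.length).any fun k₂ =>
    hitPair d e R cap s k₁ k₂ (f.getD k₁ 0) (f.getD k₂ 0)

/-- Every nondecreasing profile extending `f` is hit within `n` further entries. -/
def hitAll (d e R cap s : ℕ) : ℕ → List ℕ → ℕ → Bool
  | 0, f, _ => hitList d e R cap s f
  | n + 1, f, lo => hitList d e R cap s f ||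
    (List.range (s + 1 - lo)).all fun i => hitAll d e R cap s n (f ++ [lo + i]) (lo + i)

/-- All cases for one `d` and independence number at most `cap`. -/
def checkTwo (d cap : ℕ) : Bool :=
  (List.range d).all fun b => decide (b ≤ d / 2 + 1) ||
    (List.range (d + 1)).all fun R => decide (R < b) ||
      if b = d / 2 + 2 then hitAll d 1 R cap (rootMin b R) ((d - 3) / 2 + 1) [] 0
      else hitAll d 0 R cap (rootMin b R) ((d - 4) / 2 + 1) [] 0

theorem checkTwo_mid : ∀ k < 13, checkTwo (13 + k) (13 + k) = true := by decide +kernel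

theorem checkTwo_low : checkTwo 12 11 = true ∧ checkTwo 11 8 = true ∧ checkTwo 10 9 = true := by
  decide +kernel

theorem hitAll_sound {d e R cap s : ℕ} {F : ℕ → ℕ} (hmono : Monotone F) (hF : ∀ k, F k ≤ s) :
    ∀ (n : ℕ) (f : List ℕ) (lo : ℕ), hitAll d e R cap s n f lo = true →
      f = (List.range f.length).map F → lo ≤ F f.length →
      ∃ k₁ k₂, k₁ < f.length + n ∧ k₂ < f.length + n ∧
        hitPair d e R cap s k₁ k₂ (F k₁) (F k₂) = true := by
  have key : ∀ f : List ℕ, f = (List.range f.length).map F → hitList d e R cap s f = true →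
      ∃ k₁ k₂, k₁ < f.length ∧ k₂ < f.length ∧
        hitPair d e R cap s k₁ k₂ (F k₁) (F k₂) = true := by
    intro f hf h
    simp only [hitList, List.any_eq_true, List.mem_range] at h
    obtain ⟨k₁, h1, k₂, h2, h3⟩ := h
    have hget : ∀ k < f.length, f.getD k 0 = F k := fun k hk => by
      rw [hf]; simp [List.getD_eq_getElem?_getD, hk]
    rw [hget k₁ h1, hget k₂ h2] at h3
    exact ⟨k₁, k₂, h1, h2, h3⟩
  intro n
  induction n with
  | zero => exact fun f lo h hf _ => by simpa using key f hf h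
  | succ n ih =>
    intro f lo h hf hlo
    rw [hitAll, Bool.or_eq_true] at h
    rcases h with h | h
    · obtain ⟨k₁, k₂, h1, h2, h3⟩ := key f hf h
      exact ⟨k₁, k₂, by omega, by omega, h3⟩
    · rw [List.all_eq_true] at h
      have := hF f.length
      have h' := h (F f.length - lo) (List.mem_range.2 (by omega))
      rw [show lo + (F f.length - lo) = F f.length by omega] at h'
      obtain ⟨k₁, k₂, h1, h2, h3⟩ := ih _ _ h'
        (by simp only [List.length_append, List.length_singleton]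
            conv_lhs => rw [hf]
            simp [List.range_succ])
        (hmono (by simp))
      simp only [List.length_append, List.length_singleton] at h1 h2
      exact ⟨k₁, k₂, by omega, by omega, h3⟩

variable [DecidableEq V] {U B W Z : Finset V} {own : V → V} {d a e s : ℕ}

/-- Roots with adjacent owners are one step farther apart. -/
theorem RootSys.far' (hR : RootSys G U B d s W Z own) (h : Setup G U d a) (hd : 2 ≤ d)
    (he : e ≤ 1) (hclq : e = 1 → ∀ x ∈ B, ∀ y ∈ B, x ≠ y → G.Adj x y) {z z' : V} {n : ℕ}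
    (hz : z ∈ Z) (hz' : z' ∈ Z) (hne : z ≠ z') (hn : n + 2 ≤ d + e) :
    ¬ PathOn G (U \ W) z z' n := by
  intro hp
  rcases Nat.lt_or_ge d (n + 2) with hlt | hle
  · obtain rfl : n + 1 = d := by omega
    obtain ⟨l, hln, hlc, hlh, hll, hlm, hlen⟩ := hp
    have hx := hR.adj z hz
    have hx' := hR.adj z' hz'
    have hne' : own z' ≠ own z := fun e' => hne (hR.inj hz hz' e'.symm)
    have hnl : ∀ y, y ∈ B → y ∉ l := fun y hy hyl => (mem_sdiff.1 (hlm y hyl)).2 (hR.subB hy)
    obtain ⟨c, tl, rfl⟩ : ∃ c tl, l = c :: tl := by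
      cases l with
      | nil => simp at hlh
      | cons c tl => exact ⟨c, tl, rfl⟩
    obtain rfl : z = c := by simpa using hlh.symm
    refine h.noCyc (cyc_of_list (by omega) (own z') (own z :: z :: tl)
      (by simp at hlen ⊢; omega) ?_ ?_ ?_)
    · refine List.nodup_cons.2 ⟨?_, List.nodup_cons.2 ⟨hnl _ hx.1, hln⟩⟩
      simp only [List.mem_cons, not_or]
      exact ⟨hne', by simpa using hnl _ hx'.1⟩
    · exact List.isChain_cons_cons.2 ⟨hclq (by omega) _ hx'.1 _ hx.1 hne',
        List.isChain_cons_cons.2 ⟨hx.2.symm, hlc⟩⟩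
    · intro y hy
      rw [List.getLast?_cons_cons, List.getLast?_cons_cons] at hy
      rw [hll] at hy
      obtain rfl := Option.mem_some_iff.1 hy
      exact hx'.2
  · exact hR.far z hz z' hz' hne n hle hp

theorem RootSys.apart' (hR : RootSys G U B d s W Z own) (h : Setup G U d a) (hd : 2 ≤ d)
    (he : e ≤ 1) (hclq : e = 1 → ∀ x ∈ B, ∀ y ∈ B, x ≠ y → G.Adj x y) {y y' p q : V} {i j : ℕ}
    (hy : y ∈ Z) (hy' : y' ∈ Z) (hne : y ≠ y') (hij : i + j + 4 ≤ d + e)
    (hp : Within G (U \ W) y p i) (hq : Within G (U \ W) y' q j) : p ≠ q ∧ ¬ G.Adj p q := by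
  refine ⟨fun heq => ?_, fun hpq => ?_⟩
  · subst heq
    obtain ⟨n, hn, hpath⟩ := hp.trans hq.symm
    exact hR.far' h hd he hclq hy hy' hne (by omega) hpath
  · obtain ⟨n, hn, hpath⟩ :=
      (hp.trans (Within.of_adj hp.right_mem hq.right_mem hpq)).trans hq.symm
    exact hR.far' h hd he hclq hy hy' hne (by omega) hpath

theorem RootSys.link' (hR : RootSys G U B d s W Z own) (hd : 6 ≤ d) (hB : Blob G d B)
    (he : e ≤ 1) (hclq : e = 1 → ∀ x ∈ B, ∀ y ∈ B, x ≠ y → G.Adj x y) {S : Finset V}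
    (hS : S ⊆ Z) : RootLink G W S (4 - e) := by
  rcases Nat.eq_zero_or_pos e with rfl | he1
  · exact hR.link hd hB hS
  obtain rfl : e = 1 := by omega
  intro S' hS' hcard
  obtain ⟨y₀, hy₀, y₁, hy₁, hne⟩ := one_lt_card.1 hcard
  refine ⟨fun z => decide (z = y₀), 3, ⟨y₀, hy₀, y₁, hy₁, by simp [hne.symm]⟩, by omega, le_rfl,
    fun y hy y' hy' hf => ?_⟩
  have hyy : y ≠ y' := by rintro rfl; exact hf rfl
  have hx := hR.adj y (hS (hS' hy))
  have hx' := hR.adj y' (hS (hS' hy'))
  have hown : own y ≠ own y' := fun e' => hyy (hR.inj (hS (hS' hy)) (hS (hS' hy')) e')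
  refine ⟨[own y, own y'], by simp [hown], ?_, ?_, rfl⟩
  · simp [hx.2, hclq rfl _ hx.1 _ hx'.1 hown, hx'.2.symm]
  · simp [hR.subB hx.1, hR.subB hx'.1]

/-- **No minimal counterexample with a blob, given the finite check.** -/
theorem no_setup_of_check {cap : ℕ} (h : Setup G U d a) (hd : 10 ≤ d) (ha : a ≤ cap)
    (hcheck : checkTwo d cap = true) (hB : Blob G d B) (hBU : B ⊆ U) : False := by
  classical
  obtain ⟨W, Z₁, own, hR₁, hcount⟩ := roots h (by omega) hB hBU
  have hbt := hB.lt_card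
  have hbd := hB.2.1
  have hbR : B.card ≤ W.card := card_le_card hR₁.subB
  have hRd := hR₁.cardW
  obtain ⟨Z, hZ, hZc⟩ := exists_subset_card_eq (show rootMin B.card W.card ≤ Z₁.card by
    rw [rootMin]; omega)
  have hR : RootSys G U B d Z.card W Z own :=
    { subB := hR₁.subB, subU := hR₁.subU, cardW := hRd, subZ := hZ.trans hR₁.subZ, cardZ := rfl
      inj := hR₁.inj.mono (coe_subset.2 hZ)
      adj := fun z hz => hR₁.adj z (hZ hz)
      far := fun z hz z' hz' => hR₁.far z (hZ hz) z' (hZ hz')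
      touch := hR₁.touch }
  obtain ⟨e, he, hclq, hall⟩ : ∃ e ≤ 1, (e = 1 → ∀ x ∈ B, ∀ y ∈ B, x ≠ y → G.Adj x y) ∧
      hitAll d e W.card cap Z.card ((d - (4 - e)) / 2 + 1) [] 0 = true := by
    simp only [checkTwo, List.all_eq_true, List.mem_range, Bool.or_eq_true, decide_eq_true_eq]
      at hcheck
    have h1 := ((hcheck B.card hbd).resolve_left (by omega) W.card (by omega)).resolve_left
      (by omega)
    rw [hZc]
    split_ifs at h1 with hb
    · refine ⟨1, le_rfl, fun _ x hx y hy hxy => ?_, h1⟩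
      by_contra hn
      have h2 := hB.2.2 x hx
      have : degIn G B x ≤ ((B.erase x).erase y).card := card_le_card fun w hw => by
        rw [mem_filter] at hw
        exact mem_erase.2 ⟨fun e' => hn (e' ▸ hw.2), mem_erase.2 ⟨hw.2.ne', hw.1⟩⟩
      rw [card_erase_of_mem (mem_erase.2 ⟨hxy.symm, hy⟩), card_erase_of_mem hx] at this
      omega
    · exact ⟨0, Nat.zero_le _, fun h0 => absurd h0 (by omega), h1⟩
  let isBad : ℕ → V → Prop := fun k y =>
    ∃ H, Blob G d H ∧ H ⊆ U \ W ∧ ∃ z ∈ H, Within G (U \ W) y z k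
  let F : ℕ → ℕ := fun k => (Z.filter (isBad k)).card
  have hsub : ∀ {i j : ℕ}, i ≤ j → Z.filter (isBad i) ⊆ Z.filter (isBad j) := by
    intro i j hij y hy
    rw [mem_filter] at hy ⊢
    obtain ⟨hyZ, H, hH, hHU, z, hz, hyz⟩ := hy
    exact ⟨hyZ, H, hH, hHU, z, hz, hyz.mono hij⟩
  obtain ⟨k₁, k₂, hk₁, hk₂, hhit⟩ := hitAll_sound (F := F)
    (fun i j hij => card_le_card (hsub hij)) (fun k => card_le_card (filter_subset _ _))
    _ [] 0 hall rfl (Nat.zero_le _)
  simp only [List.length_nil, Nat.zero_add] at hk₁ hk₂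
  set c := rootMin (d / 2 + 2) d - 1 with hc
  set u := usedAt d e k₁ k₂ (F k₂) with hu
  -- the bad roots used
  have huF : u ≤ F k₂ := by
    rw [hu, usedAt]
    split_ifs <;> omega
  obtain ⟨P, hP, hPc, hPS⟩ : ∃ P ⊆ Z.filter (isBad k₂), P.card = u ∧
      (Z.filter (isBad k₁) ∪ P).card ≤ max (F k₁) u := by
    by_cases hle : k₁ ≤ k₂ ∧ F k₁ ≤ u
    · obtain ⟨P, h1, h2, h3⟩ := exists_subsuperset_card_eq (hsub hle.1) hle.2 huF
      exact ⟨P, h2, h3, by rw [union_eq_right.2 h1, h3]; exact le_max_right _ _⟩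
    · by_cases hle' : k₁ ≤ k₂
      · obtain ⟨P, h1, h2⟩ := exists_subset_card_eq (s := Z.filter (isBad k₁))
          (n := u) (by
            have : ¬ F k₁ ≤ u := fun e' => hle ⟨hle', e'⟩
            change u ≤ F k₁
            omega)
        exact ⟨P, h1.trans (hsub hle'), h2, by rw [union_eq_left.2 h1]; exact le_max_left _ _⟩
      · obtain ⟨P, h1, h2⟩ := exists_subset_card_eq (s := Z.filter (isBad k₂)) (n := u) huF
        exact ⟨P, h1, h2,
          by rw [union_eq_left.2 (h1.trans (hsub (by omega)))]; exact le_max_left _ _⟩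
  have hJ : ∀ y, ∃ J ⊆ U \ W, Indep G J ∧ (y ∈ P → c ≤ J.card) ∧
      ∀ w ∈ J, Within G (U \ W) y w (k₂ + 3) := by
    intro y
    by_cases hy : y ∈ P
    · obtain ⟨hyZ, H, hH, hHU, z, hz, hyz⟩ := mem_filter.1 (hP hy)
      obtain ⟨W', Z', own', hR', hc'⟩ := roots h (by omega) hH (hHU.trans sdiff_subset)
      obtain ⟨J, h1, h2, h3, h4⟩ := hR.bad_set (by omega) hH hHU hz hyz hR'
      refine ⟨J, h1, h2, fun _ => ?_, h4⟩
      have := hH.lt_card
      have := hR'.cardW
      rw [hc, rootMin]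
      omega
    · exact ⟨∅, empty_subset _, by simp [Indep], fun h' => absurd h' hy, by simp⟩
  choose J hJX hJI hJc hJw using hJ
  let JT := P.biUnion J
  have hPZ : ∀ y ∈ P, y ∈ Z := fun y hy => (mem_filter.1 (hP hy)).1
  have hu2 : ∀ y ∈ P, ∀ y' ∈ P, y ≠ y' → k₂ + 3 + (k₂ + 3) + 4 ≤ d + e := by
    intro y hy y' hy' hne
    have : 2 ≤ u := hPc ▸ one_lt_card.2 ⟨y, hy, y', hy', hne⟩
    rw [hu, usedAt] at this
    split_ifs at this <;> omega
  have hJT : JT ⊆ U := biUnion_subset.2 fun y _ => (hJX y).trans sdiff_subset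
  have hJTI : Indep G JT := by
    intro p hp q hq
    obtain ⟨y, hy, hpy⟩ := mem_biUnion.1 hp
    obtain ⟨y', hy', hqy⟩ := mem_biUnion.1 hq
    by_cases hne : y = y'
    · subst hne; exact hJI y p hpy q hqy
    · exact (hR.apart' h (by omega) he hclq (hPZ y hy) (hPZ y' hy') hne (hu2 y hy y' hy' hne)
        (hJw y p hpy) (hJw y' q hqy)).2
  have hJTc : u * c ≤ JT.card := by
    rw [card_biUnion fun y hy y' hy' hne => disjoint_left.2 fun p hp hp' =>
      (hR.apart' h (by omega) he hclq (hPZ y hy) (hPZ y' hy') hne (hu2 y hy y' hy' hne)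
        (hJw y p hp) (hJw y' p hp')).1 rfl, ← hPc, ← smul_eq_mul]
    exact card_nsmul_le_sum _ _ _ fun y hy => hJc y hy
  have hgain : u * c ≤ cap := (hJTc.trans (h.alpha JT hJT hJTI)).trans ha
  simp only [hitPair, ← hu, ← hc, Bool.or_eq_true, Bool.and_eq_true, decide_eq_true_eq] at hhit
  obtain ⟨hlt, hex⟩ := hhit.resolve_left (by omega)
  set sp := Z.card - max (F k₁) u with hsp
  obtain ⟨S, hS, hSc⟩ := exists_subset_card_eq
    (s := Z \ (Z.filter (isBad k₁) ∪ P)) (n := sp) (by
      have := le_card_sdiff (Z.filter (isBad k₁) ∪ P) Z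
      omega)
  have hSZ : S ⊆ Z := hS.trans sdiff_subset
  obtain ⟨A, hA0, hAI, hArec⟩ := engine h (R := W) (S := S) (by omega) (hSZ.trans hR.subZ)
    (card_pos.1 (by omega))
    (fun x hx y hy => hR.indep (by omega) x (hSZ hx) y (hSZ hy))
    (hR.link' (by omega) hB he hclq hSZ) (Λ := 4 - e) (K := k₁) (by omega)
    (fun H hH hHU z hz y hy hyz =>
      (mem_sdiff.1 (hS hy)).2 (mem_union_left _ (mem_filter.2 ⟨hSZ hy, H, hH, hHU, z, hz, hyz⟩)))
  have hfalse := exceeds_false (d := d) (sp := sp) (R := W.card) (cap := cap - u * c) k₁ sp A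
    (by omega) (fun i hi => by
      obtain ⟨I, hIX, hII, hIc, hIw⟩ := hAI i hi
      have hfar : ∀ p ∈ I, ∀ q ∈ JT, p ≠ q ∧ ¬ G.Adj p q := by
        intro p hp q hq
        obtain ⟨y, hy, hyp⟩ := (hIw p hp).1
        obtain ⟨y', hy', hqy⟩ := mem_biUnion.1 hq
        have : 1 ≤ u := hPc ▸ card_pos.2 ⟨y', hy'⟩
        refine hR.apart' h (by omega) he hclq (hSZ hy) (hPZ y' hy') (fun e' => ?_)
          (j := k₂ + 3) ?_ hyp (hJw y' q hqy)
        · exact (mem_sdiff.1 (hS hy)).2 (mem_union_right _ (e' ▸ hy'))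
        · rw [hu, usedAt] at this
          split_ifs at this <;> omega
      have hun : Indep G (I ∪ JT) := by
        intro p hp q hq
        rcases mem_union.1 hp with hp | hp <;> rcases mem_union.1 hq with hq | hq
        · exact hII p hp q hq
        · exact (hfar p hp q hq).2
        · exact fun e' => (hfar q hq p hp).2 e'.symm
        · exact hJTI p hp q hq
      have := h.alpha (I ∪ JT) (union_subset (hIX.trans sdiff_subset) hJT) hun
      rw [card_union_of_disjoint (disjoint_left.2 fun p hp hp' => (hfar p hp p hp').1 rfl), hIc]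
        at this
      omega)
    (fun i hi => by rw [← hSc]; exact hArec i hi)
  rw [hfalse] at hex
  exact Bool.false_ne_true hex

/-- For `13 ≤ d ≤ 25` there is no blob, whatever `a ≤ d`. -/
theorem no_setup_mid (h : Setup G U d a) (h1 : 13 ≤ d) (h2 : d ≤ 25) (hB : Blob G d B)
    (hBU : B ⊆ U) : False := by
  have := checkTwo_mid (d - 13) (by omega)
  rw [show 13 + (d - 13) = d by omega] at this
  exact no_setup_of_check h (by omega) h.le this hB hBU

/-- For `d = 10, 11, 12` there is no blob when `a` is at most `9, 8, 11` respectively. -/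
theorem no_setup_low (h : Setup G U d a)
    (hcase : d = 12 ∧ a ≤ 11 ∨ d = 11 ∧ a ≤ 8 ∨ d = 10 ∧ a ≤ 9) (hB : Blob G d B)
    (hBU : B ⊆ U) : False := by
  obtain ⟨h12, h11, h10⟩ := checkTwo_low
  rcases hcase with ⟨rfl, ha⟩ | ⟨rfl, ha⟩ | ⟨rfl, ha⟩
  exacts [no_setup_of_check h (by omega) ha h12 hB hBU,
    no_setup_of_check h (by omega) ha h11 hB hBU, no_setup_of_check h (by omega) ha h10 hB hBU]

end Vale.Agent.P048C
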