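import Vale.Agent.P048C.LowTable
import Vale.Agent.P048C.MainTwo

/-!
# No minimal counterexample for `d = 8, …, 12`

The two-radius argument with the nearer sets for bad roots and a first layer needing one colour
less.
-/

namespace Vale.Agent.P048C

open Finset Vale.Agent.P048

variable {V : Type*} [DecidableEq V] {G : SimpleGraph V} {U B : Finset V} {d a : ℕ}

/-- What the engine with one colour less in the first layer provides. -/
def EngineOne (G : SimpleGraph V) (U B : Finset V) (d : ℕ) : Prop :=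
  ∀ {W Z S : Finset V} {own : V → V} {s e K : ℕ}, RootSys G U B d s W Z own → e ≤ 1 →
    (e = 1 → ∀ x ∈ B, ∀ y ∈ B, x ≠ y → G.Adj x y) → S ⊆ Z → S.Nonempty → 1 ≤ K →
    2 * K + (4 - e) ≤ d →
    (∀ H, Blob G d H → H ⊆ U \ W → ∀ z ∈ H, ∀ y ∈ S, ¬ Within G (U \ W) y z K) →
    ∃ A : ℕ → ℕ, A 0 = S.card ∧
      (∀ i ≤ K, ∃ I ⊆ U \ W, Indep G I ∧ I.card = A i ∧
        ∀ z ∈ I, ∃ y ∈ S, Within G (U \ W) y z i) ∧
      (d - 1) * S.card + 1 ≤ W.card + d / 2 * A 1 ∧
      ∀ i, 1 ≤ i → i < K → (d - (d / 2 + 1)) * A i + S.card * (d / 2) + 1 + A 1 ≤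
        W.card + (d / 2 + 1) * A (i + 1)

/-- **No minimal counterexample with a blob, given the table.** -/
theorem no_setup_of_table {cap skip : ℕ} (h : Setup G U d a) (hd : 8 ≤ d) (ha : a ≤ cap)
    (hcheck : tableNear d cap skip = true) (hB : Blob G d B) (hBU : B ⊆ U)
    (hone : EngineOne G U B d)
    (hskip : ∀ W : Finset V, B ⊆ W → W.card ≤ d → ¬ (B.card = skip ∧ W.card = d)) : False := by
  classical
  obtain ⟨W, Z₁, own, hR₁, hcount⟩ := roots h (by omega) hB hBU
  have hbt := hB.lt_card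
  have hbd := hB.2.1
  have hbR : B.card ≤ W.card := card_le_card hR₁.subB
  have hRd := hR₁.cardW
  obtain ⟨Z, hZ, hZc⟩ := exists_subset_card_eq (show (3 * B.card - W.card + 1) / 2 ≤ Z₁.card by
    omega)
  have hR : RootSys G U B d Z.card W Z own :=
    { subB := hR₁.subB, subU := hR₁.subU, cardW := hRd, subZ := hZ.trans hR₁.subZ, cardZ := rfl
      inj := hR₁.inj.mono (coe_subset.2 hZ)
      adj := fun z hz => hR₁.adj z (hZ hz)
      far := fun z hz z' hz' => hR₁.far z (hZ hz) z' (hZ hz')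
      touch := hR₁.touch }
  obtain ⟨e, he, hclq, hall⟩ : ∃ e ≤ 1, (e = 1 → ∀ x ∈ B, ∀ y ∈ B, x ≠ y → G.Adj x y) ∧
      searchAll (hitNear d e W.card cap Z.card) Z.card ((d - (4 - e)) / 2 + 1) [] 0 = true := by
    simp only [tableNear, List.all_eq_true, List.mem_range, Bool.or_eq_true, decide_eq_true_eq]
      at hcheck
    have h1 : checkNear d cap B.card W.card = true := by
      rcases (hcheck B.card hbd).resolve_left (by omega) W.card (by omega) with (h1 | h1) | h1
      · omega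
      · exact absurd h1 (hskip W hR₁.subB hRd)
      · exact h1
    rw [checkNear] at h1
    rw [hZc]
    split_ifs at h1 with hb
    · refine ⟨1, le_rfl, fun _ x hx y hy hxy => ?_, h1⟩
      by_contra hn
      have h2 := hB.2.2 x hx
      have : degIn G B x ≤ ((B.erase x).erase y).card := card_le_card fun w hw => by
        rw [mem_filter] at hw
        exact mem_erase.2 ⟨fun e' => hn (e' ▸ hw.2), mem_erase.2 ⟨hw.2.ne', hw.1⟩⟩
      rw [card_erase_of_mem (mem_erase.2 ⟨hxy.symm, hy⟩), card_erase_of_mem hx] at this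
      omega
    · exact ⟨0, Nat.zero_le _, fun h0 => absurd h0 (by omega), h1⟩
  let isBad : ℕ → V → Prop := fun k y =>
    ∃ H, Blob G d H ∧ H ⊆ U \ W ∧ ∃ z ∈ H, Within G (U \ W) y z k
  let F : ℕ → ℕ := fun k => (Z.filter (isBad k)).card
  have hsub : ∀ {i j : ℕ}, i ≤ j → Z.filter (isBad i) ⊆ Z.filter (isBad j) := by
    intro i j hij y hy
    rw [mem_filter] at hy ⊢
    obtain ⟨hyZ, H, hH, hHU, z, hz, hyz⟩ := hy
    exact ⟨hyZ, H, hH, hHU, z, hz, hyz.mono hij⟩
  obtain ⟨k₁, k₂, hk₁, hk₂, hhit⟩ := searchAll_sound (F := F)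
    (fun i j hij => card_le_card (hsub hij)) (fun k => card_le_card (filter_subset _ _))
    _ [] 0 hall rfl (Nat.zero_le _)
  simp only [List.length_nil, Nat.zero_add] at hk₁ hk₂
  set c := nearGain d with hc
  set u := usedNear d e k₁ k₂ (F k₂) with hu
  -- the bad roots used
  have huF : u ≤ F k₂ := by
    rw [hu, usedNear]
    split_ifs <;> omega
  obtain ⟨P, hP, hPc, hPS⟩ : ∃ P ⊆ Z.filter (isBad k₂), P.card = u ∧
      (Z.filter (isBad k₁) ∪ P).card ≤ max (F k₁) u := by
    by_cases hle : k₁ ≤ k₂ ∧ F k₁ ≤ u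
    · obtain ⟨P, h1, h2, h3⟩ := exists_subsuperset_card_eq (hsub hle.1) hle.2 huF
      exact ⟨P, h2, h3, by rw [union_eq_right.2 h1, h3]; exact le_max_right _ _⟩
    · by_cases hle' : k₁ ≤ k₂
      · obtain ⟨P, h1, h2⟩ := exists_subset_card_eq (s := Z.filter (isBad k₁))
          (n := u) (by
            have : ¬ F k₁ ≤ u := fun e' => hle ⟨hle', e'⟩
            change u ≤ F k₁
            omega)
        exact ⟨P, h1.trans (hsub hle'), h2, by rw [union_eq_left.2 h1]; exact le_max_left _ _⟩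
      · obtain ⟨P, h1, h2⟩ := exists_subset_card_eq (s := Z.filter (isBad k₂)) (n := u) huF
        exact ⟨P, h1, h2,
          by rw [union_eq_left.2 (h1.trans (hsub (by omega)))]; exact le_max_left _ _⟩
  have hJ : ∀ y, ∃ J ⊆ U \ W, Indep G J ∧ (y ∈ P → c ≤ J.card) ∧
      ∀ w ∈ J, Within G (U \ W) y w (k₂ + 2) := by
    intro y
    by_cases hy : y ∈ P
    · obtain ⟨hyZ, H, hH, hHU, z, hz, hyz⟩ := mem_filter.1 (hP hy)
      obtain ⟨W', Z', own', hR', hc'⟩ := roots h (by omega) hH (hHU.trans sdiff_subset)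
      obtain ⟨J, h1, h2, h3, h4⟩ := hR.bad_near (by omega) hH hHU hz hyz hR' hc'
      exact ⟨J, h1, h2, fun _ => h3, h4⟩
    · exact ⟨∅, empty_subset _, by simp [Indep], fun h' => absurd h' hy, by simp⟩
  choose J hJX hJI hJc hJw using hJ
  let JT := P.biUnion J
  have hPZ : ∀ y ∈ P, y ∈ Z := fun y hy => (mem_filter.1 (hP hy)).1
  have hu2 : ∀ y ∈ P, ∀ y' ∈ P, y ≠ y' → k₂ + 2 + (k₂ + 2) + 4 ≤ d + e := by
    intro y hy y' hy' hne
    have : 2 ≤ u := hPc ▸ one_lt_card.2 ⟨y, hy, y', hy', hne⟩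
    rw [hu, usedNear] at this
    split_ifs at this <;> omega
  have hJT : JT ⊆ U := biUnion_subset.2 fun y _ => (hJX y).trans sdiff_subset
  have hJTI : Indep G JT := by
    intro p hp q hq
    obtain ⟨y, hy, hpy⟩ := mem_biUnion.1 hp
    obtain ⟨y', hy', hqy⟩ := mem_biUnion.1 hq
    by_cases hne : y = y'
    · subst hne; exact hJI y p hpy q hqy
    · exact (hR.apart' h (by omega) he hclq (hPZ y hy) (hPZ y' hy') hne (hu2 y hy y' hy' hne)
        (hJw y p hpy) (hJw y' q hqy)).2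
  have hJTc : u * c ≤ JT.card := by
    rw [card_biUnion fun y hy y' hy' hne => disjoint_left.2 fun p hp hp' =>
      (hR.apart' h (by omega) he hclq (hPZ y hy) (hPZ y' hy') hne (hu2 y hy y' hy' hne)
        (hJw y p hp) (hJw y' p hp')).1 rfl, ← hPc, ← smul_eq_mul]
    exact card_nsmul_le_sum _ _ _ fun y hy => hJc y hy
  have hgain : u * c ≤ cap := (hJTc.trans (h.alpha JT hJT hJTI)).trans ha
  simp only [hitNear, ← hu, ← hc, Bool.or_eq_true, Bool.and_eq_true, decide_eq_true_eq] at hhit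
  obtain ⟨hlt, hex⟩ := hhit.resolve_left (by omega)
  set sp := Z.card - max (F k₁) u with hsp
  obtain ⟨S, hS, hSc⟩ := exists_subset_card_eq
    (s := Z \ (Z.filter (isBad k₁) ∪ P)) (n := sp) (by
      have := le_card_sdiff (Z.filter (isBad k₁) ∪ P) Z
      omega)
  have hSZ : S ⊆ Z := hS.trans sdiff_subset
  have hSI : Indep G S := fun x hx y hy => hR.indep (by omega) x (hSZ hx) y (hSZ hy)
  obtain ⟨A, hA0, hAI, hfirst, hnext⟩ : ∃ A : ℕ → ℕ, A 0 = S.card ∧
      (∀ i ≤ k₁, ∃ I ⊆ U \ W, Indep G I ∧ I.card = A i ∧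
        ∀ z ∈ I, ∃ y ∈ S, Within G (U \ W) y z i) ∧
      (0 < k₁ → (d - 1) * sp + 1 ≤ W.card + d / 2 * A 1) ∧
      ∀ i, 1 ≤ i → i < k₁ → (d - (d / 2 + 1)) * A i + sp * (d / 2) + 1 + A 1 ≤
        W.card + (d / 2 + 1) * A (i + 1) := by
    rcases Nat.eq_zero_or_pos k₁ with hk0 | hk0
    · refine ⟨fun _ => S.card, rfl, fun i hi => ⟨S, hSZ.trans hR.subZ, hSI, rfl, fun z hz =>
        ⟨z, hz, within_self (hR.subZ (hSZ hz)) i⟩⟩, fun h0 => absurd h0 (by omega),
        fun i h1 h2 => absurd h2 (by omega)⟩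
    · rw [← hSc]
      obtain ⟨A, h1, h2, h3, h4⟩ := hone hR he hclq hSZ (card_pos.1 (by omega)) hk0 (by omega)
        (fun H hH hHU z hz y hy hyz => (mem_sdiff.1 (hS hy)).2
          (mem_union_left _ (mem_filter.2 ⟨hSZ hy, H, hH, hHU, z, hz, hyz⟩)))
      exact ⟨A, h1, h2, fun _ => h3, h4⟩
  have hfalse := exceedsOne_false (d := d) (sp := sp) (R := W.card) (cap := cap - u * c)
    (by omega) k₁ A (by omega) (fun i hi => by
      obtain ⟨I, hIX, hII, hIc, hIw⟩ := hAI i hi
      have hfar : ∀ p ∈ I, ∀ q ∈ JT, p ≠ q ∧ ¬ G.Adj p q := by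
        intro p hp q hq
        obtain ⟨y, hy, hyp⟩ := hIw p hp
        obtain ⟨y', hy', hqy⟩ := mem_biUnion.1 hq
        have : 1 ≤ u := hPc ▸ card_pos.2 ⟨y', hy'⟩
        refine hR.apart' h (by omega) he hclq (hSZ hy) (hPZ y' hy') (fun e' => ?_)
          (j := k₂ + 2) ?_ hyp (hJw y' q hqy)
        · exact (mem_sdiff.1 (hS hy)).2 (mem_union_right _ (e' ▸ hy'))
        · rw [hu, usedNear] at this
          split_ifs at this <;> omega
      have hun : Indep G (I ∪ JT) := by
        intro p hp q hq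
        rcases mem_union.1 hp with hp | hp <;> rcases mem_union.1 hq with hq | hq
        · exact hII p hp q hq
        · exact (hfar p hp q hq).2
        · exact fun e' => (hfar q hq p hp).2 e'.symm
        · exact hJTI p hp q hq
      have := h.alpha (I ∪ JT) (union_subset (hIX.trans sdiff_subset) hJT) hun
      rw [card_union_of_disjoint (disjoint_left.2 fun p hp hp' => (hfar p hp p hp').1 rfl), hIc]
        at this
      omega)
    hfirst hnext
  rw [hfalse] at hex
  exact Bool.false_ne_true hex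

end Vale.Agent.P048C
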