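import Vale.Agent.P048C.Engine
import Vale.Agent.P048.Claw

/-!
# The bottom of the range: independence number at most three

Without a claw the claw-free theorem applies. With one, three pairwise nonadjacent neighbours of
`v` see everything: for `d ≥ 5` their first layer carries a clique `K_d`, which is impossible, and
`d = 3, 4` are short direct arguments.
-/

namespace Vale.Agent.P048C

open Finset Vale.Agent.P048

variable {V : Type*} [DecidableEq V] {G : SimpleGraph V} {U : Finset V} {d a : ℕ}

/-- Claw-free smallest counterexamples do not exist. -/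
theorem Setup.exists_claw_small (h : Setup G U d a) (hd : 3 ≤ d) :
    ∃ v ∈ U, ∃ x ∈ U, ∃ y ∈ U, ∃ z ∈ U, G.Adj v x ∧ G.Adj v y ∧ G.Adj v z ∧
      x ≠ y ∧ x ≠ z ∧ y ≠ z ∧ ¬ G.Adj x y ∧ ¬ G.Adj x z ∧ ¬ G.Adj y z := by
  classical
  by_contra hno
  rcases Nat.eq_zero_or_pos a with rfl | ha
  · obtain ⟨x, hx⟩ : U.Nonempty := Finset.card_pos.1 (by have := h.card; omega)
    have := h.alpha {x} (by simpa using hx) (by simp [Indep])
    simp at this
  let H : SimpleGraph {x // x ∈ U} := G.comap Subtype.val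
  have hclaw : ClawFree H := by
    intro v x y z h1 h2 h3 hxy hxz hyz
    by_contra hn
    push Not at hn
    exact hno ⟨v, v.2, x, x.2, y, y.2, z, z.2, h1, h2, h3, fun e => hxy (Subtype.ext e),
      fun e => hxz (Subtype.ext e), fun e => hyz (Subtype.ext e), hn.1, hn.2.1, hn.2.2⟩
  obtain ⟨v, p, hp, hl⟩ := ramsey_core (G := H) (m := d + 1) (by omega) hclaw (a + 1) (by omega)
    (by have := h.le; omega) Finset.univ (by
      simp only [Finset.card_univ, Fintype.card_coe, Nat.add_sub_cancel]
      rw [Nat.mul_comm]; exact h.card)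
    (fun T _ hT => by
      have := h.alpha (T.map (Function.Embedding.subtype _))
        (fun x hx => by obtain ⟨y, -, rfl⟩ := Finset.mem_map.1 hx; exact y.2)
        (by
          intro x hx y hy
          obtain ⟨x', hx', rfl⟩ := Finset.mem_map.1 hx
          obtain ⟨y', hy', rfl⟩ := Finset.mem_map.1 hy
          exact hT x' hx' y' hy')
      rw [Finset.card_map] at this
      omega)
  let f : H →g G := ⟨Subtype.val, fun h => h⟩
  exact h.noCyc ⟨v.1, p.map f, hp.map (f := f) Subtype.val_injective, by simpa using hl⟩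

/-- A clique with `d` members is impossible unless `a = d`. -/
theorem Setup.no_clique (h : Setup G U d a) (hd : 3 ≤ d) (had : a < d) {K : Finset V}
    (hKU : K ⊆ U) (hK : ∀ x ∈ K, ∀ y ∈ K, x ≠ y → G.Adj x y) (hcard : d ≤ K.card) : False := by
  classical
  obtain ⟨K', hK', hKd⟩ := Finset.exists_subset_card_eq hcard
  have hout : ∀ x ∈ K', ∃ z ∈ U, z ∉ K' ∧ G.Adj x z := by
    intro x hx
    by_contra hn
    push Not at hn
    have h1 := h.deg x (hKU (hK' hx))
    have h2 : degIn G U x ≤ (K'.erase x).card := Finset.card_le_card fun z hz => by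
      rw [Finset.mem_filter] at hz
      refine Finset.mem_erase.2 ⟨hz.2.ne', ?_⟩
      by_contra hzK
      exact hn z hz.1 hzK hz.2
    rw [Finset.card_erase_of_mem hx] at h2
    omega
  choose! g hgU hgK hgA using hout
  have hnadj : ∀ x ∈ K', ∀ y ∈ K', x ≠ y → g x ≠ g y ∧ ¬ G.Adj (g x) (g y) := by
    intro x hx y hy hxy
    have hsub : ∀ k, k ≤ d - 2 → ∃ l : List V, l.length = k ∧ l.Nodup ∧
        ∀ z ∈ l, z ∈ K' ∧ z ≠ x ∧ z ≠ y := by
      intro k hk
      have hc : ((K'.erase x).erase y).card = d - 2 := by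
        rw [Finset.card_erase_of_mem (Finset.mem_erase.2 ⟨hxy.symm, hy⟩),
          Finset.card_erase_of_mem hx]
        omega
      obtain ⟨W, hW, hWc⟩ := Finset.exists_subset_card_eq (hc.ge.trans' hk)
      refine ⟨W.toList, by simp [hWc], W.nodup_toList, fun z hz => ?_⟩
      have := hW (Finset.mem_toList.1 hz)
      simp only [Finset.mem_erase] at this
      exact ⟨this.2.2, this.2.1, this.1⟩
    have hchain : ∀ l : List V, l.Nodup → (∀ z ∈ l, z ∈ K' ∧ z ≠ x ∧ z ≠ y) →
        (y :: (l ++ [x])).IsChain G.Adj := by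
      intro l hln hl
      refine chain_of_clique (Q := K') (fun u hu w hw huw => hK u (hK' hu) w (hK' hw) huw) ?_ ?_
      · refine List.nodup_cons.2 ⟨?_, List.nodup_append.2 ⟨hln, by simp, ?_⟩⟩
        · simp only [List.mem_append, List.mem_singleton]
          rintro (hy' | hy')
          · exact (hl y hy').2.2 rfl
          · exact hxy hy'.symm
        · intro u hu w hw e
          obtain rfl := List.mem_singleton.1 hw
          exact (hl u hu).2.1 e
      · intro u hu
        simp only [List.mem_cons, List.mem_append, List.not_mem_nil, or_false] at hu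
        rcases hu with rfl | hu | rfl
        exacts [hy, (hl u hu).1, hx]
    refine ⟨fun e => ?_, fun e => ?_⟩
    · -- one common outside neighbour
      obtain ⟨l, hll, hln, hl⟩ := hsub (d - 2) le_rfl
      have hc := hchain l hln hl
      refine h.noCyc (cyc_of_list (by omega) (g x) (y :: (l ++ [x])) (by simp [hll]; omega) ?_ ?_ ?_)
      · refine List.nodup_cons.2 ⟨?_, ?_⟩
        · simp only [List.mem_cons, List.mem_append, List.not_mem_nil, or_false]
          rintro (e' | e' | e')
          · exact hgK x hx (by rw [e']; exact hy)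
          · exact hgK x hx (hl _ e').1
          · exact hgK x hx (by rw [e']; exact hx)
        · refine List.nodup_cons.2 ⟨?_, List.nodup_append.2 ⟨hln, by simp, ?_⟩⟩
          · simp only [List.mem_append, List.mem_singleton]
            rintro (hy' | hy')
            · exact (hl y hy').2.2 rfl
            · exact hxy hy'.symm
          · intro u hu w hw e'
            obtain rfl := List.mem_singleton.1 hw
            exact (hl u hu).2.1 e'
      · exact List.isChain_cons_cons.2 ⟨e ▸ (hgA y hy).symm, hc⟩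
      · intro z hz
        rw [← List.cons_append, ← List.cons_append, List.getLast?_concat] at hz
        obtain rfl := Option.mem_some_iff.1 hz
        exact hgA x hx
    · -- two adjacent outside neighbours
      obtain ⟨l, hll, hln, hl⟩ := hsub (d - 3) (by omega)
      have hc := hchain l hln hl
      refine h.noCyc (cyc_of_list (by omega) (g x) (g y :: y :: (l ++ [x]))
        (by simp [hll]; omega) ?_ ?_ ?_)
      · refine List.nodup_cons.2 ⟨?_, List.nodup_cons.2 ⟨?_, ?_⟩⟩
        · simp only [List.mem_cons, List.mem_append, List.not_mem_nil, or_false]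
          rintro (e' | e' | e' | e')
          · exact e.ne e'
          · exact hgK x hx (by rw [e']; exact hy)
          · exact hgK x hx (hl _ e').1
          · exact hgK x hx (by rw [e']; exact hx)
        · simp only [List.mem_cons, List.mem_append, List.not_mem_nil, or_false]
          rintro (e' | e' | e')
          · exact hgK y hy (by rw [e']; exact hy)
          · exact hgK y hy (hl _ e').1
          · exact hgK y hy (by rw [e']; exact hx)
        · refine List.nodup_cons.2 ⟨?_, List.nodup_append.2 ⟨hln, by simp, ?_⟩⟩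
          · simp only [List.mem_append, List.mem_singleton]
            rintro (hy' | hy')
            · exact (hl y hy').2.2 rfl
            · exact hxy hy'.symm
          · intro u hu w hw e'
            obtain rfl := List.mem_singleton.1 hw
            exact (hl u hu).2.1 e'
      · exact List.isChain_cons_cons.2 ⟨e, List.isChain_cons_cons.2 ⟨(hgA y hy).symm, hc⟩⟩
      · intro z hz
        rw [← List.cons_append, ← List.cons_append, ← List.cons_append, List.getLast?_concat] at hz
        obtain rfl := Option.mem_some_iff.1 hz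
        exact hgA x hx
  have := h.alpha (K'.image g) (fun z hz => by
      obtain ⟨x, hx, rfl⟩ := Finset.mem_image.1 hz
      exact hgU x hx)
    (by
      intro z hz w hw
      obtain ⟨x, hx, rfl⟩ := Finset.mem_image.1 hz
      obtain ⟨y, hy, rfl⟩ := Finset.mem_image.1 hw
      by_cases hxy : x = y
      · subst hxy; exact G.irrefl
      · exact (hnadj x hx y hy hxy).2)
  rw [Finset.card_image_of_injOn fun x hx y hy e => by_contra fun hne => (hnadj x hx y hy hne).1 e,
    hKd] at this
  omega

/-- A claw's leaves, for `a = 3`, have a first layer too large to colour, hence a clique `K_d`. -/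
theorem Setup.no_claw_three_large (h : Setup G U d 3) (hd : 5 ≤ d) {v x y z : V} (hv : v ∈ U)
    (hx : x ∈ U) (hy : y ∈ U) (hz : z ∈ U) (hvx : G.Adj v x) (hvy : G.Adj v y) (hvz : G.Adj v z)
    (hxy : x ≠ y) (hxz : x ≠ z) (hyz : y ≠ z) (nxy : ¬ G.Adj x y) (nxz : ¬ G.Adj x z)
    (nyz : ¬ G.Adj y z) : False := by
  classical
  let S : Finset V := {x, y, z}
  have hS3 : S.card = 3 := by simp [S, hxy, hxz, hyz]
  have hSv : ∀ w ∈ S, w ∈ U ∧ G.Adj v w := by simp [S, hx, hy, hz, hvx, hvy, hvz]
  have hS : S ⊆ U \ {v} := fun w hw =>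
    Finset.mem_sdiff.2 ⟨(hSv w hw).1, fun e => (hSv w hw).2.ne (Finset.mem_singleton.1 e).symm⟩
  have hI : Indep G S := by
    simp only [Indep, S, Finset.mem_insert, Finset.mem_singleton]
    rintro u (rfl | rfl | rfl) w (rfl | rfl | rfl)
    exacts [G.irrefl, nxy, nxz, fun e => nxy e.symm, G.irrefl, nyz, fun e => nxz e.symm,
      fun e => nyz e.symm, G.irrefl]
  have hlink : RootLink G {v} S 2 := by
    intro S' hS' hcard
    obtain ⟨u, hu, w, hw, huw⟩ := Finset.one_lt_card.1 hcard
    refine ⟨fun s => decide (s = u), 2, ⟨u, hu, w, hw, by simp [huw.symm]⟩, le_rfl, le_rfl,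
      fun s hs s' hs' _ => ⟨[v], by simp, ?_, by simp, rfl⟩⟩
    exact List.isChain_cons_cons.2 ⟨(hSv s (hS' hs)).2.symm,
      List.isChain_cons_cons.2 ⟨(hSv s' (hS' hs')).2, List.isChain_singleton _⟩⟩
  -- everything else lies in the first layer
  have hlayer : (U \ {v}) \ S ⊆ layer G (U \ {v}) S 1 := by
    intro w hw
    obtain ⟨hwX, hwS⟩ := Finset.mem_sdiff.1 hw
    by_contra hout
    have hball : w ∉ ball G (U \ {v}) S (0 + 1) := by
      rw [ball_succ, Finset.mem_union]
      exact fun e => e.elim hwS hout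
    have hn : ∀ y ∈ S, ¬ G.Adj w y := fun y hy e =>
      not_adj_ball (i := 0) hwX hball hy e.symm
    have := h.alpha (insert w S) (Finset.insert_subset (Finset.mem_sdiff.1 hwX).1
      (hS.trans Finset.sdiff_subset)) (by
        intro u hu u' hu'
        rcases Finset.mem_insert.1 hu with rfl | h₁ <;> rcases Finset.mem_insert.1 hu' with rfl | h₂
        exacts [G.irrefl, fun e => hn u' h₂ e, fun e => hn u h₁ e.symm, hI u h₁ u' h₂])
    rw [Finset.card_insert_of_notMem hwS, hS3] at this
    omega
  have hncol : ¬ ColorableIn G (layer G (U \ {v}) S 1) (d - 2) := by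
    intro hc
    have h1 := Finset.card_le_card hlayer
    have h2 := hc.card_le (a := 3) fun I hI' hind =>
      h.alpha I (hI'.trans fun u hu => (Finset.mem_sdiff.1 (layer_mem hS hu)).1) hind
    rw [Finset.card_sdiff_of_subset hS, Finset.card_sdiff_of_subset
      (Finset.singleton_subset_iff.2 hv), Finset.card_singleton, hS3] at h1
    have := h.card
    omega
  obtain ⟨W, hW, hcrit⟩ := exists_critical hncol
  obtain ⟨h1, h2⟩ := critical_in_layer (G := G) h.noCyc hS Finset.sdiff_disjoint le_rfl hlink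
    (by omega) (by omega) (by omega) hW hcrit
  have hlt := hcrit.lt_card
  rcases h2 with h2 | ⟨w, hw, hadj⟩
  · omega
  -- `W` is a clique
  have hclq : ∀ p ∈ W, ∀ q ∈ W, p ≠ q → G.Adj p q := by
    intro p hp q hq hpq
    by_contra hn
    have hp' := hcrit.deg p hp
    have : degIn G W p ≤ ((W.erase p).erase q).card := Finset.card_le_card fun r hr => by
      rw [Finset.mem_filter] at hr
      exact Finset.mem_erase.2 ⟨fun e => hn (e ▸ hr.2), Finset.mem_erase.2 ⟨hr.2.ne', hr.1⟩⟩
    rw [Finset.card_erase_of_mem (Finset.mem_erase.2 ⟨hpq.symm, hq⟩),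
      Finset.card_erase_of_mem hp] at this
    omega
  have hwW : w ∉ W := fun e => (hadj w e).ne rfl
  refine h.no_clique (by omega) (by omega) (K := insert w W) (Finset.insert_subset ?_ ?_) ?_ ?_
  · exact (hSv w hw).1
  · exact fun u hu => (Finset.mem_sdiff.1 (layer_mem hS (hW hu))).1
  · intro p hp q hq hpq
    rcases Finset.mem_insert.1 hp with rfl | h₁ <;> rcases Finset.mem_insert.1 hq with rfl | h₂
    exacts [absurd rfl hpq, (hadj q h₂).symm, hadj p h₁, hclq p h₁ q h₂ hpq]
  · rw [Finset.card_insert_of_notMem hwW]; omega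

/-- The two smallest cycle lengths: the private neighbourhoods of the three leaves. -/
theorem Setup.no_claw_three_small (h : Setup G U d 3) (hd : d = 3 ∨ d = 4) {v x y z : V}
    (hv : v ∈ U) (hx : x ∈ U) (hy : y ∈ U) (hz : z ∈ U) (hvx : G.Adj v x) (hvy : G.Adj v y)
    (hvz : G.Adj v z) (hxy : x ≠ y) (hxz : x ≠ z) (hyz : y ≠ z) (nxy : ¬ G.Adj x y)
    (nxz : ¬ G.Adj x z) (nyz : ¬ G.Adj y z) : False := by
  classical
  let S : Finset V := {x, y, z}
  have hS3 : S.card = 3 := by simp [S, hxy, hxz, hyz]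
  have hSv : ∀ w ∈ S, w ∈ U ∧ G.Adj v w := by simp [S, hx, hy, hz, hvx, hvy, hvz]
  have hI : Indep G S := by
    simp only [Indep, S, Finset.mem_insert, Finset.mem_singleton]
    rintro u (rfl | rfl | rfl) w (rfl | rfl | rfl)
    exacts [G.irrefl, nxy, nxz, fun e => nxy e.symm, G.irrefl, nyz, fun e => nxz e.symm,
      fun e => nyz e.symm, G.irrefl]
  let X := (U.erase v) \ S
  let P : V → Finset V := fun s => X.filter fun u => ∀ s' ∈ S, G.Adj u s' ↔ s' = s
  let D := X.filter fun u => ∃ s ∈ S, ∃ s' ∈ S, s ≠ s' ∧ G.Adj u s ∧ G.Adj u s'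
  have hX : ∀ u ∈ X, u ∈ U ∧ u ≠ v ∧ u ∉ S := by
    intro u hu
    simp only [X, Finset.mem_sdiff, Finset.mem_erase] at hu
    exact ⟨hu.1.2, hu.1.1, hu.2⟩
  have four : ∀ T : Finset V, T ⊆ U → Indep G T → T.card < 4 := fun T hT hi =>
    Nat.lt_succ_of_le (h.alpha T hT hi)
  have hsees : ∀ u ∈ X, ∃ s ∈ S, G.Adj u s := by
    intro u hu
    obtain ⟨huU, -, huS⟩ := hX u hu
    by_contra hn
    push Not at hn
    have := four (insert u S) (Finset.insert_subset huU fun w hw => (hSv w hw).1) (by
      intro p hp q hq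
      rcases Finset.mem_insert.1 hp with rfl | h₁ <;> rcases Finset.mem_insert.1 hq with rfl | h₂
      exacts [G.irrefl, fun e => hn q h₂ e, fun e => hn p h₁ e.symm, hI p h₁ q h₂])
    rw [Finset.card_insert_of_notMem huS, hS3] at this
    omega
  have hcount : X.card ≤ D.card + ∑ s ∈ S, (P s).card := by
    refine le_trans (Finset.card_le_card (t := D ∪ S.biUnion P) fun u hu => ?_)
      ((Finset.card_union_le _ _).trans (Nat.add_le_add_left Finset.card_biUnion_le _))
    obtain ⟨s, hs, hus⟩ := hsees u hu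
    by_cases hD : ∃ s' ∈ S, s' ≠ s ∧ G.Adj u s'
    · obtain ⟨s', hs', hne, hus'⟩ := hD
      exact Finset.mem_union_left _ (Finset.mem_filter.2 ⟨hu, s, hs, s', hs', hne.symm, hus, hus'⟩)
    · push Not at hD
      refine Finset.mem_union_right _ (Finset.mem_biUnion.2 ⟨s, hs, Finset.mem_filter.2 ⟨hu, ?_⟩⟩)
      exact fun s' hs' => ⟨fun e => by_contra fun hne => hD s' hs' hne e, fun e => e ▸ hus⟩
  have hXcard : U.card = X.card + 4 := by
    have hsub : S ⊆ U.erase v := fun w hw =>
      Finset.mem_erase.2 ⟨(hSv w hw).2.ne', (hSv w hw).1⟩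
    have h1 := Finset.card_sdiff_add_card_eq_card hsub
    have h2 := Finset.card_erase_add_one hv
    simp only [X]
    omega
  have hPclique : ∀ s ∈ S, ∀ p ∈ P s, ∀ q ∈ P s, p ≠ q → G.Adj p q := by
    intro s hs p hp q hq hpq
    by_contra hn
    obtain ⟨hpX, hp'⟩ := Finset.mem_filter.1 hp
    obtain ⟨hqX, hq'⟩ := Finset.mem_filter.1 hq
    have := four (insert p (insert q (S.erase s)))
      (Finset.insert_subset (hX p hpX).1 (Finset.insert_subset (hX q hqX).1
        fun w hw => (hSv w (Finset.mem_of_mem_erase hw)).1)) (by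
      intro a ha b hb
      simp only [Finset.mem_insert] at ha hb
      have hpS : ∀ w ∈ S.erase s, ¬ G.Adj p w ∧ ¬ G.Adj q w := fun w hw =>
        ⟨fun e => (Finset.mem_erase.1 hw).1 ((hp' w (Finset.mem_of_mem_erase hw)).1 e),
          fun e => (Finset.mem_erase.1 hw).1 ((hq' w (Finset.mem_of_mem_erase hw)).1 e)⟩
      rcases ha with rfl | rfl | ha <;> rcases hb with rfl | rfl | hb
      exacts [G.irrefl, hn, (hpS b hb).1, fun e => hn e.symm, G.irrefl, (hpS b hb).2,
        fun e => (hpS a ha).1 e.symm, fun e => (hpS a ha).2 e.symm,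
        hI a (Finset.mem_of_mem_erase ha) b (Finset.mem_of_mem_erase hb)])
    rw [Finset.card_insert_of_notMem, Finset.card_insert_of_notMem,
      Finset.card_erase_of_mem hs, hS3] at this
    · omega
    · exact fun e => (hX q hqX).2.2 (Finset.mem_of_mem_erase e)
    · simp only [Finset.mem_insert, not_or]
      exact ⟨hpq, fun e => (hX p hpX).2.2 (Finset.mem_of_mem_erase e)⟩
  have hPs : ∀ s ∈ S, ∀ p ∈ P s, G.Adj p s := fun s hs p hp =>
    ((Finset.mem_filter.1 hp).2 s hs).2 rfl
  have hPK : ∀ s ∈ S, ∀ p ∈ insert s (P s), ∀ q ∈ insert s (P s), p ≠ q → G.Adj p q := by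
    intro s hs p hp q hq hpq
    rcases Finset.mem_insert.1 hp with rfl | h₁ <;> rcases Finset.mem_insert.1 hq with rfl | h₂
    exacts [absurd rfl hpq, (hPs _ hs q h₂).symm, hPs _ hs p h₁, hPclique s hs p h₁ q h₂ hpq]
  have hPnot : ∀ s, s ∈ S → s ∉ P s := fun s hs e => (hX s (Finset.mem_filter.1 e).1).2.2 hs
  have hsum : ∀ s ∈ S, (P s).card ≤ 2 := by
    intro s hs
    by_contra hgt
    rcases hd with rfl | rfl
    · exact h.noCyc (cyc_of_clique (by omega) (hPK s hs)
        (by rw [Finset.card_insert_of_notMem (hPnot s hs)]; omega))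
    · refine h.no_clique (by omega) (by omega) (K := insert s (P s))
        (Finset.insert_subset (hSv s hs).1 fun p hp => (hX p (Finset.mem_filter.1 hp).1).1)
        (hPK s hs) ?_
      rw [Finset.card_insert_of_notMem (hPnot s hs)]; omega
  have hsum6 : ∑ s ∈ S, (P s).card ≤ 6 :=
    (Finset.sum_le_sum hsum).trans (by simp [hS3])
  have hcard := h.card
  have cyc5 : ∀ {p q r s t : V}, G.Adj p q → G.Adj q r → G.Adj r s → G.Adj s t → G.Adj t p →
      [p, q, r, s, t].Nodup → Cyc G 5 := fun {p q r s t} a b c e f hn =>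
    cyc_of_list (by norm_num) p [q, r, s, t] rfl hn (by simp [a, b, c, e]) (by simp [f])
  rcases hd with rfl | rfl
  · -- no four cycle: nothing but `v` sees two leaves
    have hD : D = ∅ := Finset.eq_empty_of_forall_notMem fun u hu => by
      obtain ⟨huX, s, hs, s', hs', hne, hus, hus'⟩ := Finset.mem_filter.1 hu
      refine h.noCyc (cyc_of_list (by norm_num) v [s, u, s'] rfl ?_
        (by simp [(hSv s hs).2, hus.symm, hus']) (by simp [(hSv s' hs').2.symm]))
      simp [(hSv s hs).2.ne, (hX u huX).2.1.symm, (hSv s' hs').2.ne, hus.ne', hne, hus'.ne]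
    rw [hD, Finset.card_empty] at hcount
    have hP2 : ∀ s ∈ S, (P s).card = 2 := by
      intro s hs
      have h1 := Finset.add_sum_erase S (fun s => (P s).card) hs
      have h2 : ∑ s' ∈ S.erase s, (P s').card ≤ 4 :=
        (Finset.sum_le_sum fun s' hs' => hsum s' (Finset.mem_of_mem_erase hs')).trans
          (by simp [Finset.card_erase_of_mem hs, hS3])
      have h3 := hsum s hs
      omega
    have hPd : ∀ s ∈ S, ∀ s' ∈ S, s ≠ s' → ∀ p ∈ P s, ∀ q ∈ P s', p ≠ q := by
      intro s hs s' hs' hne p hp q hq e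
      subst e
      exact hne (((Finset.mem_filter.1 hq).2 s hs).1 (hPs s hs p hp))
    -- at most one edge between two private parts
    have hone : ∀ s ∈ S, ∀ s' ∈ S, s ≠ s' → ∀ p ∈ P s, ∀ p' ∈ P s, ∀ q ∈ P s', ∀ q' ∈ P s',
        G.Adj p q → G.Adj p' q' → p = p' ∧ q = q' := by
      intro s hs s' hs' hne p hp p' hp' q hq q' hq' e e'
      have hpne := hPd s hs s' hs' hne
      have hsp : ∀ r ∈ P s, s ≠ r := fun r hr e'' => hPnot s hs (e''.symm ▸ hr)
      have hsq : ∀ r ∈ P s', s' ≠ r := fun r hr e'' => hPnot s' hs' (e''.symm ▸ hr)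
      by_contra hn
      rw [not_and_or] at hn
      by_cases hpp : p = p'
      · subst hpp
        have hqq : q ≠ q' := hn.resolve_left (fun e'' => e'' rfl)
        refine h.noCyc (cyc_of_list (by norm_num) p [q, s', q'] rfl ?_
          (by simp [e, hPs s' hs' q hq, (hPs s' hs' q' hq').symm]) (by simp [e'.symm]))
        simp [hpne p hp q hq, hpne p hp q' hq', hqq, (hsq q hq).symm, hsq q' hq',
          show p ≠ s' from fun e'' => (hX p (Finset.mem_filter.1 hp).1).2.2 (e'' ▸ hs')]
      · by_cases hqq : q = q'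
        · subst hqq
          refine h.noCyc (cyc_of_list (by norm_num) q [p, s, p'] rfl ?_
            (by simp [e.symm, hPs s hs p hp, (hPs s hs p' hp').symm]) (by simp [e']))
          simp [(hpne p hp q hq).symm, (hpne p' hp' q hq).symm, hpp, (hsp p hp).symm, hsp p' hp',
            show q ≠ s from fun e'' => (hX q (Finset.mem_filter.1 hq).1).2.2 (e'' ▸ hs)]
        · refine h.noCyc (cyc_of_list (by norm_num) p [q, q', p'] rfl ?_
            (by simp [e, hPclique s' hs' q hq q' hq' hqq, e'.symm])
            (by simp [hPclique s hs p' hp' p hp (Ne.symm hpp)]))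
          simp [hpne p hp q hq, hpne p hp q' hq', hpp, hqq, (hpne p' hp' q hq).symm,
            (hpne p' hp' q' hq').symm]
    have hv' : ∀ s ∈ S, ∀ p ∈ P s, ¬ G.Adj v p := by
      intro s hs p hp e
      obtain ⟨p', hp', hne⟩ := Finset.exists_mem_ne (by rw [hP2 s hs]; omega) p
      refine h.noCyc (cyc_of_list (by norm_num) v [p, p', s] rfl ?_
        (by simp [e, hPclique s hs p hp p' hp' hne.symm, hPs s hs p' hp'])
        (by simp [(hSv s hs).2.symm]))
      simp [e.ne, (hSv s hs).2.ne, hne.symm, (hPs s hs p hp).ne, (hPs s hs p' hp').ne,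
        (hX p' (Finset.mem_filter.1 hp').1).2.1.symm]
    have hxS : x ∈ S := by simp [S]
    have hyS : y ∈ S := by simp [S]
    have hzS : z ∈ S := by simp [S]
    obtain ⟨p, hp, hpz⟩ : ∃ p ∈ P x, ∀ r ∈ P z, ¬ G.Adj p r := by
      by_contra hn
      push Not at hn
      obtain ⟨p, hp, p', hp', hne⟩ := Finset.one_lt_card.1 (by rw [hP2 x hxS]; omega : 1 < (P x).card)
      obtain ⟨r, hr, e⟩ := hn p hp
      obtain ⟨r', hr', e'⟩ := hn p' hp'
      exact hne (hone x hxS z hzS hxz p hp p' hp' r hr r' hr' e e').1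
    obtain ⟨q, hq, hpq⟩ : ∃ q ∈ P y, ¬ G.Adj p q := by
      by_contra hn
      push Not at hn
      obtain ⟨q, hq, q', hq', hne⟩ := Finset.one_lt_card.1 (by rw [hP2 y hyS]; omega : 1 < (P y).card)
      exact hne (hone x hxS y hyS hxy p hp p hp q hq q' hq' (hn q hq) (hn q' hq')).2
    obtain ⟨r, hr, hqr⟩ : ∃ r ∈ P z, ¬ G.Adj q r := by
      by_contra hn
      push Not at hn
      obtain ⟨r, hr, r', hr', hne⟩ := Finset.one_lt_card.1 (by rw [hP2 z hzS]; omega : 1 < (P z).card)
      exact hne (hone y hyS z hzS hyz q hq q hq r hr r' hr' (hn r hr) (hn r' hr')).2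
    have := four {v, p, q, r}
      (by simp [Finset.insert_subset_iff, hv, (hX p (Finset.mem_filter.1 hp).1).1,
        (hX q (Finset.mem_filter.1 hq).1).1, (hX r (Finset.mem_filter.1 hr).1).1])
      (by
        simp only [Indep, Finset.mem_insert, Finset.mem_singleton]
        rintro a (rfl | rfl | rfl | rfl) b (rfl | rfl | rfl | rfl)
        exacts [G.irrefl, hv' x hxS _ hp, hv' y hyS _ hq, hv' z hzS _ hr,
          fun e => hv' x hxS _ hp e.symm, G.irrefl, hpq, hpz _ hr,
          fun e => hv' y hyS _ hq e.symm, fun e => hpq e.symm, G.irrefl, hqr,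
          fun e => hv' z hzS _ hr e.symm, fun e => hpz _ hr e.symm, fun e => hqr e.symm, G.irrefl])
    simp [(hX p (Finset.mem_filter.1 hp).1).2.1.symm, (hX q (Finset.mem_filter.1 hq).1).2.1.symm,
      (hX r (Finset.mem_filter.1 hr).1).2.1.symm, hPd x hxS y hyS hxy p hp q hq,
      hPd x hxS z hzS hxz p hp r hr, hPd y hyS z hzS hyz q hq r hr] at this
  · -- no five cycle: the vertices seeing two leaves are independent and far from private ones
    have hother : ∀ u ∈ D, ∀ s, ∃ s' ∈ S, s' ≠ s ∧ G.Adj u s' := by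
      intro u hu s
      obtain ⟨-, s₁, h1, s₂, h2, hne, e1, e2⟩ := Finset.mem_filter.1 hu
      by_cases hs : s₁ = s
      · exact ⟨s₂, h2, fun e => hne (hs.trans e.symm), e2⟩
      · exact ⟨s₁, h1, hs, e1⟩
    have hDX : D ⊆ X := Finset.filter_subset _ _
    have hDi : Indep G D := by
      intro u hu w hw e
      obtain ⟨s', hs', -, hws⟩ := hother w hw v
      obtain ⟨s, hs, hne, hus⟩ := hother u hu s'
      obtain ⟨-, hu1, hu2⟩ := hX u (hDX hu)
      obtain ⟨-, hw1, hw2⟩ := hX w (hDX hw)
      refine h.noCyc (cyc5 (p := v) (hSv s hs).2 hus.symm e hws (hSv s' hs').2.symm ?_)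
      simp [(hSv s hs).2.ne, (hSv s' hs').2.ne, hu1.symm, hw1.symm, hus.ne', hne, e.ne, hws.ne,
        show s ≠ w from fun e' => hw2 (e' ▸ hs), show u ≠ s' from fun e' => hu2 (e'.symm ▸ hs')]
    have hDP : ∀ s ∈ S, ∀ p ∈ P s, ∀ u ∈ D, ¬ G.Adj p u := by
      intro s hs p hp u hu e
      obtain ⟨s', hs', hne, hus'⟩ := hother u hu s
      have hpX := hX p (Finset.mem_filter.1 hp).1
      obtain ⟨-, hu1, hu2⟩ := hX u (hDX hu)
      refine h.noCyc (cyc5 (p := v) (hSv s hs).2 (hPs s hs p hp).symm e hus'
        (hSv s' hs').2.symm ?_)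
      simp [(hSv s hs).2.ne, (hSv s' hs').2.ne, hpX.2.1.symm, hu1.symm, (hPs s hs p hp).ne',
        hne.symm, e.ne, hus'.ne, show s ≠ u from fun e' => hu2 (e' ▸ hs),
        show p ≠ s' from fun e' => hpX.2.2 (e'.symm ▸ hs')]
    have hDcard : D.card ≤ 3 := h.alpha D (fun u hu => (hX u (hDX hu)).1) hDi
    obtain ⟨s, hs, hne⟩ : ∃ s ∈ S, (P s).Nonempty := by
      by_contra hn
      push Not at hn
      rw [Finset.sum_eq_zero fun s hs => by rw [hn s hs, Finset.card_empty]] at hcount
      omega
    obtain ⟨p, hp⟩ := hne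
    have hpD : p ∉ D := fun e => by
      obtain ⟨s', hs', hne, hps'⟩ := hother p e s
      exact hne (((Finset.mem_filter.1 hp).2 s' hs').1 hps')
    have := four (insert p D) (Finset.insert_subset (hX p (Finset.mem_filter.1 hp).1).1
      fun u hu => (hX u (hDX hu)).1) (by
        intro a ha b hb
        rcases Finset.mem_insert.1 ha with rfl | h₁ <;> rcases Finset.mem_insert.1 hb with rfl | h₂
        exacts [G.irrefl, hDP s hs _ hp b h₂, fun e => hDP s hs _ hp a h₁ e.symm, hDi a h₁ b h₂])
    rw [Finset.card_insert_of_notMem hpD] at this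
    omega

/-- **No smallest counterexample with independence number at most three.** -/
theorem no_setup_small_a (h : Setup G U d a) (ha : a ≤ 3) (hd : 3 ≤ d) : False := by
  classical
  obtain ⟨v, hv, x, hx, y, hy, z, hz, hvx, hvy, hvz, hxy, hxz, hyz, nxy, nxz, nyz⟩ :=
    h.exists_claw_small hd
  obtain rfl : a = 3 := by
    refine le_antisymm ha ?_
    have := h.alpha {x, y, z} (by simp [Finset.insert_subset_iff, hx, hy, hz]) (by
      simp only [Indep, Finset.mem_insert, Finset.mem_singleton]
      rintro u (rfl | rfl | rfl) w (rfl | rfl | rfl)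
      exacts [G.irrefl, nxy, nxz, fun e => nxy e.symm, G.irrefl, nyz, fun e => nxz e.symm,
        fun e => nyz e.symm, G.irrefl])
    simpa [hxy, hxz, hyz] using this
  by_cases hd5 : 5 ≤ d
  · exact h.no_claw_three_large hd5 hv hx hy hz hvx hvy hvz hxy hxz hyz nxy nxz nyz
  · exact h.no_claw_three_small (by omega) hv hx hy hz hvx hvy hvz hxy hxz hyz nxy nxz nyz

end Vale.Agent.P048C
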