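import Vale.Agent.P048C.Exist

/-!
# The cycle lengths five, six and seven

For `d ∈ {4, 5, 6}` the engine, run from a claw with `d / 2` colours, finds a clique on `d` or
`d - 1` vertices. The vertices next to a clique on `d` vertices are too independent. A clique on
`d - 1` vertices has `d - 1` pairwise nonadjacent private neighbours; one step of the engine from
them finds a second such clique, and the private neighbours of the two outnumber `a`.
-/

namespace Vale.Agent.P048C

open Finset Vale.Agent.P048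

variable {V : Type*} [DecidableEq V] {G : SimpleGraph V} {U X R S : Finset V} {d a t : ℕ}

/-- A path outside a clique between two of its members closes a cycle. -/
theorem ear_cyc {Q : Finset V} (hQ : ∀ x ∈ Q, ∀ y ∈ Q, x ≠ y → G.Adj x y) {x x' : V}
    (hx : x ∈ Q) (hx' : x' ∈ Q) (hne : x ≠ x') {l : List V} (hn : l.Nodup) (ho : ∀ z ∈ l, z ∉ Q)
    (hc : (x :: (l ++ [x'])).IsChain G.Adj) (hd : 2 ≤ d) (h1 : l.length + 2 ≤ d + 1)
    (h2 : d + 1 ≤ l.length + Q.card) : Cyc G (d + 1) := by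
  obtain ⟨s, hsn, hsQ, hsc, hsa, hsl⟩ :=
    segment hQ hx' hx hne.symm (k := d - l.length) (by omega) (by omega)
  refine cyc_of_list (by omega) x (l ++ x' :: s) (by simp at hsl ⊢; omega) ?_ ?_ ?_
  · refine List.nodup_cons.2 ⟨?_, List.nodup_append.2 ⟨hn, hsn, ?_⟩⟩
    · rw [List.mem_append]
      rintro (h | h)
      · exact ho x h hx
      · exact (hsQ x h).2 rfl
    · intro u hu w hw e
      exact ho u hu (e ▸ (hsQ w hw).1)
  · rw [← List.cons_append, List.isChain_append] at hc ⊢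
    exact ⟨hc.1, hsc, fun u hu w hw => hc.2.2 u hu w (by simpa using hw)⟩
  · intro z hz
    rw [Option.mem_def, ← List.cons_append,
      List.getLast?_append_of_ne_nil _ (List.cons_ne_nil _ _)] at hz
    exact hsa z (List.mem_of_getLast? hz)

/-- A critical set with at most two members to spare is a clique. -/
theorem Critical.clique_of_card_le {W : Finset V} (hW : Critical G t W) (hc : W.card ≤ t + 2) :
    W.card = t + 1 ∧ ∀ x ∈ W, ∀ y ∈ W, x ≠ y → G.Adj x y := by
  classical
  have hlt := hW.lt_card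
  have hmiss : ∀ x ∈ W, ∀ y ∈ W, ∀ z ∈ W, x ≠ y → x ≠ z → ¬ G.Adj x y → ¬ G.Adj x z →
      y = z := by
    intro x hx y hy z hz hxy hxz nxy nxz
    by_contra hyz
    have h1 := hW.deg x hx
    have h2 : degIn G W x ≤ (((W.erase x).erase y).erase z).card :=
      Finset.card_le_card fun w hw => by
        rw [Finset.mem_filter] at hw
        simp only [Finset.mem_erase]
        exact ⟨fun e => nxz (e ▸ hw.2), fun e => nxy (e ▸ hw.2), hw.2.ne', hw.1⟩
    have h3 : ({x, y, z} : Finset V).card ≤ W.card :=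
      Finset.card_le_card (by simp [Finset.insert_subset_iff, hx, hy, hz])
    rw [Finset.card_eq_three.2 ⟨x, y, z, hxy, hxz, hyz, rfl⟩] at h3
    rw [Finset.card_erase_of_mem (by simp [Ne.symm hyz, hxz.symm, hz]),
      Finset.card_erase_of_mem (by simp [hxy.symm, hy]), Finset.card_erase_of_mem hx] at h2
    omega
  by_cases hall : ∀ x ∈ W, ∀ y ∈ W, x ≠ y → G.Adj x y
  · refine ⟨?_, hall⟩
    by_contra hne
    obtain ⟨T, hT, hTc⟩ := Finset.exists_subset_card_eq (show t + 1 ≤ W.card by omega)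
    obtain ⟨c, hlt', hp⟩ := hW.col T hT fun e => by rw [e] at hTc; omega
    have h2 : (T.image c).card ≤ t := by
      refine (Finset.card_le_card fun i hi => ?_).trans (Finset.card_range t).le
      obtain ⟨x, hx, rfl⟩ := Finset.mem_image.1 hi
      exact Finset.mem_range.2 (hlt' x hx)
    rw [Finset.card_image_of_injOn fun x hx y hy e => by_contra fun hne' =>
      hp x hx y hy (hall x (hT hx) y (hT hy) hne') e] at h2
    omega
  · exfalso
    push Not at hall
    obtain ⟨x, hx, y, hy, hxy, nxy⟩ := hall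
    have hWc : W.card = t + 2 := by
      have h3 : ({x, y} : Finset V).card ≤ W.card :=
        Finset.card_le_card (by simp [Finset.insert_subset_iff, hx, hy])
      rw [Finset.card_pair hxy] at h3
      have h1 := hW.deg x hx
      have h2 : degIn G W x ≤ ((W.erase x).erase y).card := Finset.card_le_card fun w hw => by
        rw [Finset.mem_filter] at hw
        simp only [Finset.mem_erase]
        exact ⟨fun e => nxy (e ▸ hw.2), hw.2.ne', hw.1⟩
      rw [Finset.card_erase_of_mem (by simp [hxy.symm, hy]), Finset.card_erase_of_mem hx] at h2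
      omega
    by_cases hsec : ∃ z ∈ (W.erase x).erase y, ∃ u ∈ (W.erase x).erase y, z ≠ u ∧ ¬ G.Adj z u
    · obtain ⟨z, hz, u, hu, hzu, nzu⟩ := hsec
      simp only [Finset.mem_erase] at hz hu
      -- `x, y` share one colour and `z, u` another
      let E := (W.erase y).erase u
      have hE : E.card ≤ t := by
        simp only [E]
        rw [Finset.card_erase_of_mem (by simp [hu.1, hu.2.2]), Finset.card_erase_of_mem hy]
        omega
      let r : V → V := fun w => if w = y then x else if w = u then z else w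
      have hr : ∀ w ∈ W, r w ∈ E.toList := by
        intro w hw
        simp only [Finset.mem_toList, E, Finset.mem_erase, r]
        split_ifs with h1 h2
        · exact ⟨Ne.symm hu.2.1, hxy, hx⟩
        · exact ⟨hzu, hz.1, hz.2.2⟩
        · exact ⟨h2, h1, hw⟩
      refine hW.not_col ⟨fun w => E.toList.idxOf (r w), fun w hw => ?_, fun p hp q hq e hpq => ?_⟩
      · show _ < t
        have := List.idxOf_lt_length_of_mem (hr w hw)
        rw [Finset.length_toList] at this
        exact lt_of_lt_of_le this hE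
      · have h' := (List.idxOf_inj (hr p hp)).1 hpq
        simp only [r] at h'
        split_ifs at h' <;> subst_vars
        all_goals first
          | exact G.irrefl e
          | exact nxy e
          | exact nxy e.symm
          | exact nzu e
          | exact nzu e.symm
          | exact hz.2.1 rfl
    · push Not at hsec
      obtain ⟨c, hlt', hp⟩ := hW.col (W.erase x) (Finset.erase_subset _ _)
        fun e => (Finset.notMem_erase x W) (e.symm ▸ hx)
      have h2 : ((W.erase x).image c).card ≤ t := by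
        refine (Finset.card_le_card fun i hi => ?_).trans (Finset.card_range t).le
        obtain ⟨w, hw, rfl⟩ := Finset.mem_image.1 hi
        exact Finset.mem_range.2 (hlt' w hw)
      have hadj : ∀ p ∈ W.erase x, ∀ q ∈ W.erase x, p ≠ q → G.Adj p q := by
        intro p hp' q hq hpq
        by_cases hpy : p = y
        · subst hpy
          by_contra hn
          exact (Finset.mem_erase.1 hq).1 (hmiss p hy x hx q (Finset.mem_of_mem_erase hq)
            hxy.symm hpq (fun h => nxy h.symm) hn).symm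
        by_cases hqy : q = y
        · subst hqy
          by_contra hn
          exact (Finset.mem_erase.1 hp').1 (hmiss q hy x hx p (Finset.mem_of_mem_erase hp')
            hxy.symm hpq.symm (fun h => nxy h.symm) fun h => hn h.symm).symm
        exact hsec p (Finset.mem_erase.2 ⟨hpy, hp'⟩) q (Finset.mem_erase.2 ⟨hqy, hq⟩) hpq
      rw [Finset.card_image_of_injOn fun p hp' q hq e => by_contra fun hne =>
        hp p hp' q hq (hadj p hp' q hq hne) e, Finset.card_erase_of_mem hx] at h2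
      omega

/-- For two colours, two classes are joined by an edge and by a path on three vertices. -/
theorem Critical.two_paths {W : Finset V} (hW : Critical G 2 W) {β : Type*} {c : V → β}
    (hc : ∃ x ∈ W, ∃ y ∈ W, c x ≠ c y) :
    (∃ x ∈ W, ∃ y ∈ W, G.Adj x y ∧ c x ≠ c y) ∧
      ∃ x ∈ W, ∃ y ∈ W, ∃ z ∈ W, G.Adj x y ∧ G.Adj y z ∧ c x ≠ c z := by
  classical
  obtain ⟨x₀, hx₀, y₀, hy₀, hne₀⟩ := hc
  have hedge : ∃ x ∈ W, ∃ y ∈ W, G.Adj x y ∧ c x ≠ c y := by
    obtain ⟨p, hp, q, hq, hqT, hpq⟩ := (hW.linked_self (by omega)) (W.filter fun w => c w = c x₀)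
      (Finset.filter_subset _ _) ⟨x₀, by simp [hx₀]⟩ fun e => by
        have := e.symm ▸ hy₀
        exact hne₀ (Finset.mem_filter.1 this).2.symm
    rw [Finset.mem_filter] at hp
    exact ⟨p, hp.1, q, hq, hpq, fun e => hqT (Finset.mem_filter.2 ⟨hq, e.symm.trans hp.2⟩)⟩
  refine ⟨hedge, ?_⟩
  by_contra hno
  push Not at hno
  obtain ⟨p, hp, q, hq, hpq, hne⟩ := hedge
  -- every member sees one colour only, so the two colours alternate
  let T := W.filter fun w => (c w = c p ∧ ∀ z ∈ W, G.Adj w z → c z = c q) ∨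
    (c w = c q ∧ ∀ z ∈ W, G.Adj w z → c z = c p)
  have hT : T = W := by
    by_contra hTne
    obtain ⟨w, hw, z, hz, hzT, hwz⟩ := (hW.linked_self (by omega)) T (Finset.filter_subset _ _)
      ⟨p, Finset.mem_filter.2 ⟨hp, .inl ⟨rfl, fun z hz e => hno z hz p hp q hq e.symm hpq⟩⟩⟩ hTne
    obtain ⟨hwW, hw'⟩ := Finset.mem_filter.1 hw
    refine hzT (Finset.mem_filter.2 ⟨hz, ?_⟩)
    rcases hw' with ⟨h1, h2⟩ | ⟨h1, h2⟩
    · exact .inr ⟨h2 z hz hwz, fun u hu e => (hno u hu z hz w hwW e.symm hwz.symm).trans h1⟩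
    · exact .inl ⟨h2 z hz hwz, fun u hu e => (hno u hu z hz w hwW e.symm hwz.symm).trans h1⟩
  refine hW.not_col ⟨fun w => if c w = c p then 0 else 1,
    fun w _ => by dsimp only; split_ifs <;> omega, fun w hw z hz e => ?_⟩
  rw [← hT] at hw
  rcases (Finset.mem_filter.1 hw).2 with ⟨h1, h2⟩ | ⟨h1, h2⟩ <;>
    simp [h1, h2 z hz e, hne.symm]

/-- A set carrying a cycle and held together has paths one longer than the cycle. -/
theorem exists_path_of_cycle {W : Finset V} {C : List V} (hC : CycleIn G W C) (hl : Linked G W)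
    {n : ℕ} (hn : n ≤ W.card) (hnC : n ≤ C.length + 1) :
    ∃ P : List V, P.Nodup ∧ P.IsChain G.Adj ∧ (∀ z ∈ P, z ∈ W) ∧ P.length = n := by
  classical
  rcases Nat.lt_or_ge C.length n with h | h
  · obtain ⟨p, hp, q, hq, hqC, hpq⟩ := hl C.toFinset (fun z hz => hC.mem z (List.mem_toFinset.1 hz))
      ⟨C[0]'(by have := hC.three_le; omega), List.mem_toFinset.2 (List.getElem_mem _)⟩ fun e => by
        rw [← e, List.toFinset_card_of_nodup hC.nodup] at hn
        omega
    obtain ⟨u, rfl⟩ := hC.exists_at (List.mem_toFinset.1 hp)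
    let L := (List.range C.length).map fun i : ℕ => hC.at (u + i)
    refine ⟨q :: L, List.nodup_cons.2 ⟨?_, ?_⟩, ?_, ?_, by simp [L]; omega⟩
    · simp only [L, List.mem_map]
      rintro ⟨i, -, rfl⟩
      exact hqC (List.mem_toFinset.2 (hC.at_mem _))
    · refine List.Nodup.map_on (fun i hi j hj e => ?_) List.nodup_range
      by_contra hij
      rw [List.mem_range] at hi hj
      exact hC.at_ne (u := u + i) (w := u + j) (by omega) (by omega) (by omega) e
    · rw [List.isChain_iff_getElem]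
      intro i hi
      cases i with
      | zero => simpa [L] using hpq.symm
      | succ i =>
        simp only [L, List.getElem_cons_succ, List.getElem_map, List.getElem_range]
        convert hC.adj_succ (u + i) using 2
        push_cast; ring
    · intro z hz
      rcases List.mem_cons.1 hz with rfl | hz
      · exact hq
      · obtain ⟨i, -, rfl⟩ := List.mem_map.1 hz
        exact hC.mem _ (hC.at_mem _)
  · exact ⟨C.take n, hC.nodup.sublist (List.take_sublist _ _), hC.chain.take n,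
      fun z hz => hC.mem z (List.mem_of_mem_take hz), by rw [List.length_take]; omega⟩

/-- A layer that needs more than `d / 2` colours holds a clique under one vertex. -/
theorem clique_in_layer (hno : ¬ Cyc G (d + 1)) (hd : 4 ≤ d) (hd' : d ≤ 6) (hS : S ⊆ X)
    (hXR : Disjoint X R) {Λ j : ℕ} (hj : 1 ≤ j) (hΛ : 2 ≤ Λ) (hlink : RootLink G R S Λ)
    (hjd : 2 * j + Λ ≤ d) (hncol : ¬ ColorableIn G (layer G X S j) (d / 2)) :
    ∃ W ⊆ layer G X S j, ∃ w ∈ layer G X S (j - 1), W.card = d / 2 + 1 ∧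
      (∀ x ∈ W, ∀ y ∈ W, x ≠ y → G.Adj x y) ∧ ∀ x ∈ W, G.Adj x w := by
  classical
  obtain ⟨W, hW, hcrit⟩ := exists_critical hncol
  have hlt := hcrit.lt_card
  rcases Nat.eq_or_lt_of_le hd' with rfl | hd5
  · obtain ⟨h1, h2⟩ := critical_in_layer (G := G) hno hS hXR hj hlink hjd (by norm_num)
      (by norm_num) hW hcrit
    rcases h2 with h2 | ⟨w, hw, hadj⟩
    · omega
    · obtain ⟨e, hq⟩ := hcrit.clique_of_card_le (by omega)
      exact ⟨W, hW, w, hw, e, hq, hadj⟩
  · have ht : d / 2 = 2 := by omega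
    obtain rfl : j = 1 := by omega
    rw [ht] at hcrit hlt ⊢
    obtain ⟨x₀, hx₀⟩ : W.Nonempty := Finset.card_pos.1 (by omega)
    have hadj : ∀ x ∈ W, G.Adj x (anc G X S 1 x) := fun x hx => by
      simpa [anc_zero] using anc_adj (X := X) (S := S) (hW hx) (show 0 < 1 by omega)
    by_cases hall : ∀ x ∈ W, ∀ y ∈ W, anc G X S 1 x = anc G X S 1 y
    · let w := anc G X S 1 x₀
      have hw : w ∈ layer G X S 0 := anc_mem (hW hx₀) 1 le_rfl
      have hadj' : ∀ x ∈ W, G.Adj x w := fun x hx => by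
        have := hadj x hx
        rwa [hall x hx x₀ hx₀] at this
      have hle : W.card + 1 ≤ d := by
        by_contra hlt'
        obtain ⟨-, C, hC⟩ := hcrit.exists_cycle le_rfl
        have := hC.1.three_le
        have := hC.2.1
        obtain ⟨P, hPn, hPc, hPW, hPl⟩ := exists_path_of_cycle hC.1 (hcrit.linked_self (by omega))
          (n := d) (by omega) (by omega)
        refine hno (cyc_of_list (by omega) w P (by simp; omega) ?_ ?_ ?_)
        · exact List.nodup_cons.2 ⟨fun e => (hadj' w (hPW w e)).ne rfl, hPn⟩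
        · exact List.isChain_cons.2 ⟨fun y hy => (hadj' y (hPW y (List.mem_of_head? hy))).symm, hPc⟩
        · intro z hz
          cases P with
          | nil => simp at hPl; omega
          | cons p P =>
            rw [Option.mem_def, List.getLast?_cons_cons] at hz
            exact hadj' z (hPW z (List.mem_of_getLast? hz))
      obtain ⟨e, hq⟩ := hcrit.clique_of_card_le (by omega)
      exact ⟨W, hW, w, hw, e, hq, hadj'⟩
    · exfalso
      push Not at hall
      obtain ⟨x₁, hx₁, y₁, hy₁, hne₁⟩ := hall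
      obtain ⟨f, lam, ⟨u, hu, v, hv, huv⟩, hlam2, hlamΛ, hjoin⟩ :=
        hlink (W.image (anc G X S 1))
          (Finset.image_subset_iff.2 fun x hx => by
            simpa [layer_zero] using anc_mem (X := X) (S := S) (hW hx) 1 le_rfl)
          (Finset.one_lt_card.2 ⟨_, Finset.mem_image_of_mem _ hx₁, _,
            Finset.mem_image_of_mem _ hy₁, hne₁⟩)
      obtain ⟨x', hx', rfl⟩ := Finset.mem_image.1 hu
      obtain ⟨y', hy', rfl⟩ := Finset.mem_image.1 hv
      obtain ⟨he, hp⟩ := hcrit.two_paths (c := fun x => f (anc G X S 1 x))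
        ⟨x', hx', y', hy', huv⟩
      have close : ∀ (P : List V) (x y : V) (l : ℕ), 1 ≤ l → P.Nodup → P.IsChain G.Adj →
          (∀ z ∈ P, z ∈ W) → P.head? = some x → P.getLast? = some y → P.length = l + 1 →
          f (anc G X S 1 x) ≠ f (anc G X S 1 y) → Cyc G (l + 2 * 1 + lam) :=
        fun P x y l hl hn hc hm hh hl' hlen hne =>
          cyc_roots (G := G) (R := R) (X := X) (S := S) hS hXR hl hlam2
            (hjoin _ (Finset.mem_image_of_mem _ (hm y (List.mem_of_getLast? hl'))) _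
              (Finset.mem_image_of_mem _ (hm x (List.mem_of_head? hh))) hne.symm)
            hn hc (fun z hz => hW (hm z hz)) hh hl' hlen fun e => hne (congrArg f e)
      rcases (show d = lam + 2 ∨ d = lam + 3 by omega) with e | e
      · obtain ⟨x, hx, y, hy, hxy, hne⟩ := he
        have := close [x, y] x y 1 le_rfl (by simp [hxy.ne]) (by simp [hxy]) (by simp [hx, hy])
          rfl rfl rfl hne
        exact hno (by rwa [show d + 1 = 1 + 2 * 1 + lam by omega])
      · obtain ⟨x, hx, y, hy, z, hz, hxy, hyz, hne⟩ := hp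
        have hxz : x ≠ z := fun e' => hne (by rw [e'])
        have := close [x, y, z] x z 2 (by omega) (by simp [hxy.ne, hyz.ne, hxz])
          (by simp [hxy, hyz]) (by simp [hx, hy, hz]) rfl rfl rfl hne
        exact hno (by rwa [show d + 1 = 2 + 2 * 1 + lam by omega])

/-- A clique on `d` vertices has `d` pairwise nonadjacent neighbours, and then a (d+1)st. -/
theorem Setup.no_full_clique (h : Setup G U d a) (hd : 4 ≤ d) {K : Finset V} (hKU : K ⊆ U)
    (hK : ∀ x ∈ K, ∀ y ∈ K, x ≠ y → G.Adj x y) (hcard : K.card = d) : False := by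
  classical
  let Y : V → Finset V := fun x => U.filter fun z => z ∉ K ∧ G.Adj x z
  have hY : ∀ {x z}, z ∈ Y x ↔ z ∈ U ∧ z ∉ K ∧ G.Adj x z := fun {x z} => Finset.mem_filter
  have hout : ∀ x ∈ K, (Y x).Nonempty := by
    intro x hx
    by_contra hn
    rw [Finset.not_nonempty_iff_eq_empty] at hn
    have h1 := h.deg x (hKU hx)
    have h2 : degIn G U x ≤ (K.erase x).card := Finset.card_le_card fun z hz => by
      rw [Finset.mem_filter] at hz
      refine Finset.mem_erase.2 ⟨hz.2.ne', ?_⟩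
      by_contra hzK
      exact Finset.notMem_empty z (hn ▸ hY.2 ⟨hz.1, hzK, hz.2⟩)
    rw [Finset.card_erase_of_mem hx] at h2
    omega
  have key : ∀ x ∈ K, ∀ x' ∈ K, x ≠ x' → ∀ z ∈ Y x, ∀ z' ∈ Y x', z ≠ z' ∧ ¬ G.Adj z z' ∧
      ∀ w, w ∉ K → w ≠ z → w ≠ z' → G.Adj w z → ¬ G.Adj w z' := by
    intro x hx x' hx' hne z hz z' hz'
    obtain ⟨-, hzK, hxz⟩ := hY.1 hz
    obtain ⟨-, hzK', hxz'⟩ := hY.1 hz'
    have hzz : z ≠ z' := by
      rintro rfl
      exact h.noCyc (ear_cyc hK hx hx' hne (l := [z]) (by simp) (by simp [hzK])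
        (by simp [hxz, hxz'.symm]) (by omega) (by simp; omega) (by simp; omega))
    refine ⟨hzz, fun e => h.noCyc (ear_cyc hK hx hx' hne (l := [z, z']) (by simp [hzz])
      (by simp [hzK, hzK']) (by simp [hxz, e, hxz'.symm]) (by omega) (by simp; omega)
      (by simp; omega)), fun w hw h1 h2 e1 e2 => h.noCyc (ear_cyc hK hx hx' hne (l := [z, w, z'])
      (by simp [hzz, h1.symm, h2]) (by simp [hzK, hzK', hw])
      (by simp [hxz, e1.symm, e2, hxz'.symm]) (by omega) (by simp; omega) (by simp; omega))⟩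
  choose! g hg using hout
  have hind : Indep G (K.image g) := by
    intro p hp q hq
    obtain ⟨x, hx, rfl⟩ := Finset.mem_image.1 hp
    obtain ⟨y, hy, rfl⟩ := Finset.mem_image.1 hq
    by_cases hxy : x = y
    · subst hxy; exact G.irrefl
    · exact (key x hx y hy hxy _ (hg x hx) _ (hg y hy)).2.1
  have hinj : ∀ T ⊆ K, (T.image g).card = T.card := fun T hT =>
    Finset.card_image_of_injOn fun x hx y hy e => by_contra fun hne =>
      (key x (hT hx) y (hT hy) hne _ (hg x (hT hx)) _ (hg y (hT hy))).1 e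
  have hgU : ∀ T ⊆ K, T.image g ⊆ U := fun T hT =>
    Finset.image_subset_iff.2 fun x hx => (hY.1 (hg x (hT hx))).1
  have had : a = d := by
    have := h.alpha _ (hgU K le_rfl) hind
    rw [hinj K le_rfl, hcard] at this
    have := h.le
    omega
  -- two more vertices next to the other picks are too many
  have hext : ∀ x ∈ K, ∀ p ∈ U, ∀ q ∈ U, p ≠ q → ¬ G.Adj p q →
      (∀ y ∈ K, y ≠ x → p ≠ g y ∧ q ≠ g y ∧ ¬ G.Adj p (g y) ∧ ¬ G.Adj q (g y)) → False := by
    intro x hx p hp q hq hpq npq hfar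
    have hm : ∀ z ∈ (K.erase x).image g,
        p ≠ z ∧ q ≠ z ∧ ¬ G.Adj p z ∧ ¬ G.Adj q z := by
      intro z hz
      obtain ⟨y, hy, rfl⟩ := Finset.mem_image.1 hz
      exact hfar y (Finset.mem_of_mem_erase hy) (Finset.ne_of_mem_erase hy)
    have := h.alpha (insert p (insert q ((K.erase x).image g)))
      (Finset.insert_subset hp (Finset.insert_subset hq (hgU _ (Finset.erase_subset _ _)))) (by
        intro u hu w hw
        simp only [Finset.mem_insert] at hu hw
        rcases hu with rfl | rfl | hu <;> rcases hw with rfl | rfl | hw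
        exacts [G.irrefl, npq, (hm w hw).2.2.1, fun e => npq e.symm, G.irrefl, (hm w hw).2.2.2,
          fun e => (hm u hu).2.2.1 e.symm, fun e => (hm u hu).2.2.2 e.symm,
          hind u (Finset.image_subset_image (Finset.erase_subset _ _) hu) w
            (Finset.image_subset_image (Finset.erase_subset _ _) hw)])
    rw [Finset.card_insert_of_notMem, Finset.card_insert_of_notMem, hinj _ (Finset.erase_subset _ _),
      Finset.card_erase_of_mem hx, hcard] at this
    · omega
    · exact fun e => (hm q e).2.1 rfl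
    · rw [Finset.mem_insert]
      exact fun e => e.elim hpq fun e => (hm p e).1 rfl
  by_cases hw : ∃ w ∈ U, w ∉ K ∧ ∀ x ∈ K, w ∉ Y x
  · obtain ⟨w, hwU, hwK, hwY⟩ := hw
    obtain ⟨i, hi, hsel⟩ : ∃ i ∈ K, ∀ x ∈ K, x ≠ i → ¬ G.Adj w (g x) := by
      by_cases hs : ∃ i ∈ K, ∃ z ∈ Y i, G.Adj w z
      · obtain ⟨i, hi, z, hz, hwz⟩ := hs
        exact ⟨i, hi, fun x hx hne => (key i hi x hx (Ne.symm hne) z hz _ (hg x hx)).2.2 w hwK
          (fun e => hwY i hi (e.symm ▸ hz)) (fun e => hwY x hx (e.symm ▸ hg x hx)) hwz⟩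
      · obtain ⟨i, hi⟩ : K.Nonempty := Finset.card_pos.1 (by omega)
        exact ⟨i, hi, fun x hx _ e => hs ⟨x, hx, _, hg x hx, e⟩⟩
    refine hext i hi w hwU i (hKU hi) (fun e => hwK (e ▸ hi))
      (fun e => hwY i hi (hY.2 ⟨hwU, hwK, e.symm⟩)) fun y hy hne => ⟨?_, ?_, hsel y hy hne, ?_⟩
    · exact fun e => hwY y hy (e.symm ▸ hg y hy)
    · exact fun e => (hY.1 (hg y hy)).2.1 (e ▸ hi)
    · exact fun e => (key i hi y hy (Ne.symm hne) (g y)
        (hY.2 ⟨(hY.1 (hg y hy)).1, (hY.1 (hg y hy)).2.1, e⟩) _ (hg y hy)).1 rfl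
  · push Not at hw
    have hclq : ∀ x ∈ K, (insert x (Y x)).card ≤ d := by
      intro x hx
      by_contra hgt
      refine h.noCyc (cyc_of_clique (by omega) (Q := insert x (Y x)) ?_ (by omega))
      intro p hp q hq hpq
      rcases Finset.mem_insert.1 hp with rfl | hp <;> rcases Finset.mem_insert.1 hq with rfl | hq
      · exact absurd rfl hpq
      · exact (hY.1 hq).2.2
      · exact (hY.1 hp).2.2.symm
      · by_contra hn
        exact hext x hx p (hY.1 hp).1 q (hY.1 hq).1 hpq hn fun y hy hne =>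
          ⟨(key x hx y hy hne.symm p hp _ (hg y hy)).1, (key x hx y hy hne.symm q hq _ (hg y hy)).1,
            (key x hx y hy hne.symm p hp _ (hg y hy)).2.1,
            (key x hx y hy hne.symm q hq _ (hg y hy)).2.1⟩
    have hcov : U ⊆ K.biUnion fun x => insert x (Y x) := by
      intro u hu
      rw [Finset.mem_biUnion]
      by_cases huK : u ∈ K
      · exact ⟨u, huK, Finset.mem_insert_self _ _⟩
      · obtain ⟨x, hx, hx'⟩ := hw u hu huK
        exact ⟨x, hx, Finset.mem_insert_of_mem hx'⟩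
    have h1 := (Finset.card_le_card hcov).trans
      (Finset.card_biUnion_le_card_mul K _ d hclq)
    rw [hcard] at h1
    have h2 := h.card
    rw [had] at h2
    omega

/-- A clique has at most `d - 1` vertices. -/
theorem Setup.clique_lt (h : Setup G U d a) (hd : 4 ≤ d) {K : Finset V} (hKU : K ⊆ U)
    (hK : ∀ x ∈ K, ∀ y ∈ K, x ≠ y → G.Adj x y) : K.card < d := by
  by_contra hge
  obtain ⟨K', hK', hKc⟩ := Finset.exists_subset_card_eq (show d ≤ K.card by omega)
  exact h.no_full_clique hd (hK'.trans hKU) (fun x hx y hy => hK x (hK' hx) y (hK' hy)) hKc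

/-- Two outside vertices, each with two neighbours in a clique on `d - 1` vertices, have the same
two neighbours there. -/
theorem pair_unique (hno : ¬ Cyc G (d + 1)) (hd : 5 ≤ d) {Q : Finset V}
    (hQ : ∀ x ∈ Q, ∀ y ∈ Q, x ≠ y → G.Adj x y) (hQc : Q.card + 1 = d) {z z' p p' q q' : V}
    (hz : z ∉ Q) (hz' : z' ∉ Q) (hzz : z ≠ z') (hp : p ∈ Q) (hp' : p' ∈ Q) (hq : q ∈ Q)
    (hq' : q' ∈ Q) (hpp : p ≠ p') (hqq : q ≠ q') (e1 : G.Adj p z) (e2 : G.Adj p' z)
    (e3 : G.Adj q z') (e4 : G.Adj q' z') : p = q ∨ p = q' := by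
  by_contra hne
  push Not at hne
  obtain ⟨hpq, hpq'⟩ := hne
  -- one ear, then the other
  have share : ∀ {m u : V}, m ∈ Q → u ∈ Q → p ≠ m → p ≠ u → m ≠ u → G.Adj m z → G.Adj m z' →
      G.Adj u z' → False := by
    intro m u hm hu h1 h2 h3 a1 a2 a3
    refine hno (ear_cyc (Q := Q.erase m)
      (fun x hx y hy => hQ x (Finset.mem_of_mem_erase hx) y (Finset.mem_of_mem_erase hy))
      (x := p) (x' := u) (Finset.mem_erase.2 ⟨h1, hp⟩) (Finset.mem_erase.2 ⟨h3.symm, hu⟩) h2
      (l := [z, m, z']) ?_ ?_ ?_ (by omega) (by simp; omega) ?_)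
    · simp [hzz, a1.ne', a2.ne]
    · simp [hz, hz']
    · simp [e1, a1.symm, a2, a3.symm]
    · rw [Finset.card_erase_of_mem hm]; simp; omega
  by_cases h1 : p' = q
  · exact share hq hq' hpq hpq' hqq (h1 ▸ e2) e3 e4
  by_cases h2 : p' = q'
  · exact share hq' hq hpq' hpq hqq.symm (h2 ▸ e2) e4 e3
  have hsub : ∀ {x}, x ∈ (Q.erase p').erase q → x ∈ Q := fun hx =>
    Finset.mem_of_mem_erase (Finset.mem_of_mem_erase hx)
  refine hno (ear_cyc (Q := (Q.erase p').erase q) (fun x hx y hy => hQ x (hsub hx) y (hsub hy))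
    (x := p) (x' := q') (by simp [hpq, hpp, hp]) (by simp [hqq.symm, Ne.symm h2, hq']) hpq'
    (l := [z, p', q, z']) ?_ ?_ ?_ (by omega) (by simp; omega) ?_)
  · have n1 : z ≠ q := fun e => hz (e ▸ hq)
    have n2 : p' ≠ z' := fun e => hz' (e ▸ hp')
    simp [hzz, e2.ne', n1, h1, n2, e3.ne]
  · simp [hz, hz']
  · simp [e1, e2.symm, hQ p' hp' q hq h1, e3, e4.symm]
  · rw [Finset.card_erase_of_mem (by simp [Ne.symm h1, hq]), Finset.card_erase_of_mem hp']
    simp; omega

/-- Distinct outside neighbours for the members of a clique on `d - 1` vertices. -/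
theorem Setup.exists_picks (h : Setup G U d a) (hd : 5 ≤ d) {Q : Finset V} (hQU : Q ⊆ U)
    (hQ : ∀ x ∈ Q, ∀ y ∈ Q, x ≠ y → G.Adj x y) (hQc : Q.card + 1 = d) :
    ∃ g : V → V, (∀ x ∈ Q, g x ∈ U ∧ g x ∉ Q ∧ G.Adj x (g x)) ∧
      ∀ x ∈ Q, ∀ y ∈ Q, g x = g y → x = y := by
  classical
  let Y : V → Finset V := fun x => U.filter fun z => z ∉ Q ∧ G.Adj x z
  have hY : ∀ {x z}, z ∈ Y x ↔ z ∈ U ∧ z ∉ Q ∧ G.Adj x z := fun {x z} => Finset.mem_filter
  have htwo : ∀ x ∈ Q, 1 < (Y x).card := by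
    intro x hx
    have h1 := h.deg x (hQU hx)
    have h2 : degIn G U x ≤ (Q.erase x ∪ Y x).card := Finset.card_le_card fun z hz => by
      rw [Finset.mem_filter] at hz
      by_cases hzQ : z ∈ Q
      · exact Finset.mem_union_left _ (Finset.mem_erase.2 ⟨hz.2.ne', hzQ⟩)
      · exact Finset.mem_union_right _ (hY.2 ⟨hz.1, hzQ, hz.2⟩)
    have h3 := Finset.card_union_le (Q.erase x) (Y x)
    rw [Finset.card_erase_of_mem hx] at h3
    omega
  by_cases hall : ∀ x ∈ Q, ∃ z ∈ Y x, ∀ y ∈ Q, z ∈ Y y → y = x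
  · choose! g hg hpriv using hall
    exact ⟨g, fun x hx => hY.1 (hg x hx), fun x hx y hy e => hpriv y hy x hx (e ▸ hg x hx)⟩
  push Not at hall
  obtain ⟨x₀, hx₀, hnp⟩ := hall
  obtain ⟨z, hz, z', hz', hzz⟩ := Finset.one_lt_card.1 (htwo x₀ hx₀)
  obtain ⟨x₁, hx₁, hzx₁, hx₁₀⟩ := hnp z hz
  obtain ⟨x₂, hx₂, hzx₂, hx₂₀⟩ := hnp z' hz'
  have hu := fun {u v p p' q q'} => pair_unique (z := u) (z' := v) (p := p) (p' := p') (q := q)
    (q' := q') h.noCyc hd hQ hQc
  have h12 : x₁ = x₂ := by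
    rcases hu (hY.1 hz).2.1 (hY.1 hz').2.1 hzz hx₁ hx₀ hx₀ hx₂ hx₁₀ hx₂₀.symm
      (hY.1 hzx₁).2.2 (hY.1 hz).2.2 (hY.1 hz').2.2 (hY.1 hzx₂).2.2 with e | e
    · exact absurd e hx₁₀
    · exact e
  subst h12
  have hother : ∀ x ∈ Q, x ≠ x₀ → x ≠ x₁ → ∀ w ∈ Y x, ∀ y ∈ Q, w ∈ Y y → y = x := by
    intro x hx h0 h1 w hw y hy hwy
    by_contra hne
    obtain ⟨-, hwQ, hxw⟩ := hY.1 hw
    obtain ⟨-, -, hyw⟩ := hY.1 hwy
    by_cases hwz : w = z
    · subst hwz
      rcases hu hwQ (hY.1 hz').2.1 hzz hx hy hx₀ hx₁ (Ne.symm hne) hx₁₀.symm hxw hyw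
        (hY.1 hz').2.2 (hY.1 hzx₂).2.2 with e | e <;> [exact h0 e; exact h1 e]
    · rcases hu hwQ (hY.1 hz).2.1 hwz hx hy hx₀ hx₁ (Ne.symm hne) hx₁₀.symm hxw hyw
        (hY.1 hz).2.2 (hY.1 hzx₁).2.2 with e | e <;> [exact h0 e; exact h1 e]
  have hne' : ∀ x ∈ Q, (Y x).Nonempty := fun x hx => Finset.card_pos.1 (by have := htwo x hx; omega)
  choose! g₀ hg₀ using hne'
  let g : V → V := fun x => if x = x₀ then z else if x = x₁ then z' else g₀ x
  have hg : ∀ x ∈ Q, g x ∈ Y x := by
    intro x hx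
    simp only [g]
    split_ifs with h0 h1
    · exact h0 ▸ hz
    · exact h1 ▸ hzx₂
    · exact hg₀ x hx
  refine ⟨g, fun x hx => hY.1 (hg x hx), fun x hx y hy e => ?_⟩
  by_cases hxs : x ≠ x₀ ∧ x ≠ x₁
  · exact (hother x hx hxs.1 hxs.2 _ (hg x hx) y hy (e ▸ hg y hy)).symm
  by_cases hys : y ≠ x₀ ∧ y ≠ x₁
  · exact hother y hy hys.1 hys.2 _ (hg y hy) x hx (e ▸ hg x hx)
  rw [not_and_or, not_not, not_not] at hxs hys
  rcases hxs with rfl | rfl <;> rcases hys with rfl | rfl <;>
    simp_all [g, hzz.symm]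

/-- The picks avoiding one outside neighbour of `y`. -/
theorem Setup.exists_picks_avoiding (h : Setup G U d a) (hd : 5 ≤ d) {Q : Finset V}
    (hQU : Q ⊆ U) (hQ : ∀ x ∈ Q, ∀ y ∈ Q, x ≠ y → G.Adj x y) (hQc : Q.card + 1 = d) {y x₀ : V}
    (hy : y ∈ Q) (hx₀ : x₀ ∉ Q) (hyx₀ : G.Adj y x₀) :
    ∃ g : V → V, (∀ r ∈ Q.erase y, g r ∈ U ∧ g r ∉ Q ∧ g r ≠ x₀ ∧ G.Adj r (g r)) ∧
      ∀ r ∈ Q.erase y, ∀ r' ∈ Q.erase y, g r = g r' → r = r' := by
  classical
  by_cases hs : ∃ r₀ ∈ Q.erase y, G.Adj r₀ x₀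
  · obtain ⟨r₀, hr₀, hr₀x⟩ := hs
    obtain ⟨hr₀y, hr₀Q⟩ := Finset.mem_erase.1 hr₀
    have hex : ∀ r ∈ Q.erase y, ∃ u ∈ U, u ∉ Q ∧ u ≠ x₀ ∧ G.Adj r u := by
      intro r hr
      by_contra hn
      push Not at hn
      obtain ⟨hry, hrQ⟩ := Finset.mem_erase.1 hr
      have h1 := h.deg r (hQU hrQ)
      have h2 : degIn G U r ≤ (insert x₀ (Q.erase r)).card := Finset.card_le_card fun w hw => by
        rw [Finset.mem_filter] at hw
        by_cases hwx : w = x₀
        · exact Finset.mem_insert.2 (.inl hwx)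
        · refine Finset.mem_insert.2 (.inr (Finset.mem_erase.2 ⟨hw.2.ne', ?_⟩))
          by_contra hwQ
          exact hn w hw.1 hwQ hwx hw.2
      rw [Finset.card_insert_of_notMem fun e => hx₀ (Finset.mem_of_mem_erase e),
        Finset.card_erase_of_mem hrQ] at h2
      omega
    choose! g hgU hgQ hgx hgA using hex
    refine ⟨g, fun r hr => ⟨hgU r hr, hgQ r hr, hgx r hr, hgA r hr⟩, fun r hr r' hr' e => ?_⟩
    by_contra hne
    obtain ⟨hry, hrQ⟩ := Finset.mem_erase.1 hr
    obtain ⟨hry', hrQ'⟩ := Finset.mem_erase.1 hr'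
    rcases pair_unique h.noCyc hd hQ hQc hx₀ (hgQ r hr) (hgx r hr).symm hy hr₀Q hrQ hrQ'
      hr₀y.symm hne hyx₀ hr₀x (hgA r hr) (e ▸ hgA r' hr') with e' | e'
    · exact hry e'.symm
    · exact hry' e'.symm
  · push Not at hs
    obtain ⟨g, hg, hinj⟩ := h.exists_picks hd hQU hQ hQc
    refine ⟨g, fun r hr => ?_, fun r hr r' hr' e =>
      hinj r (Finset.mem_of_mem_erase hr) r' (Finset.mem_of_mem_erase hr') e⟩
    obtain ⟨h1, h2, h3⟩ := hg r (Finset.mem_of_mem_erase hr)
    exact ⟨h1, h2, fun e => hs r hr (e ▸ h3), h3⟩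

/-- Two joined cliques on `d - 1` vertices have more than `a` private neighbours. -/
theorem Setup.no_two_cliques (h : Setup G U d a) (hd : 5 ≤ d) {Q Q' : Finset V}
    (hQU' : Q' ⊆ U) (hQ : ∀ x ∈ Q, ∀ y ∈ Q, x ≠ y → G.Adj x y)
    (hQ' : ∀ x ∈ Q', ∀ y ∈ Q', x ≠ y → G.Adj x y) (hQc : Q.card + 1 = d)
    (hQc' : Q'.card + 1 = d) (hdis : Disjoint Q Q') {g : V → V}
    (hg : ∀ x ∈ Q, g x ∈ U ∧ g x ∉ Q ∧ G.Adj x (g x))
    (hinj : ∀ x ∈ Q, ∀ y ∈ Q, g x = g y → x = y) {x₀ : V} (hx₀ : x₀ ∈ Q) (hy : g x₀ ∈ Q')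
    (hfar : ∀ x ∈ Q, x ≠ x₀ → g x ∉ Q') : False := by
  classical
  obtain ⟨g', hg', hinj'⟩ := h.exists_picks_avoiding hd hQU' hQ' hQc' hy
    (fun e => Finset.disjoint_left.1 hdis hx₀ e) (hg x₀ hx₀).2.2.symm
  have hnQ : ∀ {z}, z ∈ Q' → z ∉ Q := fun hz => Finset.disjoint_right.1 hdis hz
  have hout : ∀ r ∈ Q'.erase (g x₀), g' r ∉ Q := by
    intro r hr hx
    obtain ⟨hry, hrQ⟩ := Finset.mem_erase.1 hr
    exact h.noCyc (ear_cyc hQ hx₀ hx (hg' r hr).2.2.1.symm (l := [g x₀, r]) (by simp [hry.symm])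
      (by simp [(hg x₀ hx₀).2.1, hnQ hrQ])
      (by simp [(hg x₀ hx₀).2.2, hQ' _ hy r hrQ hry.symm, (hg' r hr).2.2.2]) (by omega)
      (by simp; omega) (by simp; omega))
  have hcross : ∀ x ∈ Q.erase x₀, ∀ r ∈ Q'.erase (g x₀),
      g x ≠ g' r ∧ ¬ G.Adj (g x) (g' r) := by
    intro x hx r hr
    obtain ⟨hx0, hxQ⟩ := Finset.mem_erase.1 hx
    obtain ⟨hry, hrQ⟩ := Finset.mem_erase.1 hr
    obtain ⟨-, hu, hxu⟩ := hg x hxQ
    obtain ⟨-, hu', hu'x, hru⟩ := hg' r hr
    have n1 : g x₀ ≠ g x := fun e => hx0 (hinj x₀ hx₀ x hxQ e).symm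
    have n2 : r ≠ g x := fun e => hfar x hxQ hx0 (e ▸ hrQ)
    have n3 : g x₀ ≠ g' r := fun e => hu' (e ▸ hy)
    have hne : g x ≠ g' r := fun e => h.noCyc (ear_cyc hQ hx₀ hxQ hx0.symm
      (l := [g x₀, r, g x]) (by simp [hry.symm, n1, n2])
      (by simp [(hg x₀ hx₀).2.1, hnQ hrQ, hu])
      (by simp [(hg x₀ hx₀).2.2, hQ' _ hy r hrQ hry.symm, e ▸ hru, hxu.symm]) (by omega)
      (by simp; omega) (by simp; omega))
    refine ⟨hne, fun e => h.noCyc (ear_cyc hQ hx₀ hxQ hx0.symm
      (l := [g x₀, r, g' r, g x]) (by simp [hry.symm, n1, n2, n3, hru.ne, hne.symm])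
      (by simp [(hg x₀ hx₀).2.1, hnQ hrQ, hu, hout r hr])
      (by simp [(hg x₀ hx₀).2.2, hQ' _ hy r hrQ hry.symm, hru, e.symm, hxu.symm]) (by omega)
      (by simp; omega) (by simp; omega))⟩
  have hsame : ∀ {P : Finset V}, P.card + 1 = d → (∀ x ∈ P, ∀ y ∈ P, x ≠ y → G.Adj x y) →
      ∀ {p q u w : V}, p ∈ P → q ∈ P → p ≠ q → u ∉ P → w ∉ P → u ≠ w → G.Adj p u → G.Adj q w →
      ¬ G.Adj u w := fun hc hP p q u w hp hq hpq hu hw huw a1 a2 e =>
    h.noCyc (ear_cyc hP hp hq hpq (l := [u, w]) (by simp [huw]) (by simp [hu, hw])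
      (by simp [a1, e, a2.symm]) (by omega) (by simp; omega) (by simp; omega))
  have := h.alpha ((Q.erase x₀).image g ∪ (Q'.erase (g x₀)).image g')
    (Finset.union_subset
      (Finset.image_subset_iff.2 fun x hx => (hg x (Finset.mem_of_mem_erase hx)).1)
      (Finset.image_subset_iff.2 fun r hr => (hg' r hr).1)) (by
      intro p hp q hq
      simp only [Finset.mem_union, Finset.mem_image] at hp hq
      rcases hp with ⟨x, hx, rfl⟩ | ⟨r, hr, rfl⟩ <;> rcases hq with ⟨x', hx', rfl⟩ | ⟨r', hr', rfl⟩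
      · by_cases e : g x = g x'
        · rw [e]; exact G.irrefl
        obtain ⟨-, a1, a2⟩ := hg x (Finset.mem_of_mem_erase hx)
        obtain ⟨-, b1, b2⟩ := hg x' (Finset.mem_of_mem_erase hx')
        exact hsame hQc hQ (Finset.mem_of_mem_erase hx) (Finset.mem_of_mem_erase hx')
          (fun e' => e (by rw [e'])) a1 b1 e a2 b2
      · exact (hcross x hx r' hr').2
      · exact fun e => (hcross x' hx' r hr).2 e.symm
      · by_cases e : g' r = g' r'
        · rw [e]; exact G.irrefl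
        obtain ⟨-, a1, -, a2⟩ := hg' r hr
        obtain ⟨-, b1, -, b2⟩ := hg' r' hr'
        exact hsame hQc' hQ' (Finset.mem_of_mem_erase hr) (Finset.mem_of_mem_erase hr')
          (fun e' => e (by rw [e'])) a1 b1 e a2 b2)
  rw [Finset.card_union_of_disjoint, Finset.card_image_of_injOn fun x hx y hy' e =>
      hinj x (Finset.mem_of_mem_erase hx) y (Finset.mem_of_mem_erase hy') e,
    Finset.card_image_of_injOn fun x hx y hy' e => hinj' x hx y hy' e,
    Finset.card_erase_of_mem hx₀, Finset.card_erase_of_mem hy] at this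
  · have := h.le
    omega
  · rw [Finset.disjoint_left]
    intro p hp hq
    obtain ⟨x, hx, rfl⟩ := Finset.mem_image.1 hp
    obtain ⟨r, hr, e⟩ := Finset.mem_image.1 hq
    exact (hcross x hx r hr).1 e.symm

/-- A clique on `d - 1` vertices is impossible once one step of the engine from its private
neighbours either outgrows `a` or finds another one under one root. -/
theorem Setup.no_near_clique_of (h : Setup G U d a) (hd : 5 ≤ d) {Q : Finset V} (hQU : Q ⊆ U)
    (hQ : ∀ x ∈ Q, ∀ y ∈ Q, x ≠ y → G.Adj x y) (hQc : Q.card + 1 = d) (ht : 1 ≤ t)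
    (hgrow : Q.card + t * Q.card + t * a < 1 + (t - 1) * Q.card + d * Q.card)
    (hfind : ∀ S ⊆ U \ Q, RootLink G Q S 3 → ¬ ColorableIn G (layer G (U \ Q) S 1) t →
      ∃ W ⊆ layer G (U \ Q) S 1, ∃ w ∈ layer G (U \ Q) S 0, W.card + 2 = d ∧
        (∀ x ∈ W, ∀ y ∈ W, x ≠ y → G.Adj x y) ∧ ∀ x ∈ W, G.Adj x w) : False := by
  classical
  obtain ⟨g, hg, hinj⟩ := h.exists_picks hd hQU hQ hQc
  let S := Q.image g
  have hScard : S.card = Q.card := Finset.card_image_of_injOn fun x hx y hy e => hinj x hx y hy e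
  have hS : S ⊆ U \ Q := Finset.image_subset_iff.2 fun x hx =>
    Finset.mem_sdiff.2 ⟨(hg x hx).1, (hg x hx).2.1⟩
  have hI : Indep G S := by
    intro p hp q hq e
    obtain ⟨x, hx, rfl⟩ := Finset.mem_image.1 hp
    obtain ⟨y, hy, rfl⟩ := Finset.mem_image.1 hq
    have hxy : x ≠ y := fun e' => G.irrefl (e' ▸ e)
    exact h.noCyc (ear_cyc hQ hx hy hxy (l := [g x, g y]) (by simp [e.ne])
      (by simp [(hg x hx).2.1, (hg y hy).2.1]) (by simp [(hg x hx).2.2, e, (hg y hy).2.2.symm])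
      (by omega) (by simp; omega) (by simp; omega))
  have hown : ∀ s ∈ S, ∃ x ∈ Q, g x = s := fun s hs => Finset.mem_image.1 hs
  choose! own hoQ hoG using hown
  have hlink : RootLink G Q S 3 := by
    intro S' hS' hcard
    obtain ⟨u, hu, v, hv, huv⟩ := Finset.one_lt_card.1 hcard
    refine ⟨fun s => decide (s = u), 3, ⟨u, hu, v, hv, by simp [huv.symm]⟩, by omega, le_rfl,
      fun p hp q hq hpq => ⟨[own p, own q], ?_, ?_, ?_, rfl⟩⟩
    all_goals
      have hp' := hS' hp
      have hq' := hS' hq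
      have hne : own p ≠ own q := fun e => hpq (by rw [← hoG p hp', e, hoG q hq'])
      have a1 := (hg _ (hoQ p hp')).2.2
      have a2 := (hg _ (hoQ q hq')).2.2
      rw [hoG p hp'] at a1
      rw [hoG q hq'] at a2
    · simp [hne]
    · simp [a1.symm, hQ _ (hoQ p hp') _ (hoQ q hq') hne, a2]
    · simp [hoQ p hp', hoQ q hq']
  have hncol : ¬ ColorableIn G (layer G (U \ Q) S 1) t := by
    intro hc
    have h1 := h.parSum_step hS (Finset.card_pos.1 (by omega)) hI (i := 0) (t := t) ht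
      fun j h1 h2 => by
        obtain rfl : j = 1 := by omega
        exact hc
    have h2 : t * parSum G (U \ Q) S 1 ≤ t * a := Nat.mul_le_mul_left _ (h.parSum_le hS hI 1)
    have e : parSum G (U \ Q) S 0 = S.card := by simp [parSum]
    rw [e, hScard, zero_add] at h1
    omega
  obtain ⟨W, hW, w, hw, hWc, hWq, hWw⟩ := hfind S hS hlink hncol
  rw [layer_zero] at hw
  obtain ⟨x₀, hx₀, rfl⟩ := Finset.mem_image.1 hw
  have hwW : g x₀ ∉ W := fun e => (hWw _ e).ne rfl
  have hsub : insert (g x₀) W ⊆ U \ Q :=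
    Finset.insert_subset (hS hw) fun z hz => layer_mem hS (hW hz)
  have hclq : ∀ p ∈ insert (g x₀) W, ∀ q ∈ insert (g x₀) W, p ≠ q → G.Adj p q := by
    intro p hp q hq hpq
    rcases Finset.mem_insert.1 hp with rfl | h₁ <;> rcases Finset.mem_insert.1 hq with rfl | h₂
    exacts [absurd rfl hpq, (hWw q h₂).symm, hWw p h₁, hWq p h₁ q h₂ hpq]
  have hc' : (insert (g x₀) W).card + 1 = d := by
    rw [Finset.card_insert_of_notMem hwW]
    omega
  refine h.no_two_cliques hd (hsub.trans Finset.sdiff_subset) hQ hclq hQc hc'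
    (Finset.disjoint_left.2 fun z hz hz' => (Finset.mem_sdiff.1 (hsub hz')).2 hz) hg hinj hx₀
    (Finset.mem_insert_self _ _) fun x hx hne e => ?_
  rcases Finset.mem_insert.1 e with e | e
  · exact hne (hinj x hx x₀ hx₀ e)
  · have hxl : g x ∈ layer G (U \ Q) S 0 := by
      rw [layer_zero]
      exact Finset.mem_image_of_mem g hx
    exact Nat.zero_ne_one (layer_inj hxl (hW e))

/-- There is no clique on `d - 1` vertices for `d = 5, 6`. -/
theorem Setup.no_near_clique (h : Setup G U d a) (hd : 5 ≤ d) (hd' : d ≤ 6) {Q : Finset V}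
    (hQU : Q ⊆ U) (hQ : ∀ x ∈ Q, ∀ y ∈ Q, x ≠ y → G.Adj x y) (hQc : Q.card + 1 = d) : False := by
  refine h.no_near_clique_of hd hQU hQ hQc (t := d / 2) (by omega) ?_ fun S hS hlink hn => ?_
  · have := h.le
    rcases (show d = 5 ∨ d = 6 by omega) with rfl | rfl
    · rw [show Q.card = 4 by omega]; norm_num; omega
    · rw [show Q.card = 5 by omega]; norm_num; omega
  · obtain ⟨W, hW, w, hw, hWc, hWq, hWw⟩ := clique_in_layer (G := G) h.noCyc (by omega) hd' hS
      Finset.sdiff_disjoint le_rfl (by omega) hlink (by omega) hn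
    exact ⟨W, hW, w, hw, by omega, hWq, hWw⟩

/-- There is no smallest counterexample for `d = 4, 5, 6`. -/
theorem no_setup_small_d (h : Setup G U d a) (hd : 4 ≤ d) (hd' : d ≤ 6) : False := by
  classical
  obtain ⟨v, hv, S, hSU, hI, hS3, hvS⟩ := h.exists_claw (by omega)
  have hS : S ⊆ U \ {v} := fun s hs =>
    Finset.mem_sdiff.2 ⟨hSU hs, Finset.notMem_singleton.2 (hvS s hs).ne'⟩
  have hlink : RootLink G {v} S 2 := fun S' hS' hcard => by
    obtain ⟨y, hy, y', hy', hne⟩ := Finset.one_lt_card.1 hcard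
    exact ⟨fun w => decide (w = y), 2, ⟨y, hy, y', hy', by simp [hne.symm]⟩, le_rfl, le_rfl,
      fun p hp q hq _ => ⟨[v], List.nodup_singleton v,
        by simp [(hvS p (hS' hp)).symm, hvS q (hS' hq)], by simp, rfl⟩⟩
  obtain ⟨j, hj1, hj2, hncol⟩ : ∃ j, 1 ≤ j ∧ 2 * j + 2 ≤ d ∧
      ¬ ColorableIn G (layer G (U \ {v}) S j) (d / 2) := by
    by_contra hno
    push Not at hno
    have hS0 : S.Nonempty := Finset.card_pos.1 (by omega)
    have h0 := h.parSum_step hS hS0 hI (i := 0) (t := d / 2) (by omega)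
      fun j h1 h2 => hno j h1 (by omega)
    have e : parSum G (U \ {v}) S 0 = S.card := by simp [parSum]
    rw [e, hS3, Finset.card_singleton] at h0
    have l1 := h.parSum_le hS hI 1
    have := h.le
    rcases (show d = 4 ∨ d = 5 ∨ d = 6 by omega) with rfl | rfl | rfl
    · norm_num at h0; omega
    · norm_num at h0; omega
    · have h1 := h.parSum_step hS hS0 hI (i := 1) (t := 3) (by omega)
        fun j h1 h2 => hno j h1 (by omega)
      have l2 := h.parSum_le hS hI 2
      rw [hS3, Finset.card_singleton] at h1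
      norm_num at h0 h1 l1 l2
      omega
  obtain ⟨W, hW, w, hw, hWc, hWq, hWw⟩ := clique_in_layer (G := G) h.noCyc hd hd' hS
    Finset.sdiff_disjoint hj1 le_rfl hlink hj2 hncol
  have hsub : insert w W ⊆ U := (Finset.insert_subset (layer_mem hS hw)
    fun z hz => layer_mem hS (hW hz)).trans Finset.sdiff_subset
  have hclq : ∀ p ∈ insert w W, ∀ q ∈ insert w W, p ≠ q → G.Adj p q := by
    intro p hp q hq hpq
    rcases Finset.mem_insert.1 hp with rfl | h₁ <;> rcases Finset.mem_insert.1 hq with rfl | h₂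
    exacts [absurd rfl hpq, (hWw q h₂).symm, hWw p h₁, hWq p h₁ q h₂ hpq]
  have hc : (insert w W).card = d / 2 + 2 := by
    rw [Finset.card_insert_of_notMem fun e => (hWw w e).ne rfl, hWc]
  have := h.clique_lt hd hsub hclq
  exact h.no_near_clique (by omega) hd' hsub hclq (by omega)

end Vale.Agent.P048C
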