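import Vale.Agent.P048C.SmallD
import Vale.Agent.P048C.ExistDeep

/-!
# The cycle length eight

For `d = 7` a critical set for four colours in a low layer is a clique on five vertices under one
vertex, so without a clique on six vertices all those layers are four-colourable. Two stages from
a claw then give seven independent vertices, and eight, because a set without independent triples
and without such a clique has at most twelve members.
-/

namespace Vale.Agent.P048C

open Finset Vale.Agent.P048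

variable {V : Type*} [DecidableEq V] {G : SimpleGraph V} {U X R S : Finset V} {a : ℕ}

/-- A layer that needs five colours holds a clique on five vertices under one vertex. -/
theorem clique_in_layer_seven (hno : ¬ Cyc G (7 + 1)) (hS : S ⊆ X) (hXR : Disjoint X R) {Λ j : ℕ}
    (hj : 1 ≤ j) (hlink : RootLink G R S Λ) (hjd : 2 * j + Λ ≤ 7)
    (hncol : ¬ ColorableIn G (layer G X S j) 4) :
    ∃ W ⊆ layer G X S j, ∃ w ∈ layer G X S (j - 1), W.card = 5 ∧
      (∀ x ∈ W, ∀ y ∈ W, x ≠ y → G.Adj x y) ∧ ∀ x ∈ W, G.Adj x w := by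
  obtain ⟨W, hW, hcrit⟩ := exists_critical hncol
  obtain ⟨h1, h2⟩ := critical_in_layer (G := G) hno hS hXR hj hlink hjd (by omega) (by omega)
    hW hcrit
  have hlt := hcrit.lt_card
  rcases h2 with h2 | ⟨w, hw, hadj⟩
  · omega
  · obtain ⟨e, hq⟩ := hcrit.clique_of_card_le (by omega)
    exact ⟨W, hW, w, hw, e, hq, hadj⟩

/-- No clique on six vertices. -/
theorem Setup.clique_le_five (h : Setup G U 7 a) {K : Finset V} (hKU : K ⊆ U)
    (hK : ∀ x ∈ K, ∀ y ∈ K, x ≠ y → G.Adj x y) : K.card ≤ 5 := by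
  by_contra hgt
  have := h.clique_lt (by omega) hKU hK
  have hc : K.card = 6 := by omega
  refine h.no_near_clique_of (by omega) hKU hK (by omega) (t := 4) (by omega) ?_
    fun S hS hlink hn => ?_
  · have := h.le
    rw [hc]; omega
  · obtain ⟨W, hW, w, hw, hWc, hWq, hWw⟩ := clique_in_layer_seven (G := G) h.noCyc hS
      Finset.sdiff_disjoint le_rfl hlink (by omega) hn
    exact ⟨W, hW, w, hw, by omega, hWq, hWw⟩

/-- Low layers are four-colourable. -/
theorem Setup.colorable_layer_seven (h : Setup G U 7 a) (hS : S ⊆ U \ R) {Λ j : ℕ} (hj : 1 ≤ j)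
    (hlink : RootLink G R S Λ) (hjd : 2 * j + Λ ≤ 7) :
    ColorableIn G (layer G (U \ R) S j) 4 := by
  by_contra hn
  obtain ⟨W, hW, w, hw, hWc, hWq, hWw⟩ := clique_in_layer_seven (G := G) h.noCyc hS
    Finset.sdiff_disjoint hj hlink hjd hn
  have hwW : w ∉ W := fun e => (hWw w e).ne rfl
  have := h.clique_le_five (K := insert w W)
    ((Finset.insert_subset (layer_mem hS hw) fun z hz => layer_mem hS (hW hz)).trans
      Finset.sdiff_subset) (by
      intro p hp q hq hpq
      rcases Finset.mem_insert.1 hp with rfl | h₁ <;> rcases Finset.mem_insert.1 hq with rfl | h₂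
      exacts [absurd rfl hpq, (hWw q h₂).symm, hWw p h₁, hWq p h₁ q h₂ hpq])
  rw [Finset.card_insert_of_notMem hwW, hWc] at this
  omega

/-- Without an independent triple a set has at most twelve members. -/
theorem Setup.card_le_twelve (h : Setup G U 7 a) {W : Finset V} (hW : W ⊆ U)
    (hα : AlphaLe G W 2) : W.card ≤ 12 := by
  classical
  by_contra hgt
  have htri : ∀ p ∈ W, ∀ q ∈ W, ∀ r ∈ W, p ≠ q → p ≠ r → q ≠ r →
      G.Adj p q ∨ G.Adj p r ∨ G.Adj q r := by
    intro p hp q hq r hr hpq hpr hqr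
    by_contra hn
    push Not at hn
    have := hα {p, q, r} (by simp [Finset.insert_subset_iff, hp, hq, hr]) (by
      simp only [Indep, Finset.mem_insert, Finset.mem_singleton]
      rintro u (rfl | rfl | rfl) w (rfl | rfl | rfl)
      exacts [G.irrefl, hn.1, hn.2.1, fun e => hn.1 e.symm, G.irrefl, hn.2.2,
        fun e => hn.2.1 e.symm, fun e => hn.2.2 e.symm, G.irrefl])
    rw [Finset.card_eq_three.2 ⟨p, q, r, hpq, hpr, hqr, rfl⟩] at this
    omega
  let N : V → Finset V := fun x => W.filter fun y => G.Adj x y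
  let C : V → Finset V := fun x => (W.filter fun y => ¬ G.Adj x y).erase x
  have hN : ∀ {x y}, y ∈ N x ↔ y ∈ W ∧ G.Adj x y := fun {x y} => Finset.mem_filter
  have hC : ∀ {x y}, y ∈ C x ↔ y ≠ x ∧ y ∈ W ∧ ¬ G.Adj x y := fun {x y} => by simp [C]
  -- the non-neighbours form a clique, so there are at least seven neighbours
  have hCc : ∀ x ∈ W, (C x).card ≤ 5 := fun x hx => by
    refine h.clique_le_five (fun y hy => hW (hC.1 hy).2.1) fun p hp q hq hpq => ?_
    obtain ⟨hpx, hpW, hxp⟩ := hC.1 hp
    obtain ⟨hqx, hqW, hxq⟩ := hC.1 hq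
    rcases htri x hx p hpW q hqW hpx.symm hqx.symm hpq with e | e | e
    exacts [absurd e hxp, absurd e hxq, e]
  have hdeg : ∀ x ∈ W, 7 ≤ (N x).card := fun x hx => by
    have h5 : (C x).card + 1 + (N x).card = W.card := by
      rw [Finset.card_erase_add_one (Finset.mem_filter.2 ⟨hx, G.irrefl⟩), add_comm]
      exact Finset.card_filter_add_card_filter_not (s := W) (fun y => G.Adj x y)
    have := hCc x hx
    omega
  -- so adjacency is transitive in every neighbourhood
  have htrans : ∀ x ∈ W, ∀ p ∈ N x, ∀ q ∈ N x, ∀ r ∈ N x, G.Adj p q → G.Adj q r → p ≠ r →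
      G.Adj p r := fun x hx => by
    refine adj_trans_of_no_path (k := 7) (hdeg x hx)
      (fun p hp q hq r hr => htri p (hN.1 hp).1 q (hN.1 hq).1 r (hN.1 hr).1)
      fun l hl hlN hlc hlen => h.noCyc (cyc_of_list (by omega) x l (by simp [hlen]) ?_ ?_ ?_)
    · exact List.nodup_cons.2 ⟨fun e => (hN.1 (hlN x e)).2.ne rfl, hl⟩
    · exact List.isChain_cons.2 ⟨fun y hy => (hN.1 (hlN y (List.mem_of_head? hy))).2, hlc⟩
    · intro z hz
      cases l with
      | nil => simp at hlen
      | cons b l =>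
        rw [Option.mem_def, List.getLast?_cons_cons] at hz
        exact (hN.1 (hlN z (List.mem_of_getLast? hz))).2.symm
  obtain ⟨x, hx⟩ : W.Nonempty := Finset.card_pos.1 (by omega)
  obtain ⟨y, hy⟩ : (N x).Nonempty := Finset.card_pos.1 (by have := hdeg x hx; omega)
  -- two adjacent neighbours share no non-neighbour of `x`
  have hshare : ∀ p ∈ N x, ∀ q ∈ N x, G.Adj p q → Disjoint (C x ∩ N p) (C x ∩ N q) := by
    intro p hp q hq hpq
    rw [Finset.disjoint_left]
    intro c hc hc'
    rw [Finset.mem_inter] at hc hc'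
    obtain ⟨hcx, hcW, hxc⟩ := hC.1 hc.1
    obtain ⟨hpW, hxp⟩ := hN.1 hp
    obtain ⟨hqW, hxq⟩ := hN.1 hq
    exact hxc (htrans p hpW x (hN.2 ⟨hx, hxp.symm⟩) q (hN.2 ⟨hqW, hpq⟩) c hc.2 hxq
      (hN.1 hc'.2).2 hcx.symm)
  -- the clique of a neighbour `p` inside `N x` has at most four members
  have hclass : ∀ p ∈ N x, 3 ≤ (C x ∩ N p).card := by
    intro p hp
    obtain ⟨hpW, hxp⟩ := hN.1 hp
    let A := (N p) ∩ (N x)
    have hA : (insert x (insert p A)).card ≤ 5 := by
      refine h.clique_le_five (Finset.insert_subset (hW hx) (Finset.insert_subset (hW hpW)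
        fun z hz => hW (hN.1 (Finset.mem_inter.1 hz).1).1)) fun u hu w hw huw => ?_
      simp only [Finset.mem_insert, A, Finset.mem_inter] at hu hw
      rcases hu with rfl | rfl | hu <;> rcases hw with rfl | rfl | hw
      exacts [absurd rfl huw, hxp, (hN.1 hw.2).2, hxp.symm, absurd rfl huw, (hN.1 hw.1).2,
        (hN.1 hu.2).2.symm, (hN.1 hu.1).2.symm,
        htrans x hx u hu.2 p hp w hw.2 (hN.1 hu.1).2.symm (hN.1 hw.1).2 huw]
    rw [Finset.card_insert_of_notMem, Finset.card_insert_of_notMem] at hA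
    rotate_left
    · exact fun e => (hN.1 (Finset.mem_inter.1 e).1).2.ne rfl
    · rw [Finset.mem_insert]
      exact fun e => e.elim hxp.ne fun e => (hN.1 (Finset.mem_inter.1 e).2).2.ne rfl
    have hcov : N p ⊆ insert x (A ∪ (C x ∩ N p)) := by
      intro z hz
      obtain ⟨hzW, hpz⟩ := hN.1 hz
      by_cases hzx : z = x
      · exact Finset.mem_insert.2 (.inl hzx)
      refine Finset.mem_insert.2 (.inr (Finset.mem_union.2 ?_))
      by_cases hxz : G.Adj x z
      · exact .inl (Finset.mem_inter.2 ⟨hz, hN.2 ⟨hzW, hxz⟩⟩)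
      · exact .inr (Finset.mem_inter.2 ⟨hC.2 ⟨hzx, hzW, hxz⟩, hz⟩)
    have h1 := (hdeg p hpW).trans ((Finset.card_le_card hcov).trans ((Finset.card_insert_le _ _).trans
      (Nat.add_le_add_right (Finset.card_union_le _ _) 1)))
    omega
  -- some two neighbours of `x` are adjacent
  obtain ⟨p, hp, q, hq, hpq⟩ : ∃ p ∈ N x, ∃ q ∈ N x, G.Adj p q := by
    have := hdeg x hx
    obtain ⟨p, q, r, hp, hq, hr, hpq, hpr, hqr⟩ := Finset.two_lt_card_iff.1
      (show 2 < (N x).card by omega)
    rcases htri p (hN.1 hp).1 q (hN.1 hq).1 r (hN.1 hr).1 hpq hpr hqr with e | e | e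
    exacts [⟨p, hp, q, hq, e⟩, ⟨p, hp, r, hr, e⟩, ⟨q, hq, r, hr, e⟩]
  have h1 := Finset.card_union_of_disjoint (hshare p hp q hq hpq)
  have h2 : (C x ∩ N p ∪ C x ∩ N q).card ≤ (C x).card :=
    Finset.card_le_card (Finset.union_subset Finset.inter_subset_left Finset.inter_subset_left)
  have := hclass p hp
  have := hclass q hq
  have := hCc x hx
  omega

/-- There is no smallest counterexample for `d = 7`. -/
theorem no_setup_seven (h : Setup G U 7 a) : False := by
  classical
  obtain ⟨v, hv, S, hSU, hI, hS3, hvS⟩ := h.exists_claw (by omega)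
  have hS : S ⊆ U \ {v} := fun s hs =>
    Finset.mem_sdiff.2 ⟨hSU hs, Finset.notMem_singleton.2 (hvS s hs).ne'⟩
  have hlink : RootLink G {v} S 2 := fun S' hS' hcard => by
    obtain ⟨y, hy, y', hy', hne⟩ := Finset.one_lt_card.1 hcard
    exact ⟨fun w => decide (w = y), 2, ⟨y, hy, y', hy', by simp [hne.symm]⟩, le_rfl, le_rfl,
      fun p hp q hq _ => ⟨[v], List.nodup_singleton v,
        by simp [(hvS p (hS' hp)).symm, hvS q (hS' hq)], by simp, rfl⟩⟩
  -- five roots in the first layer
  have h0 := h.parSum_step hS (Finset.card_pos.1 (by omega)) hI (i := 0) (t := 4) (by omega)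
    fun j h1 h2 => h.colorable_layer_seven hS h1 hlink (by omega)
  have e0 : parSum G (U \ {v}) S 0 = S.card := by simp [parSum]
  rw [e0, hS3, Finset.card_singleton, zero_add] at h0
  obtain ⟨I, hIl, hIi, hIc⟩ := exists_alphaIn G (layer G (U \ {v}) S 1)
  have e1 : parSum G (U \ {v}) S 1 = I.card := by simp [parSum, hIc]
  rw [e1] at h0
  obtain ⟨T, hT, hTc⟩ := Finset.exists_subset_card_eq (show 5 ≤ I.card by omega)
  have hpar : ∀ z ∈ T, ∃ y ∈ S, G.Adj y z := fun z hz => by
    obtain ⟨y, hy, e⟩ := exists_par (j := 0) (hIl (hT hz))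
    exact ⟨y, hy, e.symm⟩
  have hlink' : RootLink G ({v} ∪ S) T (2 + 2) :=
    hlink.children (Finset.disjoint_left.2 fun z hz => (Finset.mem_sdiff.1 (hS hz)).2) hpar
  let R' := {v} ∪ S
  have hR : R'.card ≤ 4 := (Finset.card_union_le _ _).trans (by simp [hS3])
  have hT' : T ⊆ U \ R' := fun z hz => by
    obtain ⟨hzU, hzv⟩ := Finset.mem_sdiff.1 (layer_mem hS (hIl (hT hz)))
    refine Finset.mem_sdiff.2 ⟨hzU, ?_⟩
    rw [Finset.mem_union]
    refine fun e => e.elim hzv fun e => Nat.zero_ne_one (layer_inj (G := G) ?_ (hIl (hT hz)))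
    rwa [layer_zero]
  have hTi : Indep G T := fun p hp q hq => hIi p (hT hp) q (hT hq)
  -- every other vertex sees the roots, except twelve
  let Y := (U \ R') \ ball G (U \ R') T 1
  have hYα : AlphaLe G Y 2 := by
    intro J hJ hJi
    have hJY : ∀ z ∈ J, z ∈ U \ R' ∧ z ∉ ball G (U \ R') T 1 := fun z hz =>
      Finset.mem_sdiff.1 (hJ hz)
    have hdis : Disjoint T J := Finset.disjoint_left.2 fun z hz hz' =>
      (hJY z hz').2 (ball_subset_succ 0 hz)
    have := h.alpha (T ∪ J) (Finset.union_subset (hT'.trans Finset.sdiff_subset)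
      fun z hz => (Finset.mem_sdiff.1 (hJY z hz).1).1) fun p hp q hq => by
        rcases Finset.mem_union.1 hp with hp | hp <;> rcases Finset.mem_union.1 hq with hq | hq
        · exact hTi p hp q hq
        · exact not_adj_ball (i := 0) (hJY q hq).1 (hJY q hq).2 hp
        · exact fun e => not_adj_ball (i := 0) (hJY p hp).1 (hJY p hp).2 hq e.symm
        · exact hJi p hp q hq
    rw [Finset.card_union_of_disjoint hdis, hTc] at this
    have := h.le
    omega
  have hY : Y.card ≤ 12 :=
    h.card_le_twelve (Finset.sdiff_subset.trans Finset.sdiff_subset) hYα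
  have hcol := h.colorable_layer_seven hT' le_rfl hlink' (by omega)
  have hl := hcol.card_le_alphaIn.trans (Nat.mul_le_mul_left 4
    ((alphaIn_mono fun z hz => (Finset.mem_sdiff.1 (layer_mem hT' hz)).1).trans h.alphaIn_le_a))
  have hsplit : U.card ≤ R'.card + (T.card + (layer G (U \ R') T 1).card + Y.card) := by
    refine (Finset.card_le_card (t := R' ∪ (T ∪ layer G (U \ R') T 1 ∪ Y)) fun z hz => ?_).trans
      ((Finset.card_union_le _ _).trans (Nat.add_le_add_left ((Finset.card_union_le _ _).trans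
        (Nat.add_le_add_right (Finset.card_union_le _ _) _)) _))
    by_cases hzR : z ∈ R'
    · exact Finset.mem_union_left _ hzR
    refine Finset.mem_union_right _ ?_
    by_cases hzb : z ∈ ball G (U \ R') T 1
    · exact Finset.mem_union_left _ (by rwa [ball_succ] at hzb)
    · exact Finset.mem_union_right _
        (Finset.mem_sdiff.2 ⟨Finset.mem_sdiff.2 ⟨hz, hzR⟩, hzb⟩)
  have := h.card
  have := h.le
  have : 5 ≤ a := hTc ▸ h.alpha T (hT'.trans Finset.sdiff_subset) hTi
  -- fewer than seven leave the other sets smaller still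
  rcases Nat.eq_or_lt_of_le h.le with ha | ha
  · omega
  · have h1 := h.parSum_step hT' (Finset.card_pos.1 (by omega)) hTi (i := 0) (t := 4) (by omega)
      fun j h1 h2 => h.colorable_layer_seven hT' h1 hlink' (by omega)
    have h2 := h.parSum_le hT' hTi 1
    have e : parSum G (U \ R') T 0 = T.card := by simp [parSum]
    rw [e, hTc, zero_add] at h1
    omega

end Vale.Agent.P048C
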