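import Vale.Agent.P048C.Roots
import Vale.Agent.P048C.ExistDeep

/-!
# No minimal counterexample for `8 ≤ d ≤ 10`

Each root of a blob sees, within two steps outside `W`, two nonadjacent
vertices; these pairs are pairwise far apart, so `a` would exceed `d`.
-/

namespace Vale.Agent.P048C

open Finset

variable {V : Type*} [DecidableEq V] {G : SimpleGraph V} {U B Z : Finset V} {own : V → V}
  {d a s : ℕ} {pieces : List (List V)} {ear : Sym2 V → List V}

open Classical in
/-- A vertex outside `W` with few neighbours there contradicts the largest system. -/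
theorem few_in_W (h : Setup G U d a) (hd8 : 8 ≤ d) (hd10 : d ≤ 10) (hB : Blob G d B)
    (hS : EarSys G U B pieces ear) (htwo : ∀ e ∈ pieces.flatMap edgesOf, 2 ≤ (ear e).length)
    (hσ : sigma pieces ear + B.card ≤ d) (hj : NoJoin G U B d pieces ear) {y w x : V}
    (hy : y ∈ U \ (B ∪ innerSet pieces ear)) (hw : w ∈ U \ (B ∪ innerSet pieces ear))
    (hxB : x ∈ B) (hxy : G.Adj x y) (hyw : G.Adj y w)
    (hdeg : d - d / 2 ≤ ((B ∪ innerSet pieces ear).filter fun v => G.Adj w v).card) : False := by
  classical
  have hbt := hB.lt_card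
  have hend : ∀ p ∈ pieces, p.length ≤ 2 → ∀ v ∈ p, IsEnd p v := by
    intro p _ hp v hv
    match p, hp with
    | [u], _ =>
      simp only [List.mem_singleton] at hv
      exact Or.inl (by simp [hv])
    | [u, u'], _ =>
      simp only [List.mem_cons, List.not_mem_nil, or_false] at hv
      rcases hv with rfl | rfl
      exacts [Or.inl rfl, Or.inr rfl]
  have hk := EarSys.mul_le_sigma htwo
  have hlen : ∀ p ∈ pieces, p.length ≤ 2 := by
    intro p hp
    have h1 : (edgesOf p).length ≤ (pieces.flatMap edgesOf).length := by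
      obtain ⟨l₁, l₂, rfl⟩ := List.append_of_mem hp
      simp
      omega
    rw [length_edgesOf] at h1
    omega
  have hmem : ∀ v ∈ B, ∃ p ∈ pieces, v ∈ p := fun v hv => List.mem_flatten.1 ((hS.cover v).2 hv)
  obtain ⟨p, hp, hxp⟩ := hmem x hxB
  -- every neighbour of `w` in `B` lies in the piece of `x`
  have hloc : ∀ v ∈ B, G.Adj w v → v ∈ p := by
    intro v hv hwv
    obtain ⟨p', hp', hvp⟩ := hmem v hv
    by_contra hvp'
    refine hj p hp p' hp' (fun e => hvp' (e ▸ hvp)) x v (hend p hp (hlen p hp) x hxp)
      (hend p' hp' (hlen p' hp') v hvp) [y, w] (by simp [hyw.ne]) (fun z hz => by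
        simp only [List.mem_cons, List.not_mem_nil, or_false] at hz
        rcases hz with rfl | rfl <;> assumption)
      (by simp [hxy, hyw, hwv]) (by simp) (by simp; omega)
  have hI : (innerSet pieces ear).card ≤ sigma pieces ear := card_innerSet_le hS.nodup
  have hsub : ((B ∪ innerSet pieces ear).filter fun v => G.Adj w v) ⊆
      p.toFinset ∪ innerSet pieces ear := by
    intro v hv
    rw [mem_filter, mem_union] at hv
    rcases hv.1 with hvB | hvI
    · exact mem_union_left _ (List.mem_toFinset.2 (hloc v hvB hv.2))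
    · exact mem_union_right _ hvI
  match p, hlen p hp, hp, hsub with
  | [], _, hp, _ => exact hS.ne _ hp rfl
  | [u], _, _, hsub =>
    have := (card_le_card hsub).trans (card_union_le _ _)
    simp at this
    omega
  | [u, v], _, hp, hsub =>
    have he : s(u, v) ∈ pieces.flatMap edgesOf :=
      List.mem_flatMap.2 ⟨_, hp, by simp [edgesOf]⟩
    have hq : (ear s(u, v)).length ≤ sigma pieces ear :=
      List.le_sum_of_mem (List.mem_map.2 ⟨_, he, rfl⟩)
    have h2 := htwo _ he
    obtain ⟨huv, hu, hv⟩ := hS.ne_of_step he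
    by_cases hfull : sigma pieces ear + B.card < d
    · have := (card_le_card hsub).trans (card_union_le _ _)
      have := card_insert_le u ({v} : Finset V)
      simp [huv] at *
      omega
    -- the ear cannot be lengthened by `w`
    obtain ⟨x₁, x₂, hxe, hc⟩ := hS.ear_chain _ he
    obtain ⟨c, tl, hQ⟩ := List.exists_cons_of_ne_nil (hS.ear_ne _ he)
    have hcI : c ∈ innerSet pieces ear := mem_innerSet.2 ⟨_, he, by simp [hQ]⟩
    have hx₁ : x₁ = u ∨ x₁ = v := by
      have : x₁ ∈ s(u, v) := hxe ▸ Sym2.mem_mk_left x₁ x₂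
      simpa using this
    have hx₁₂ := hS.ne_of_step (hxe ▸ he)
    have hone : ¬ (G.Adj w x₁ ∧ G.Adj w c) := by
      rintro ⟨h1, h2⟩
      obtain ⟨hne, hb1, hb2⟩ := hx₁₂
      have hwW := (mem_sdiff.1 hw).2
      have hone : (pieces.flatMap edgesOf).length = 1 := by
        have := List.length_pos_of_mem he
        omega
      have hσQ : sigma pieces ear = (ear s(u, v)).length := by
        obtain ⟨e₀, he₀⟩ := List.length_eq_one_iff.1 hone
        rw [he₀, List.mem_singleton] at he
        simp [sigma, he₀, he]
      refine single_ear h (by omega) hB hb1 hb2 hne (P := w :: ear s(u, v)) ?_ ?_ ?_ ?_ ?_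
      · refine List.nodup_cons.2 ⟨fun hin => hwW ?_, hS.ear_nodup _ he⟩
        exact mem_union_right _ (mem_innerSet.2 ⟨_, he, hin⟩)
      · intro z hz
        rcases List.mem_cons.1 hz with rfl | hz
        · exact fun hzB => hwW (mem_union_left _ hzB)
        · exact (hS.ear_mem _ he z hz).2
      · rw [hQ] at hc ⊢
        simp only [List.cons_append, List.isChain_cons_cons] at hc ⊢
        exact ⟨h1.symm, h2, hc.2⟩
      · simp only [List.length_cons]
        omega
      · simp only [List.length_cons]
        omega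
    have hx₁p : x₁ ∈ [u, v].toFinset ∪ innerSet pieces ear := mem_union_left _ (by simpa using hx₁)
    have hlt : ((B ∪ innerSet pieces ear).filter fun v => G.Adj w v).card <
        ([u, v].toFinset ∪ innerSet pieces ear).card := by
      refine card_lt_card ((ssubset_iff_of_subset hsub).2 ?_)
      by_cases h1 : G.Adj w x₁
      · exact ⟨c, mem_union_right _ hcI, fun hc' => hone ⟨h1, (mem_filter.1 hc').2⟩⟩
      · exact ⟨x₁, hx₁p, fun hx' => h1 (mem_filter.1 hx').2⟩
    have := card_union_le [u, v].toFinset (innerSet pieces ear)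
    have := List.toFinset_card_le [u, v]
    simp at *
    omega
  | _ :: _ :: _ :: _, hl, _, _ => simp at hl

/-- Two nonadjacent vertices within two steps of a root. -/
theorem exists_pair (h : Setup G U d a) (hd8 : 8 ≤ d) (hd10 : d ≤ 10) (hB : Blob G d B)
    (hS : EarSys G U B pieces ear) (htwo : ∀ e ∈ pieces.flatMap edgesOf, 2 ≤ (ear e).length)
    (hσ : sigma pieces ear + B.card ≤ d)
    (hWc : (B ∪ innerSet pieces ear).card = B.card + sigma pieces ear)
    (hj : NoJoin G U B d pieces ear)
    (hR : RootSys G U B d s (B ∪ innerSet pieces ear) Z own) {y : V} (hy : y ∈ Z) :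
    ∃ P ⊆ U \ (B ∪ innerSet pieces ear), Indep G P ∧ P.card = 2 ∧
      ∀ z ∈ P, Within G (U \ (B ∪ innerSet pieces ear)) y z 2 := by
  classical
  set W := B ∪ innerSet pieces ear with hW
  have hyX := hR.subZ hy
  obtain ⟨hxB, hyx⟩ := hR.adj y hy
  let M := (U \ W).filter fun w => G.Adj y w
  have hM : ∀ w ∈ M, w ∈ U \ W ∧ G.Adj y w := fun w hw => mem_filter.1 hw
  by_cases hpair : ∃ w ∈ M, ∃ w' ∈ M, w ≠ w' ∧ ¬ G.Adj w w'
  · obtain ⟨w, hw, w', hw', hne, hn⟩ := hpair
    refine ⟨{w, w'}, by simp [insert_subset_iff, (hM w hw).1, (hM w' hw').1], ?_, card_pair hne,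
      fun z hz => ?_⟩
    · intro p hp q hq
      simp only [mem_insert, mem_singleton] at hp hq
      rcases hp with rfl | rfl <;> rcases hq with rfl | rfl
      exacts [G.irrefl, hn, fun e => hn e.symm, G.irrefl]
    · simp only [mem_insert, mem_singleton] at hz
      rcases hz with rfl | rfl
      exacts [(Within.of_adj hyX (hM _ hw).1 (hM _ hw).2).mono (by omega),
        (Within.of_adj hyX (hM _ hw').1 (hM _ hw').2).mono (by omega)]
  push Not at hpair
  by_cases hout : ∃ w ∈ M, ∃ u ∈ U \ W, u ∉ M ∧ u ≠ y ∧ G.Adj w u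
  · obtain ⟨w, hw, u, hu, huM, huy, hwu⟩ := hout
    refine ⟨{y, u}, by simp [insert_subset_iff, hyX, hu], ?_, card_pair huy.symm, fun z hz => ?_⟩
    · intro p hp q hq
      have hn : ¬ G.Adj y u := fun e => huM (mem_filter.2 ⟨hu, e⟩)
      simp only [mem_insert, mem_singleton] at hp hq
      rcases hp with rfl | rfl <;> rcases hq with rfl | rfl
      exacts [G.irrefl, hn, fun e => hn e.symm, G.irrefl]
    · simp only [mem_insert, mem_singleton] at hz
      rcases hz with rfl | rfl
      exacts [within_self hyX 2, (Within.of_adj hyX (hM _ hw).1 (hM _ hw).2).trans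
        (Within.of_adj (hM _ hw).1 hu hwu)]
  push Not at hout
  exfalso
  -- `y` and `M` form a clique with no other neighbours outside `W`
  let K := insert y M
  have hKc : ∀ p ∈ K, ∀ q ∈ K, p ≠ q → G.Adj p q := by
    intro p hp q hq hne
    rcases mem_insert.1 hp with rfl | hp <;> rcases mem_insert.1 hq with rfl | hq
    exacts [absurd rfl hne, (hM _ hq).2, (hM _ hp).2.symm, hpair p hp q hq hne]
  have hKX : K ⊆ U \ W := insert_subset hyX (filter_subset _ _)
  have hyM : y ∉ M := fun e => (hM y e).2.ne rfl
  have hKcard : K.card = M.card + 1 := card_insert_of_notMem hyM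
  have hdeg : ∀ z ∈ K, d ≤ M.card + (W.filter fun v => G.Adj z v).card := by
    intro z hz
    refine (h.deg z (mem_sdiff.1 (hKX hz)).1).trans ?_
    have hsub : (U.filter fun v => G.Adj z v) ⊆ K.erase z ∪ W.filter fun v => G.Adj z v := by
      intro v hv
      rw [mem_filter] at hv
      by_cases hvW : v ∈ W
      · exact mem_union_right _ (mem_filter.2 ⟨hvW, hv.2⟩)
      refine mem_union_left _ (mem_erase.2 ⟨hv.2.ne', ?_⟩)
      have hvX : v ∈ U \ W := mem_sdiff.2 ⟨hv.1, hvW⟩
      rcases mem_insert.1 hz with rfl | hzM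
      · exact mem_insert_of_mem (mem_filter.2 ⟨hvX, hv.2⟩)
      · by_cases hvy : v = y
        · exact hvy ▸ mem_insert_self y M
        · by_cases hvM : v ∈ M
          · exact mem_insert_of_mem hvM
          · exact absurd hv.2 (hout z hzM v hvX hvM hvy)
    have := (card_le_card hsub).trans (card_union_le _ _)
    rw [card_erase_of_mem hz, hKcard] at this
    unfold degIn
    omega
  rcases Nat.lt_or_ge M.card (d / 2 + 1) with hm | hm
  · rcases M.eq_empty_or_nonempty with hM0 | ⟨w, hw⟩
    · -- `y` sees all of `W`, which is then full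
      have h1 := hdeg y (mem_insert_self y M)
      rw [hM0, card_empty] at h1
      have hall : W.filter (fun v => G.Adj y v) = W :=
        eq_of_subset_of_card_le (filter_subset _ _) (by omega)
      rw [hall] at h1
      have hbt := hB.lt_card
      have hk := EarSys.mul_le_sigma htwo
      have hc := hS.count
      rcases pieces with _ | ⟨p, _ | ⟨p', rest⟩⟩
      · simp at hc; omega
      · simp at hc hk; omega
      · obtain ⟨c, tl, rfl⟩ := List.exists_cons_of_ne_nil (hS.ne p (by simp))
        obtain ⟨c', tl', rfl⟩ := List.exists_cons_of_ne_nil (hS.ne p' (by simp))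
        have hadj : ∀ v ∈ B, G.Adj y v := fun v hv => by
          have : v ∈ W := mem_union_left _ hv
          rw [← hall] at this
          exact (mem_filter.1 this).2
        have hcB : c ∈ B := (hS.cover c).1 (by simp)
        have hcB' : c' ∈ B := (hS.cover c').1 (by simp)
        obtain ⟨hyU, hyW⟩ := mem_sdiff.1 hyX
        obtain ⟨h', hσ'⟩ := hS.join (List.Perm.refl _) (x := c) (x' := c') rfl rfl (l := [y])
          (by simp) (List.nodup_singleton y)
          (by simp only [List.mem_singleton, forall_eq]
              exact ⟨hyU, fun e => hyW (mem_union_left _ e)⟩)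
          (fun e he z hz hze => hyW (mem_union_right _
            (mem_innerSet.2 ⟨e, he, List.mem_singleton.1 hz ▸ hze⟩)))
          (by simp [(hadj c hcB).symm, hadj c' hcB'])
        refine sys_cycle h hB h' (fun e he => ?_) (by simp at hσ' ⊢; omega)
        rcases eq_or_ne e s(c, c') with rfl | hne
        · have := hB.2.1
          simp
          omega
        · rw [Function.update_of_ne hne]
          have he' := (steps_join (List.Perm.refl _) (x := c) (x' := c') rfl rfl e he).resolve_left hne
          have : (ear e).length ≤ sigma ((c :: tl) :: (c' :: tl') :: rest) ear :=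
            List.le_sum_of_mem (List.mem_map.2 ⟨e, he', rfl⟩)
          omega
    · refine few_in_W h hd8 hd10 hB hS htwo hσ hj hyX (hM w hw).1 hxB hyx.symm (hM w hw).2 ?_
      have := hdeg w (mem_insert_of_mem hw)
      rw [← hW]
      convert (show d - d / 2 ≤ (W.filter fun v => G.Adj w v).card by omega)
  · -- a blob attached to `W` at a single vertex
    have honly : ∀ w ∈ M, ∀ v ∈ W, G.Adj w v → v = own y := by
      intro w hw v hv hwv
      by_contra hne
      obtain ⟨H, hsH, hHK, hHc⟩ := exists_subsuperset_card_eq (s := ({y, w} : Finset V)) (t := K)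
        (n := d / 2 + 2) (by simp [insert_subset_iff, K, hw]) (card_le_two.trans (by omega)) (by omega)
      refine hR.touch H ⟨card_pos.1 (by omega), by omega, fun z hz => ?_⟩
        (hHK.trans hKX) y (hsH (by simp)) w (hsH (by simp)) (hM w hw).2.ne (own y)
        (mem_union_left _ hxB) v hv (Ne.symm hne) hyx hwv
      have : H.erase z ⊆ H.filter fun v => G.Adj z v := fun v hv => by
        rw [mem_erase] at hv
        exact mem_filter.2 ⟨hv.2, hKc z (hHK hz) v (hHK hv.2) hv.1.symm⟩
      have := card_le_card this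
      rw [card_erase_of_mem hz] at this
      unfold degIn
      omega
    have hW1 : ∀ w ∈ M, (W.filter fun v => G.Adj w v).card ≤ 1 := fun w hw =>
      card_le_one.2 fun p hp q hq => by
        rw [mem_filter] at hp hq
        rw [honly w hw p hp.1 hp.2, honly w hw q hq.1 hq.2]
    obtain ⟨w₀, hw₀⟩ : M.Nonempty := card_pos.1 (by omega)
    have := hdeg w₀ (mem_insert_of_mem hw₀)
    have := hW1 w₀ hw₀
    refine h.noCyc (P048.cyc_of_clique (Q := if d ≤ M.card then K else insert (own y) K)
      (by omega) ?_ ?_)
    · split_ifs with hle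
      · exact hKc
      · have hown : ∀ z ∈ K, G.Adj z (own y) := by
          intro z hz
          rcases mem_insert.1 hz with rfl | hzM
          · exact hyx
          · obtain ⟨v, hv⟩ : (W.filter fun v => G.Adj z v).Nonempty := card_pos.1 (by
              have := hdeg z hz; omega)
            rw [mem_filter] at hv
            exact honly z hzM v hv.1 hv.2 ▸ hv.2
        intro p hp q hq hne
        rcases mem_insert.1 hp with rfl | hp <;> rcases mem_insert.1 hq with rfl | hq
        exacts [absurd rfl hne, (hown q hq).symm, hown p hp, hKc p hp q hq hne]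
    · split_ifs with hle
      · omega
      · have : own y ∉ K := fun e => (mem_sdiff.1 (hKX e)).2 (mem_union_left _ hxB)
        rw [card_insert_of_notMem this]
        omega

/-- **No minimal counterexample for `8 ≤ d ≤ 10`.** -/
theorem no_setup_8_10 (h : Setup G U d a) (hd8 : 8 ≤ d) (hd10 : d ≤ 10) : False := by
  classical
  obtain ⟨B, hBU, hB⟩ := exists_blob_eight h hd8
  obtain ⟨pieces, ear, Z, own, hS, htwo, hσ, hWc, hj, hZc, hR⟩ := roots_sys h (by omega) hB hBU
  have hpair : ∀ y, ∃ P ⊆ U \ (B ∪ innerSet pieces ear), Indep G P ∧ (y ∈ Z → P.card = 2) ∧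
      ∀ z ∈ P, Within G (U \ (B ∪ innerSet pieces ear)) y z 2 := by
    intro y
    by_cases hy : y ∈ Z
    · obtain ⟨P, h1, h2, h3, h4⟩ := exists_pair h hd8 hd10 hB hS htwo hσ hWc hj hR hy
      exact ⟨P, h1, h2, fun _ => h3, h4⟩
    · exact ⟨∅, empty_subset _, by simp [Indep], fun e => absurd e hy, by simp⟩
  choose P hPX hPI hPc hPw using hpair
  have hfar : ∀ y ∈ Z, ∀ y' ∈ Z, y ≠ y' → ∀ p ∈ P y, ∀ q ∈ P y', p ≠ q ∧ ¬ G.Adj p q :=
    fun y hy y' hy' hne p hp q hq => hR.apart hy hy' hne (by omega) (hPw y p hp) (hPw y' q hq)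
  have hI : Indep G (Z.biUnion P) := by
    intro p hp q hq
    obtain ⟨y, hy, hpy⟩ := mem_biUnion.1 hp
    obtain ⟨y', hy', hqy⟩ := mem_biUnion.1 hq
    rcases eq_or_ne y y' with rfl | hne
    · exact hPI y p hpy q hqy
    · exact (hfar y hy y' hy' hne p hpy q hqy).2
  have hcard : (Z.biUnion P).card = Z.card * 2 := by
    rw [card_biUnion fun y hy y' hy' hne => disjoint_left.2 fun p hp hp' =>
      (hfar y hy y' hy' hne p hp p hp').1 rfl]
    exact (sum_congr rfl fun y hy => hPc y hy).trans (by simp)
  have := h.alpha (Z.biUnion P) (biUnion_subset.2 fun y _ => (hPX y).trans sdiff_subset) hI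
  have := hS.count
  have := EarSys.mul_le_sigma htwo
  have := hB.lt_card
  have := h.le
  omega

omit [DecidableEq V] in
/-- The cases `d = 8, 9`. -/
theorem no_setup_89 (h : Setup G U d a) (hd8 : 8 ≤ d) (hd9 : d ≤ 9) : False := by
  classical
  exact no_setup_8_10 h hd8 (by omega)

end Vale.Agent.P048C
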