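import Vale.Agent.P048C.Final
import Vale.Agent.P048C.Main
import Vale.Agent.P048C.MainTwo
import Vale.Agent.P048C.MainLow
import Vale.Agent.P048C.EngineOne
import Vale.Agent.P048C.Exist
import Vale.Agent.P048C.ExistDeep
import Vale.Agent.P048C.SmallA
import Vale.Agent.P048C.SmallD
import Vale.Agent.P048C.SmallD7
import Vale.Agent.P048C.SmallD89

/-!
# No smallest counterexample at all

The cases: `d = 3` (then `a ≤ 3`), `d = 4, …, 7`, `d = 8, 9, 10`, `d = 11, 12` by the table with
the engine that gains in the first layer, `d = 13, …, 25` by two radii, `d ≥ 26` in general.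
-/

namespace Vale.Agent.P048C

open Finset

variable {V : Type*} [DecidableEq V] {G : SimpleGraph V} {U B : Finset V} {d a : ℕ}

/-- The engine with the gain, around the roots of a blob. -/
theorem engineOne_holds (h : Setup G U d a) (hd : 6 ≤ d) (hB : Blob G d B) :
    EngineOne G U B d := by
  intro W Z S own s e K hR he hclq hSZ hS0 hK1 hK hclean
  obtain ⟨A, h0, hI, hrec⟩ := engine_one h (R := W) (S := S) (by omega) (hSZ.trans hR.subZ) hS0
    (fun x hx y hy => hR.indep (by omega) x (hSZ hx) y (hSZ hy))
    (hR.link' (by omega) hB he hclq hSZ) (Λ := 4 - e) (K := K) (by omega)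
    (fun z hz z' hz' hne n hn => hR.far z (hSZ hz) z' (hSZ hz') hne n (by omega)) hclean
  refine ⟨A, h0, hI, ?_, fun i _ hi => hrec i hi⟩
  have h1 := hrec 0 (by omega)
  rw [h0, zero_add] at h1
  have e1 : (d - (d / 2 + 1)) * S.card + S.card * (d / 2) = (d - 1) * S.card := by
    rw [Nat.mul_comm S.card, ← Nat.add_mul]
    congr 1
    omega
  rw [Nat.add_mul, one_mul] at h1
  omega

/-- **No smallest counterexample.** -/
theorem no_setup_all (hd : 3 ≤ d) (h : Setup G U d a) : False := by
  have := h.le
  by_cases h3 : d = 3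
  · exact no_setup_small_a h (by omega) hd
  by_cases h6 : d ≤ 6
  · exact no_setup_small_d h (by omega) h6
  by_cases h7 : d = 7
  · subst h7; exact no_setup_seven h
  by_cases h10 : d ≤ 10
  · exact no_setup_8_10 h (by omega) h10
  by_cases h25 : d ≤ 25
  · obtain ⟨B, hBU, hB⟩ := exists_blob_eight h (by omega)
    by_cases h13 : 13 ≤ d
    · exact no_setup_mid h h13 h25 hB hBU
    · obtain ⟨-, -, -, -, -, t11, t12⟩ := tableNear_low
      have hskip : ∀ W : Finset V, B ⊆ W → W.card ≤ d → ¬ (B.card = 0 ∧ W.card = d) :=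
        fun W _ _ hc => absurd hc.1 (card_pos.2 hB.1).ne'
      by_cases h11 : d = 11
      · subst h11
        exact no_setup_of_table h (by omega) (cap := 11) (by omega) t11 hB hBU
          (engineOne_holds h (by omega) hB) hskip
      · obtain rfl : d = 12 := by omega
        exact no_setup_of_table h (by omega) (cap := 12) (by omega) t12 hB hBU
          (engineOne_holds h (by omega) hB) hskip
  · refine no_setup h (by omega) (exists_blob h (by omega)) fun B hBU hB s hs => ?_
    obtain ⟨W, Z, own, hR, hc⟩ := roots h (by omega) hB hBU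
    have hW := hR.cardW
    have hb := hB.lt_card
    obtain ⟨Z', hZ', hZc⟩ := exists_subset_card_eq (s := Z) (n := s) (by omega)
    exact ⟨W, Z', own, hR.subB, hR.subU, hR.cardW, hZ'.trans hR.subZ, hZc, hR.inj.mono hZ',
      fun z hz => hR.adj z (hZ' hz), fun z hz z' hz' => hR.far z (hZ' hz) z' (hZ' hz'), hR.touch⟩

end Vale.Agent.P048C
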