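import Vale.Agent.P048C.Alpha

/-!
# Breadth-first layers and cycles closed through the tree

`layer G X S j` is the set of vertices at distance `j` from `S` in the graph on `S ∪ X`. Two
vertices of one layer joined inside it by a path close a cycle through their tree paths, either at
their first common ancestor or through a connection of their roots inside `R`.
-/

namespace Vale.Agent.P048C

open Finset Vale.Agent.P048

variable {V : Type*} {G : SimpleGraph V} {X R S : Finset V}

open Classical in
/-- Vertices within distance `j` of `S` inside `X`. -/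
noncomputable def ball (G : SimpleGraph V) (X S : Finset V) : ℕ → Finset V
  | 0 => S
  | j + 1 => ball G X S j ∪ X.filter fun x => ∃ y ∈ ball G X S j, G.Adj x y

open Classical in
/-- Vertices at distance exactly `j`. -/
noncomputable def layer (G : SimpleGraph V) (X S : Finset V) : ℕ → Finset V
  | 0 => S
  | j + 1 => ball G X S (j + 1) \ ball G X S j

theorem layer_zero : layer G X S 0 = S := rfl

theorem layer_subset (j : ℕ) : layer G X S j ⊆ ball G X S j := by
  cases j with
  | zero => exact le_rfl
  | succ j => classical exact Finset.sdiff_subset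

theorem ball_subset_succ (j : ℕ) : ball G X S j ⊆ ball G X S (j + 1) := by
  classical exact Finset.subset_union_left

theorem ball_mono {i j : ℕ} (h : i ≤ j) : ball G X S i ⊆ ball G X S j := by
  induction h with
  | refl => exact le_rfl
  | step _ ih => exact ih.trans (ball_subset_succ _)

theorem ball_succ [DecidableEq V] (j : ℕ) :
    ball G X S (j + 1) = ball G X S j ∪ layer G X S (j + 1) := by
  ext x
  simp only [layer, Finset.mem_union, Finset.mem_sdiff]
  by_cases h : x ∈ ball G X S j
  · simp [h, ball_subset_succ j h]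
  · simp [h]

theorem disjoint_ball_layer (j : ℕ) : Disjoint (ball G X S j) (layer G X S (j + 1)) := by
  classical
  exact Finset.disjoint_sdiff

theorem ball_subset (hS : S ⊆ X) : ∀ j, ball G X S j ⊆ X
  | 0 => hS
  | j + 1 => by
    classical
    exact Finset.union_subset (ball_subset hS j) (Finset.filter_subset _ _)

theorem layer_mem (hS : S ⊆ X) {j : ℕ} {x : V} (hx : x ∈ layer G X S j) : x ∈ X :=
  ball_subset hS j (layer_subset j hx)

theorem layer_inj {x : V} {i j : ℕ} (hi : x ∈ layer G X S i) (hj : x ∈ layer G X S j) : i = j := by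
  have key : ∀ i j, i < j → x ∈ layer G X S i → x ∈ layer G X S j → False := by
    intro i j h hi hj
    obtain ⟨k, rfl⟩ : ∃ k, j = k + 1 := ⟨j - 1, by omega⟩
    exact Finset.disjoint_left.1 (disjoint_ball_layer k)
      (ball_mono (show i ≤ k by omega) (layer_subset i hi)) hj
  rcases lt_trichotomy i j with h | h | h
  · exact (key i j h hi hj).elim
  · exact h
  · exact (key j i h hj hi).elim

/-- Nothing beyond layer `i + 1` meets `ball i`. -/
theorem not_adj_ball {i : ℕ} {x y : V} (hxX : x ∈ X) (hx : x ∉ ball G X S (i + 1))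
    (hy : y ∈ ball G X S i) : ¬ G.Adj y x := by
  classical
  intro e
  refine hx ?_
  rw [ball, Finset.mem_union, Finset.mem_filter]
  exact .inr ⟨hxX, y, hy, e.symm⟩

theorem exists_par {j : ℕ} {x : V} (hx : x ∈ layer G X S (j + 1)) :
    ∃ y ∈ layer G X S j, G.Adj x y := by
  classical
  rw [layer, Finset.mem_sdiff, ball, Finset.mem_union, Finset.mem_filter] at hx
  rcases hx with ⟨h | ⟨hxX, y, hy, e⟩, hnot⟩
  · exact absurd h hnot
  refine ⟨y, ?_, e⟩
  cases j with
  | zero => exact hy
  | succ j =>
    rw [layer, Finset.mem_sdiff]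
    exact ⟨hy, fun h => not_adj_ball hxX hnot h e.symm⟩

/-- A chosen neighbour one layer down; a fixed point elsewhere. -/
noncomputable def par (G : SimpleGraph V) (X S : Finset V) (x : V) : V :=
  open Classical in
  if h : ∃ j, x ∈ layer G X S (j + 1) then (exists_par h.choose_spec).choose else x

theorem par_spec {j : ℕ} {x : V} (hx : x ∈ layer G X S (j + 1)) :
    par G X S x ∈ layer G X S j ∧ G.Adj x (par G X S x) := by
  classical
  have h : ∃ j, x ∈ layer G X S (j + 1) := ⟨j, hx⟩
  have e : h.choose = j := by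
    have := layer_inj h.choose_spec hx
    omega
  simp only [par, dif_pos h]
  have := (exists_par h.choose_spec).choose_spec
  exact ⟨e ▸ this.1, this.2⟩

/-- The ancestor `h` layers down. -/
noncomputable def anc (G : SimpleGraph V) (X S : Finset V) (h : ℕ) (x : V) : V :=
  (par G X S)^[h] x

theorem anc_zero (x : V) : anc G X S 0 x = x := rfl

theorem anc_succ (h : ℕ) (x : V) : anc G X S (h + 1) x = par G X S (anc G X S h x) :=
  Function.iterate_succ_apply' _ _ _

theorem anc_mem {j : ℕ} {x : V} (hx : x ∈ layer G X S j) :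
    ∀ h ≤ j, anc G X S h x ∈ layer G X S (j - h)
  | 0, _ => by simpa [anc_zero] using hx
  | h + 1, hh => by
    have := anc_mem hx h (by omega)
    rw [show j - h = j - (h + 1) + 1 by omega] at this
    rw [anc_succ]
    exact (par_spec this).1

theorem anc_adj {j h : ℕ} {x : V} (hx : x ∈ layer G X S j) (hh : h < j) :
    G.Adj (anc G X S h x) (anc G X S (h + 1) x) := by
  have := anc_mem hx h hh.le
  rw [show j - h = j - (h + 1) + 1 by omega] at this
  rw [anc_succ]
  exact (par_spec this).2

theorem anc_congr {x y : V} {h h' : ℕ} (hh : h ≤ h') (e : anc G X S h x = anc G X S h y) :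
    anc G X S h' x = anc G X S h' y := by
  induction hh with
  | refl => exact e
  | step _ ih => rw [anc_succ, anc_succ, ih]

/-- The tree path above `x`, namely its ancestors `1, …, h`. -/
noncomputable def up (G : SimpleGraph V) (X S : Finset V) (h : ℕ) (x : V) : List V :=
  seg (fun i => anc G X S i x) 0 h

theorem mem_up {h : ℕ} {x z : V} :
    z ∈ up G X S h x ↔ ∃ q, 0 < q ∧ q ≤ h ∧ anc G X S q x = z := mem_seg

theorem up_zero (x : V) : up G X S 0 x = [] := rfl

theorem up_succ (h : ℕ) (x : V) :
    up G X S (h + 1) x = up G X S h x ++ [anc G X S (h + 1) x] := by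
  simp [up, seg, List.range_succ, add_comm]

theorem getLast_up {h : ℕ} {x : V} : (x :: up G X S h x).getLast? = some (anc G X S h x) :=
  getLast_cons_seg (fun i => anc G X S i x) (Nat.zero_le h)

theorem length_up (h : ℕ) (x : V) : (up G X S h x).length = h := by simp [up, length_seg]

theorem up_layer {j h : ℕ} {x z : V} (hx : x ∈ layer G X S j) (hh : h ≤ j)
    (hz : z ∈ up G X S h x) : ∃ i < j, z ∈ layer G X S i := by
  obtain ⟨q, h0, hq, rfl⟩ := mem_up.1 hz
  exact ⟨j - q, by omega, anc_mem hx q (hq.trans hh)⟩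

theorem up_nodup {j : ℕ} {x : V} (hx : x ∈ layer G X S j) :
    ∀ h ≤ j, (up G X S h x).Nodup
  | 0, _ => by simp [up_zero]
  | h + 1, hh => by
    rw [up_succ, List.nodup_append]
    refine ⟨up_nodup hx h (by omega), List.nodup_singleton _, fun a ha b hb e => ?_⟩
    rw [List.mem_singleton] at hb
    obtain ⟨q, h0, hq, rfl⟩ := mem_up.1 ha
    have := layer_inj (anc_mem hx q (by omega)) (e ▸ hb ▸ anc_mem hx (h + 1) hh)
    omega

theorem up_chain {j : ℕ} {x : V} (hx : x ∈ layer G X S j) :
    ∀ h ≤ j, (x :: up G X S h x).IsChain G.Adj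
  | 0, _ => by simp [up_zero]
  | h + 1, hh => by
    rw [up_succ, ← List.cons_append, List.isChain_append]
    refine ⟨up_chain hx h (by omega), List.isChain_singleton _, fun a ha b hb => ?_⟩
    rw [Option.mem_def, getLast_up, Option.some.injEq] at ha
    simp only [List.head?_cons, Option.mem_some] at hb
    exact ha ▸ hb ▸ anc_adj hx hh

theorem up_disjoint {j h h' : ℕ} {x y : V} (hx : x ∈ layer G X S j) (hy : y ∈ layer G X S j)
    (hh : h ≤ j) (hh' : h' ≤ j) (hne : anc G X S h' x ≠ anc G X S h' y) :
    ∀ z ∈ up G X S h y, z ∉ up G X S h' x := by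
  intro z hz hz'
  obtain ⟨q, -, hq, rfl⟩ := mem_up.1 hz
  obtain ⟨q', -, hq', e⟩ := mem_up.1 hz'
  have := layer_inj (anc_mem hx q' (hq'.trans hh')) (e ▸ anc_mem hy q (hq.trans hh))
  obtain rfl : q' = q := by omega
  exact hne (anc_congr hq' e)

/-- Two paths between `x` and `y` with disjoint insides form a cycle. -/
theorem cyc_of_two_paths [DecidableEq V] {x y : V} {P Q : List V} {m : ℕ} (hm : 3 ≤ m)
    (hPn : P.Nodup) (hQn : Q.Nodup) (hPc : P.IsChain G.Adj) (hQc : Q.IsChain G.Adj)
    (hPh : P.head? = some x) (hPl : P.getLast? = some y) (hQh : Q.head? = some y)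
    (hQl : Q.getLast? = some x) (hxy : x ≠ y) (hd : ∀ z ∈ P, z ∈ Q → z = x ∨ z = y)
    (hlen : P.length + Q.length = m + 2) : Cyc G m := by
  obtain ⟨P', rfl⟩ : ∃ P', P = x :: P' := by
    cases P with
    | nil => simp at hPh
    | cons a t => exact ⟨t, by simp only [List.head?_cons, Option.some.injEq] at hPh; rw [hPh]⟩
  obtain ⟨Q', rfl⟩ : ∃ Q', Q = y :: Q' := by
    cases Q with
    | nil => simp at hQh
    | cons a t => exact ⟨t, by simp only [List.head?_cons, Option.some.injEq] at hQh; rw [hQh]⟩
  obtain ⟨Q'', rfl⟩ : ∃ Q'', Q' = Q'' ++ [x] := by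
    rcases List.eq_nil_or_concat Q' with rfl | ⟨t, b, rfl⟩
    · simp only [List.getLast?_singleton, Option.some.injEq] at hQl
      exact absurd hQl.symm hxy
    · rw [List.concat_eq_append, ← List.cons_append, List.getLast?_concat, Option.some.injEq] at hQl
      exact ⟨t, by rw [List.concat_eq_append, hQl]⟩
  rw [← List.cons_append, List.isChain_append] at hQc
  obtain ⟨hc1, -, hcx⟩ := hQc
  rw [← List.cons_append, List.nodup_append] at hQn
  obtain ⟨hn1, -, hnx⟩ := hQn
  refine cyc_of_list hm x (P' ++ Q'') (by simp at hlen ⊢; omega) ?_ ?_ ?_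
  · rw [← List.cons_append, List.nodup_append]
    refine ⟨hPn, (List.nodup_cons.1 hn1).2, fun a ha b hb e => ?_⟩
    subst e
    rcases hd a ha (by simp [hb]) with rfl | rfl
    · exact hnx a (List.mem_cons_of_mem _ hb) a (by simp) rfl
    · exact (List.nodup_cons.1 hn1).1 hb
  · rw [← List.cons_append, List.isChain_append]
    refine ⟨hPc, (List.isChain_cons.1 hc1).2, fun a ha b hb => ?_⟩
    rw [Option.mem_def, hPl, Option.some.injEq] at ha
    exact ha ▸ (List.isChain_cons.1 hc1).1 b hb
  · intro z hz
    refine hcx z ?_ x (by simp)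
    rw [← List.cons_append, List.getLast?_append, hPl, Option.mem_def] at hz
    rw [Option.mem_def, List.getLast?_cons]
    cases hq : Q''.getLast? with
    | none => simpa [hq] using hz
    | some u => simpa [hq] using hz

theorem cons_up_nodup {j h : ℕ} {x : V} (hx : x ∈ layer G X S j) (hh : h ≤ j) :
    (x :: up G X S h x).Nodup := by
  refine List.nodup_cons.2 ⟨fun hm => ?_, up_nodup hx h hh⟩
  obtain ⟨i, hi, hxi⟩ := up_layer hx hh hm
  have := layer_inj hxi hx
  omega

theorem head?_reverse_up (h : ℕ) (x : V) :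
    (x :: up G X S h x).reverse.head? = some (anc G X S h x) := by
  rw [List.head?_reverse, getLast_up]

theorem reverse_up_chain {j h : ℕ} {x : V} (hx : x ∈ layer G X S j) (hh : h ≤ j) :
    (x :: up G X S h x).reverse.IsChain G.Adj :=
  List.isChain_reverse.2 ((up_chain hx h hh).imp fun _ _ e => e.symm)

/-- A path in layer `j` between branches that first meet `h` layers down closes a cycle. -/
theorem cyc_meet [DecidableEq V] {j h l : ℕ} {x y : V} {P : List V} (h1 : 1 ≤ h) (hj : h ≤ j)
    (hl : 1 ≤ l) (hP : P.Nodup) (hc : P.IsChain G.Adj) (hmem : ∀ z ∈ P, z ∈ layer G X S j)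
    (hh : P.head? = some x) (he : P.getLast? = some y) (hlen : P.length = l + 1)
    (heq : anc G X S h x = anc G X S h y)
    (hne : anc G X S (h - 1) x ≠ anc G X S (h - 1) y) : Cyc G (l + 2 * h) := by
  have hxl := hmem x (List.mem_of_head? hh)
  have hyl := hmem y (List.mem_of_getLast? he)
  have hxy : x ≠ y := fun e => hne (by rw [e])
  have hjj : h - 1 ≤ j := by omega
  have hsep : ∀ a ∈ y :: up G X S h y, ∀ b ∈ (x :: up G X S (h - 1) x).reverse, a ≠ b := by
    intro a ha b hb e
    subst e
    rcases List.mem_cons.1 ha with rfl | ha <;>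
      rcases List.mem_cons.1 (List.mem_reverse.1 hb) with hb | hb
    · exact hxy hb.symm
    · obtain ⟨i, hi, h'⟩ := up_layer hxl hjj hb
      have := layer_inj h' hyl
      omega
    · obtain ⟨i, hi, h'⟩ := up_layer hyl hj ha
      have := layer_inj (hb ▸ h') hxl
      omega
    · exact up_disjoint hxl hyl hj hjj hne a ha hb
  refine cyc_of_two_paths (P := P)
    (Q := (y :: up G X S h y) ++ (x :: up G X S (h - 1) x).reverse) (by omega) hP
    (List.nodup_append.2 ⟨cons_up_nodup hyl hj, List.nodup_reverse.2 (cons_up_nodup hxl hjj),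
      hsep⟩) hc
    (List.isChain_append.2 ⟨up_chain hyl h hj, reverse_up_chain hxl hjj, fun a ha b hb => ?_⟩)
    hh he (by simp) (by rw [List.getLast?_append, List.getLast?_reverse]; simp) hxy
    (fun z hz hzQ => ?_) (by simp [length_up]; omega)
  · rw [getLast_up, Option.mem_some] at ha
    rw [head?_reverse_up, Option.mem_some] at hb
    subst ha hb
    have h3 := anc_adj (X := X) (S := S) hxl (show h - 1 < j by omega)
    rw [show h - 1 + 1 = h by omega, heq] at h3
    exact h3.symm
  · rcases List.mem_append.1 hzQ with hq | hq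
    · rcases List.mem_cons.1 hq with rfl | hq
      · exact .inr rfl
      · obtain ⟨i, hi, h'⟩ := up_layer hyl hj hq
        have := layer_inj h' (hmem z hz)
        omega
    · rcases List.mem_cons.1 (List.mem_reverse.1 hq) with rfl | hq
      · exact .inl rfl
      · obtain ⟨i, hi, h'⟩ := up_layer hxl hjj hq
        have := layer_inj h' (hmem z hz)
        omega

/-- A path in layer `j` between branches with different roots closes a cycle through `R`. -/
theorem cyc_roots [DecidableEq V] (hS : S ⊆ X) (hXR : Disjoint X R) {j l Λ : ℕ} {x y : V}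
    {P : List V} (hl : 1 ≤ l) (hΛ : 2 ≤ Λ)
    (hJ : ∃ M : List V, M.Nodup ∧ (anc G X S j y :: (M ++ [anc G X S j x])).IsChain G.Adj ∧
      (∀ z ∈ M, z ∈ R) ∧ M.length + 1 = Λ) (hP : P.Nodup) (hc : P.IsChain G.Adj)
    (hmem : ∀ z ∈ P, z ∈ layer G X S j) (hh : P.head? = some x) (he : P.getLast? = some y)
    (hlen : P.length = l + 1) (hne : anc G X S j x ≠ anc G X S j y) :
    Cyc G (l + 2 * j + Λ) := by
  have hxl := hmem x (List.mem_of_head? hh)
  have hyl := hmem y (List.mem_of_getLast? he)
  have hxy : x ≠ y := fun e => hne (by rw [e])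
  obtain ⟨M, hMn, hMc, hMR, hMl⟩ := hJ
  have hR : ∀ {z w : V}, z ∈ layer G X S j → w ∈ z :: up G X S j z → w ∉ R := fun hz hw => by
    rcases List.mem_cons.1 hw with rfl | hw
    · exact Finset.disjoint_left.1 hXR (layer_mem hS hz)
    · obtain ⟨i, -, h⟩ := up_layer hz le_rfl hw
      exact Finset.disjoint_left.1 hXR (layer_mem hS h)
  have hsep : ∀ a ∈ y :: up G X S j y, ∀ b ∈ M ++ (x :: up G X S j x).reverse, a ≠ b := by
    intro a ha b hb e
    subst e
    rcases List.mem_append.1 hb with hb | hb
    · exact hR hyl ha (hMR a hb)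
    rcases List.mem_cons.1 ha with rfl | ha <;>
      rcases List.mem_cons.1 (List.mem_reverse.1 hb) with hb | hb
    · exact hxy hb.symm
    · obtain ⟨i, hi, h'⟩ := up_layer hxl le_rfl hb
      have := layer_inj h' hyl
      omega
    · obtain ⟨i, hi, h'⟩ := up_layer hyl le_rfl ha
      have := layer_inj (hb ▸ h') hxl
      omega
    · exact up_disjoint hxl hyl le_rfl le_rfl hne a ha hb
  rw [List.isChain_cons, List.isChain_append] at hMc
  refine cyc_of_two_paths (P := P)
    (Q := (y :: up G X S j y) ++ (M ++ (x :: up G X S j x).reverse)) (by omega) hP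
    (List.nodup_append.2 ⟨cons_up_nodup hyl le_rfl, List.nodup_append.2
      ⟨hMn, List.nodup_reverse.2 (cons_up_nodup hxl le_rfl),
        fun a ha b hb e => hR hxl (e ▸ List.mem_reverse.1 hb) (hMR a ha)⟩, hsep⟩) hc
    (List.isChain_append.2 ⟨up_chain hyl j le_rfl,
      List.isChain_append.2 ⟨hMc.2.1, reverse_up_chain hxl le_rfl, fun a ha b hb => ?_⟩,
      fun a ha b hb => ?_⟩)
    hh he (by simp)
    (by simp only [List.getLast?_append, List.getLast?_reverse]; simp) hxy
    (fun z hz hzQ => ?_) (by simp [length_up]; omega)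
  · rw [head?_reverse_up, Option.mem_some] at hb
    exact hb ▸ hMc.2.2.2 a ha (anc G X S j x) (by simp)
  · rw [getLast_up, Option.mem_some] at ha
    refine ha ▸ hMc.1 b ?_
    have hM0 : M ≠ [] := fun e => by rw [e] at hMl; simp at hMl; omega
    obtain ⟨u, w, rfl⟩ := List.exists_cons_of_ne_nil hM0
    simpa using hb
  · rcases List.mem_append.1 hzQ with hq | hq
    · rcases List.mem_cons.1 hq with rfl | hq
      · exact .inr rfl
      · obtain ⟨i, hi, h'⟩ := up_layer hyl le_rfl hq
        have := layer_inj h' (hmem z hz)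
        omega
    · rcases List.mem_append.1 hq with hq | hq
      · exact absurd (hMR z hq) (Finset.disjoint_left.1 hXR (layer_mem hS (hmem z hz)))
      rcases List.mem_cons.1 (List.mem_reverse.1 hq) with rfl | hq
      · exact .inl rfl
      · obtain ⟨i, hi, h'⟩ := up_layer hxl le_rfl hq
        have := layer_inj h' (hmem z hz)
        omega

end Vale.Agent.P048C
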