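import Vale.Agent.P048C.Roots

/-!
# Small cycle lengths: the finite table and closer sets for bad roots

The first layer around clean roots needs one colour less. A bad root brings, two steps from the
member `z` of the blob it reaches, the roots whose owner is `z` or a neighbour of `z`.
-/

namespace Vale.Agent.P048C

open Finset

/-- The least first step allowed by the recursion with one colour less in the first layer. -/
def firstStep (d sp R : ℕ) : ℕ := ((d - 1) * sp + 1 - R + (d / 2 - 1)) / (d / 2)

/-- The least later step, when `a₁` is known in the first layer. -/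
def nextStep (d sp R a₁ x : ℕ) : ℕ :=
  ((d - (d / 2 + 1)) * x + sp * (d / 2) + 1 + a₁ - R + d / 2) / (d / 2 + 1)

/-- Does the least sequence from `x` in step one exceed `cap` within `K` further steps? -/
def exceedsFrom (d sp R a₁ cap : ℕ) : ℕ → ℕ → Bool
  | 0, x => decide (cap < x)
  | K + 1, x => decide (cap < x) || exceedsFrom d sp R a₁ cap K (nextStep d sp R a₁ x)

/-- Does the least sequence exceed `cap` within `K` steps? -/
def exceedsOne (d sp R cap : ℕ) : ℕ → Bool
  | 0 => decide (cap < sp)
  | K + 1 => decide (cap < sp) ||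
    exceedsFrom d sp R (firstStep d sp R) cap K (firstStep d sp R)

theorem nextStep_le {d sp R a₁ x y z A₁ : ℕ} (hxy : x ≤ y) (ha : a₁ ≤ A₁)
    (h : (d - (d / 2 + 1)) * y + sp * (d / 2) + 1 + A₁ ≤ R + (d / 2 + 1) * z) :
    nextStep d sp R a₁ x ≤ z := by
  have hm : (d - (d / 2 + 1)) * x ≤ (d - (d / 2 + 1)) * y := Nat.mul_le_mul_left _ hxy
  rw [nextStep, Nat.div_le_iff_le_mul_add_pred (by omega)]
  generalize (d - (d / 2 + 1)) * x = P at *
  generalize (d - (d / 2 + 1)) * y = Q at *
  generalize sp * (d / 2) = S at *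
  generalize (d / 2 + 1) * z = T at *
  omega

theorem exceedsFrom_false {d sp R a₁ cap A₁ : ℕ} (ha : a₁ ≤ A₁) :
    ∀ (K x : ℕ) (A : ℕ → ℕ), x ≤ A 0 → (∀ i ≤ K, A i ≤ cap) →
    (∀ i < K, (d - (d / 2 + 1)) * A i + sp * (d / 2) + 1 + A₁ ≤ R + (d / 2 + 1) * A (i + 1)) →
    exceedsFrom d sp R a₁ cap K x = false
  | 0, x, A, hx, hcap, _ => by
    have := hcap 0 le_rfl
    simp [exceedsFrom]; omega
  | K + 1, x, A, hx, hcap, hrec => by
    have := hcap 0 (Nat.zero_le _)
    have h := exceedsFrom_false ha K (nextStep d sp R a₁ x) (fun i => A (i + 1))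
      (nextStep_le hx ha (hrec 0 (Nat.succ_pos K)))
      (fun i hi => hcap (i + 1) (by omega)) (fun i hi => hrec (i + 1) (by omega))
    simp only [exceedsFrom, h, Bool.or_false, decide_eq_false_iff_not]
    omega

theorem exceedsOne_false {d sp R cap : ℕ} (hd : 2 ≤ d) (K : ℕ) (A : ℕ → ℕ) (h0 : sp ≤ A 0)
    (hcap : ∀ i ≤ K, A i ≤ cap)
    (hfirst : 0 < K → (d - 1) * sp + 1 ≤ R + d / 2 * A 1)
    (hnext : ∀ i, 1 ≤ i → i < K →
      (d - (d / 2 + 1)) * A i + sp * (d / 2) + 1 + A 1 ≤ R + (d / 2 + 1) * A (i + 1)) :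
    exceedsOne d sp R cap K = false := by
  have := hcap 0 (Nat.zero_le _)
  cases K with
  | zero => simp [exceedsOne]; omega
  | succ K =>
    have h1 : firstStep d sp R ≤ A 1 := by
      rw [firstStep, Nat.div_le_iff_le_mul_add_pred (by omega)]
      have := hfirst (Nat.succ_pos K)
      generalize (d - 1) * sp = P at *
      generalize d / 2 * A 1 = T at *
      omega
    have h := exceedsFrom_false (d := d) (sp := sp) (R := R) (cap := cap) h1 K
      (firstStep d sp R) (fun i => A (i + 1)) h1 (fun i hi => hcap (i + 1) (by omega))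
      (fun i hi => hnext (i + 1) (by omega) (by omega))
    simp only [exceedsOne, h, Bool.or_false, decide_eq_false_iff_not]
    omega

/-- The number of bad roots used at radius `k₂` when their sets lie within `k₂ + 2`. -/
def usedNear (d e k₁ k₂ n : ℕ) : ℕ :=
  if k₁ + k₂ + 6 ≤ d + e then (if 2 * k₂ + 8 ≤ d + e then n else min 1 n) else 0

/-- The fewest roots a bad root brings. -/
def nearGain (d : ℕ) : ℕ := (3 * (d / 2 + 2) - d + 1) / 2 - 1

/-- The radii `(k₁, k₂)` exceed `cap`, with `n₁` and `n₂` roots bad at the two radii. -/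
def hitNear (d e R cap s k₁ k₂ n₁ n₂ : ℕ) : Bool :=
  let u := usedNear d e k₁ k₂ n₂
  let gain := u * nearGain d
  decide (cap < gain) || (decide (max n₁ u < s) && exceedsOne d (s - max n₁ u) R (cap - gain) k₁)

/-- Some pair of radii below the length of the profile works for it. -/
def someHit (hit : ℕ → ℕ → ℕ → ℕ → Bool) (f : List ℕ) : Bool :=
  (List.range f.length).any fun k₁ => (List.range f.length).any fun k₂ =>
    hit k₁ k₂ (f.getD k₁ 0) (f.getD k₂ 0)

/-- Every nondecreasing profile with values up to `s` extending `f` is hit within `n` entries. -/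
def searchAll (hit : ℕ → ℕ → ℕ → ℕ → Bool) (s : ℕ) : ℕ → List ℕ → ℕ → Bool
  | 0, f, _ => someHit hit f
  | n + 1, f, lo => someHit hit f ||
    (List.range (s + 1 - lo)).all fun i => searchAll hit s n (f ++ [lo + i]) (lo + i)

theorem searchAll_sound {hit : ℕ → ℕ → ℕ → ℕ → Bool} {s : ℕ} {F : ℕ → ℕ} (hmono : Monotone F)
    (hF : ∀ k, F k ≤ s) :
    ∀ (n : ℕ) (f : List ℕ) (lo : ℕ), searchAll hit s n f lo = true →
      f = (List.range f.length).map F → lo ≤ F f.length →
      ∃ k₁ k₂, k₁ < f.length + n ∧ k₂ < f.length + n ∧ hit k₁ k₂ (F k₁) (F k₂) = true := by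
  have key : ∀ f : List ℕ, f = (List.range f.length).map F → someHit hit f = true →
      ∃ k₁ k₂, k₁ < f.length ∧ k₂ < f.length ∧ hit k₁ k₂ (F k₁) (F k₂) = true := by
    intro f hf h
    simp only [someHit, List.any_eq_true, List.mem_range] at h
    obtain ⟨k₁, h1, k₂, h2, h3⟩ := h
    have hget : ∀ k < f.length, f.getD k 0 = F k := fun k hk => by
      rw [hf]; simp [List.getD_eq_getElem?_getD, hk]
    rw [hget k₁ h1, hget k₂ h2] at h3
    exact ⟨k₁, k₂, h1, h2, h3⟩
  intro n
  induction n with
  | zero => exact fun f lo h hf _ => by simpa using key f hf h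
  | succ n ih =>
    intro f lo h hf hlo
    rw [searchAll, Bool.or_eq_true] at h
    rcases h with h | h
    · obtain ⟨k₁, k₂, h1, h2, h3⟩ := key f hf h
      exact ⟨k₁, k₂, by omega, by omega, h3⟩
    · rw [List.all_eq_true] at h
      have := hF f.length
      have h' := h (F f.length - lo) (List.mem_range.2 (by omega))
      rw [show lo + (F f.length - lo) = F f.length by omega] at h'
      obtain ⟨k₁, k₂, h1, h2, h3⟩ := ih _ _ h'
        (by simp only [List.length_append, List.length_singleton]
            conv_lhs => rw [hf]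
            simp [List.range_succ])
        (hmono (by simp))
      simp only [List.length_append, List.length_singleton] at h1 h2
      exact ⟨k₁, k₂, by omega, by omega, h3⟩

/-- One case: blob size, size of `W`, independence number at most `cap`. -/
def checkNear (d cap b R : ℕ) : Bool :=
  if b = d / 2 + 2 then searchAll (hitNear d 1 R cap ((3 * b - R + 1) / 2)) ((3 * b - R + 1) / 2)
      ((d - 3) / 2 + 1) [] 0
  else searchAll (hitNear d 0 R cap ((3 * b - R + 1) / 2)) ((3 * b - R + 1) / 2)
      ((d - 4) / 2 + 1) [] 0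

/-- All cases for one `d`, except possibly one value of `b` with `R = d`. -/
def tableNear (d cap skip : ℕ) : Bool :=
  (List.range d).all fun b => decide (b ≤ d / 2 + 1) ||
    (List.range (d + 1)).all fun R => decide (R < b) || decide (b = skip ∧ R = d) ||
      checkNear d cap b R

theorem tableNear_low : tableNear 8 7 0 = true ∧ tableNear 8 8 6 = true ∧ tableNear 9 8 0 = true ∧
    tableNear 9 9 7 = true ∧ tableNear 10 10 0 = true ∧ tableNear 11 11 0 = true ∧
    tableNear 12 12 0 = true := by decide +kernel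

variable {V : Type*} [DecidableEq V] {G : SimpleGraph V} {U B W Z : Finset V} {own : V → V}
  {d s : ℕ}

/-- A root near a blob brings roots of that blob two steps from the vertex it reaches. -/
theorem RootSys.bad_near (hR : RootSys G U B d s W Z own) (hd : 4 ≤ d) {y : V}
    {H : Finset V} (hH : Blob G d H) (hHU : H ⊆ U \ W) {z : V} (hz : z ∈ H) {k : ℕ}
    (hyz : Within G (U \ W) y z k) {s' : ℕ} {W' Z' : Finset V} {own' : V → V}
    (hR' : RootSys G U H d s' W' Z' own') (hc : 3 * H.card ≤ 2 * Z'.card + W'.card) :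
    ∃ J ⊆ U \ W, Indep G J ∧ nearGain d ≤ J.card ∧ ∀ w ∈ J, Within G (U \ W) y w (k + 2) := by
  classical
  let Q := Z'.filter fun w => own' w = z ∨ G.Adj z (own' w)
  have hQsub : Q ⊆ Z' := filter_subset _ _
  refine ⟨Q \ W, fun w hw => ?_, fun p hp q hq => ?_, ?_, fun w hw => ?_⟩
  · rw [mem_sdiff] at hw ⊢
    exact ⟨(mem_sdiff.1 (hR'.subZ (hQsub hw.1))).1, hw.2⟩
  · exact hR'.indep hd p (hQsub (mem_sdiff.1 hp).1) q (hQsub (mem_sdiff.1 hq).1)
  · -- at most one in `W`, and owners not next to `z` are few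
    have h1 : (Q ∩ W).card ≤ 1 := card_le_one.2 fun p hp q hq => by
      by_contra hne
      rw [mem_inter] at hp hq
      exact hR.touch H hH hHU _ (hR'.adj p (hQsub hp.1)).1 _ (hR'.adj q (hQsub hq.1)).1
        (fun e => hne (hR'.inj (hQsub hp.1) (hQsub hq.1) e)) p hp.2 q hq.2 hne
        (hR'.adj p (hQsub hp.1)).2.symm (hR'.adj q (hQsub hq.1)).2.symm
    have hdeg := hH.2.2 z hz
    have h2 : (Z' \ Q).card + (d / 2 + 1) + 1 ≤ H.card := by
      have hmap : (Z' \ Q).card ≤ ((H.erase z).filter fun x => ¬ G.Adj z x).card := by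
        refine card_le_card_of_injOn own' (fun w hw => ?_) (hR'.inj.mono fun w hw => (mem_sdiff.1 hw).1)
        obtain ⟨hwZ, hwQ⟩ := mem_sdiff.1 hw
        rw [mem_coe, mem_filter, mem_erase]
        simp only [Q, mem_filter, not_and, not_or] at hwQ
        exact ⟨⟨(hwQ hwZ).1, (hR'.adj w hwZ).1⟩, (hwQ hwZ).2⟩
      have hsplit := card_filter_add_card_filter_not (s := H.erase z) (fun x => G.Adj z x)
      have hle : degIn G H z ≤ ((H.erase z).filter fun x => G.Adj z x).card :=
        card_le_card fun x hx => by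
          rw [mem_filter] at hx
          exact mem_filter.2 ⟨mem_erase.2 ⟨hx.2.ne', hx.1⟩, hx.2⟩
      rw [card_erase_of_mem hz] at hsplit
      omega
    have h3 := card_sdiff_add_card_inter Q W
    have h4 := card_sdiff_add_card_eq_card hQsub
    have := hR'.cardW
    have := hH.lt_card
    rw [nearGain]
    omega
  · rw [mem_sdiff] at hw
    obtain ⟨hwQ, hwW⟩ := hw
    obtain ⟨hwZ, how⟩ := mem_filter.1 hwQ
    obtain ⟨ho, hadj⟩ := hR'.adj w hwZ
    have hwX : w ∈ U \ W := mem_sdiff.2 ⟨(mem_sdiff.1 (hR'.subZ hwZ)).1, hwW⟩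
    rcases how with rfl | how
    · exact (hyz.trans (Within.of_adj (hHU ho) hwX hadj.symm)).mono (by omega)
    · exact ((hyz.trans (Within.of_adj (hHU hz) (hHU ho) how)).trans
        (Within.of_adj (hHU ho) hwX hadj.symm)).mono (by omega)

end Vale.Agent.P048C
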