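import Vale.Agent.P048C.Dirac

/-!
# Paths between two colours

Let `s` be connected, not bipartite, with three neighbours for every member, and carry a cycle
longer than `l`. Every nonconstant colouring of `s` has a path of `l` edges whose ends differ.
The colouring read along the cycle has period `l`; a chord reflects it about two neighbouring
centres, and so does a neighbour off the cycle, so the period is at most two; then the colouring
would be a bipartition.
-/

namespace Vale.Agent.P048C

open Finset

variable {V α : Type*} {G : SimpleGraph V} {s : Finset V} {C : List V} {c : V → α} {l : ℕ}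

/-- The ends of every path of `l` edges inside `s` have one colour. -/
def EndsAgree (G : SimpleGraph V) (s : Finset V) (c : V → α) (l : ℕ) : Prop :=
  ∀ q : ℕ → V, (∀ k ≤ l, ∀ k' ≤ l, q k = q k' → k = k') → (∀ k ≤ l, q k ∈ s) →
    (∀ k < l, G.Adj (q k) (q (k + 1))) → c (q 0) = c (q l)

/-- The cycle read periodically. -/
def CycleIn.at (hC : CycleIn G s C) (u : ℤ) : V :=
  C[(u % (C.length : ℤ)).toNat]'(by
    have h3 := hC.three_le
    have h1 := Int.emod_nonneg u (b := (C.length : ℤ)) (by omega)
    have h2 := Int.emod_lt_of_pos u (b := (C.length : ℤ)) (by omega)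
    omega)

variable (hC : CycleIn G s C)
include hC

theorem CycleIn.at_mem (u : ℤ) : hC.at u ∈ C := List.getElem_mem _

theorem CycleIn.exists_at {v : V} (h : v ∈ C) : ∃ u : ℤ, hC.at u = v := by
  obtain ⟨k, hk, rfl⟩ := List.getElem_of_mem h
  refine ⟨k, ?_⟩
  simp only [CycleIn.at, Int.emod_eq_of_lt (Int.natCast_nonneg k) (Int.ofNat_lt.2 hk),
    Int.toNat_natCast]

theorem CycleIn.at_inj {u w : ℤ} (h : hC.at u = hC.at w) : (C.length : ℤ) ∣ w - u := by
  have h3 := hC.three_le
  have hne : (C.length : ℤ) ≠ 0 := by omega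
  have := hC.nodup.getElem_inj_iff.1 h
  have a1 := Int.emod_nonneg u hne
  have a2 := Int.emod_nonneg w hne
  exact Int.dvd_of_emod_eq_zero (Int.emod_eq_emod_iff_emod_sub_eq_zero.1 (by omega))

theorem CycleIn.at_congr {u w : ℤ} (h : (C.length : ℤ) ∣ w - u) : hC.at u = hC.at w := by
  simp only [CycleIn.at, Int.emod_eq_emod_iff_emod_sub_eq_zero.2
    (Int.emod_eq_zero_of_dvd h) ]

theorem CycleIn.adj_succ (u : ℤ) : G.Adj (hC.at u) (hC.at (u + 1)) := by
  have h3 := hC.three_le
  have hne : (C.length : ℤ) ≠ 0 := by omega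
  have a1 := Int.emod_nonneg u hne
  have a2 := Int.emod_lt_of_pos u (b := (C.length : ℤ)) (by omega)
  have e1 : hC.at u = hC.at (u % (C.length : ℤ)) :=
    hC.at_congr (Int.dvd_of_emod_eq_zero (Int.emod_eq_emod_iff_emod_sub_eq_zero.1 (by simp)))
  by_cases h : u % (C.length : ℤ) + 1 < C.length
  · have e2 : (u + 1) % (C.length : ℤ) = u % (C.length : ℤ) + 1 := by
      rw [← Int.emod_add_emod, Int.emod_eq_of_lt (by omega) h]
    have := List.isChain_iff_getElem.1 hC.chain (u % (C.length : ℤ)).toNat (by omega)
    simp only [CycleIn.at, e2, show (u % (C.length : ℤ) + 1).toNat =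
      (u % (C.length : ℤ)).toNat + 1 by omega]
    exact this
  · have e2 : (u + 1) % (C.length : ℤ) = 0 := by
      rw [← Int.emod_add_emod, show u % (C.length : ℤ) + 1 = C.length by omega, Int.emod_self]
    simp only [CycleIn.at, e2, show (u % (C.length : ℤ)).toNat = C.length - 1 by omega,
      Int.toNat_zero]
    refine hC.closed _ ?_ _ ?_
    · rw [List.head?_eq_getElem?, List.getElem?_eq_getElem (by omega)]
      rfl
    · rw [List.getLast?_eq_getElem?, List.getElem?_eq_getElem (by omega)]
      rfl

/-- A short piece of integers maps injectively to the cycle. -/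
theorem CycleIn.at_ne {u w : ℤ} (h1 : u ≠ w) (h2 : w - u < C.length) (h3 : u - w < C.length) :
    hC.at u ≠ hC.at w := by
  intro h
  have h0 := hC.at_inj h
  rcases lt_or_gt_of_ne h1 with h1 | h1
  · exact absurd (Int.le_of_dvd (by omega) h0) (by omega)
  · have h0' : (C.length : ℤ) ∣ u - w := by simpa using h0.neg_right
    exact absurd (Int.le_of_dvd (by omega) h0') (by omega)

variable (hH : EndsAgree G s c l)
include hH

/-- A path read off a sequence of positions. -/
theorem CycleIn.agree_of_offsets (i : ℤ) (o : ℕ → ℤ)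
    (hwin : ∀ k ≤ l, ∀ k' ≤ l, k < k' →
      o k ≠ o k' ∧ o k' - o k < C.length ∧ o k - o k' < C.length)
    (hadj : ∀ k < l, G.Adj (hC.at (i + o k)) (hC.at (i + o (k + 1)))) :
    c (hC.at (i + o 0)) = c (hC.at (i + o l)) := by
  refine hH (fun k => hC.at (i + o k)) ?_ (fun k _ => hC.mem _ (hC.at_mem _)) hadj
  intro k hk k' hk' e
  by_contra hne
  rcases lt_or_gt_of_ne hne with h | h
  · obtain ⟨h1, h2, h3⟩ := hwin k hk k' hk' h
    exact hC.at_ne (by omega) (by omega) (by omega) e
  · obtain ⟨h1, h2, h3⟩ := hwin k' hk' k hk h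
    exact hC.at_ne (by omega) (by omega) (by omega) e.symm

/-- The colours along the cycle have period `l`. -/
theorem CycleIn.period_l (hl : l < C.length) (u : ℤ) :
    c (hC.at (u + l)) = c (hC.at u) := by
  have h := hC.agree_of_offsets hH u (fun k => (k : ℤ))
    (fun k hk k' hk' hkk => ⟨by omega, by omega, by omega⟩)
    (fun k _ => by simpa [add_assoc] using hC.adj_succ (u + k))
  simpa using h.symm

/-- Backwards into a chord and forwards out of it. -/
theorem CycleIn.chord_shift {i : ℤ} {a x : ℕ} (hadj : G.Adj (hC.at i) (hC.at (i + a)))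
    (hx : x < l) (ha : 2 ≤ a) (hb : a + l ≤ C.length) :
    c (hC.at (i - x)) = c (hC.at (i + a + l - 1 - x)) := by
  let o : ℕ → ℤ := fun k => if k ≤ x then (k : ℤ) - x else (a : ℤ) + k - x - 1
  have h := hC.agree_of_offsets hH i o (fun k hk k' hk' hkk => by
    simp only [o]; split_ifs <;> omega) (fun k hk => by
    simp only [o]
    rcases lt_trichotomy k x with h | h | h
    · rw [if_pos (by omega), if_pos (by omega)]
      convert hC.adj_succ (i + ((k : ℤ) - x)) using 2; omega
    · rw [if_pos (by omega), if_neg (by omega)]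
      convert hadj using 2 <;> omega
    · rw [if_neg (by omega), if_neg (by omega)]
      convert hC.adj_succ (i + ((a : ℤ) + k - x - 1)) using 2; omega)
  simp only [o, Nat.zero_le, if_true] at h
  rw [if_neg (by omega)] at h
  convert h using 3 <;> omega

/-- Backwards into a chord and backwards out of it. -/
theorem CycleIn.chord_back {i : ℤ} {a x : ℕ} (hadj : G.Adj (hC.at i) (hC.at (i + a)))
    (hx : x < l) (hxb : x + a < C.length) (hxa : l ≤ x + a) :
    c (hC.at (i - x)) = c (hC.at (i + a + 1 + x - l)) := by
  let o : ℕ → ℤ := fun k => if k ≤ x then (k : ℤ) - x else (a : ℤ) - k + x + 1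
  have h := hC.agree_of_offsets hH i o (fun k hk k' hk' hkk => by
    simp only [o]; split_ifs <;> omega) (fun k hk => by
    simp only [o]
    rcases lt_trichotomy k x with h | h | h
    · rw [if_pos (by omega), if_pos (by omega)]
      convert hC.adj_succ (i + ((k : ℤ) - x)) using 2; omega
    · rw [if_pos (by omega), if_neg (by omega)]
      convert hadj using 2 <;> omega
    · rw [if_neg (by omega), if_neg (by omega)]
      convert (hC.adj_succ (i + ((a : ℤ) - ((k : ℤ) + 1) + x + 1))).symm using 2 <;> omega)
  simp only [o, Nat.zero_le, if_true] at h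
  rw [if_neg (by omega)] at h
  convert h using 3 <;> omega

/-- Forwards into a chord and forwards out of it. -/
theorem CycleIn.chord_forth {i : ℤ} {a x : ℕ} (hadj : G.Adj (hC.at i) (hC.at (i + a)))
    (hx : x < l) (hxa : x < a) (hxb : a + l ≤ x + C.length) :
    c (hC.at (i + x)) = c (hC.at (i + a + l - 1 - x)) := by
  let o : ℕ → ℤ := fun k => if k ≤ x then (x : ℤ) - k else (a : ℤ) + k - x - 1
  have h := hC.agree_of_offsets hH i o (fun k hk k' hk' hkk => by
    simp only [o]; split_ifs <;> omega) (fun k hk => by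
    simp only [o]
    rcases lt_trichotomy k x with h | h | h
    · rw [if_pos (by omega), if_pos (by omega)]
      convert (hC.adj_succ (i + ((x : ℤ) - ((k : ℤ) + 1)))).symm using 2 <;> omega
    · rw [if_pos (by omega), if_neg (by omega)]
      convert hadj using 2 <;> omega
    · rw [if_neg (by omega), if_neg (by omega)]
      convert hC.adj_succ (i + ((a : ℤ) + k - x - 1)) using 2; omega)
  simp only [o, Nat.zero_le, if_true] at h
  rw [if_neg (by omega)] at h
  convert h using 3 <;> omega

omit hC hH

/-- Two periodic sequences agreeing on a full period agree. -/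
theorem periodic_eq_of_window {F H : ℤ → α} {p : ℕ} (hp : 0 < p) (hF : Function.Periodic F p)
    (hH : Function.Periodic H p) (x₀ : ℤ) (h : ∀ t : ℕ, t < p → F (x₀ + t) = H (x₀ + t)) :
    F = H := by
  funext x
  have a1 := Int.emod_nonneg (x - x₀) (b := (p : ℤ)) (by omega)
  have a2 := Int.emod_lt_of_pos (x - x₀) (b := (p : ℤ)) (by omega)
  have e : x = x₀ + ((x - x₀) % (p : ℤ)) + ((x - x₀) / (p : ℤ)) * p := by
    have := Int.emod_add_mul_ediv (x - x₀) p
    rw [mul_comm]
    linarith
  have := h ((x - x₀) % (p : ℤ)).toNat (by omega)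
  rw [Int.toNat_of_nonneg a1] at this
  rw [e]
  simpa only [← smul_eq_mul, hF.zsmul _ _, hH.zsmul _ _] using this

include hC hH

/-- The reflections at a chord whose two sides are at least one period long. -/
theorem CycleIn.chord_reflect {p : ℕ} (hp : 0 < p)
    (hper : Function.Periodic (fun u => c (hC.at u)) p) (hl : l < C.length) (hpl : p ≤ l)
    (hpL : p + l ≤ C.length) {i : ℤ} {a : ℕ} (hadj : G.Adj (hC.at i) (hC.at (i + a)))
    (hpa : p ≤ a) (hpb : p + a ≤ C.length) :
    (∀ u, c (hC.at u) = c (hC.at (2 * i + a + 1 - u))) ∧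
      ∀ u, c (hC.at u) = c (hC.at (2 * i + a - 1 - u)) := by
  have hpl' := hC.period_l hH hl
  constructor
  · have key := periodic_eq_of_window (F := fun x => c (hC.at (i - x)))
      (H := fun x => c (hC.at (i + a + 1 + x))) hp
      (fun x => by have := hper (i - (x + p)); simp only at this ⊢; rw [← this]; ring_nf)
      (fun x => by have := hper (i + a + 1 + x); simp only at this ⊢; rw [← this]; ring_nf)
      ((l - a : ℕ) : ℤ) (fun t ht => by
        have h := hC.chord_back hH (x := l - a + t) hadj (by omega) (by omega) (by omega)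
        have h' := hpl' (i + a + 1 + ((l - a + t : ℕ) : ℤ) - l)
        push_cast at h h' ⊢
        rw [h, ← h']
        ring_nf)
    intro u
    have := congrFun key (i - u)
    convert this using 3 <;> ring
  · have key := periodic_eq_of_window (F := fun x => c (hC.at (i + x)))
      (H := fun x => c (hC.at (i + a - 1 - x))) hp
      (fun x => by have := hper (i + x); simp only at this ⊢; rw [← this]; ring_nf)
      (fun x => by
        have := hper (i + a - 1 - (x + p)); simp only at this ⊢; rw [← this]; ring_nf)
      ((a + l - C.length : ℕ) : ℤ) (fun t ht => by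
        have h := hC.chord_forth hH (x := a + l - C.length + t) hadj (by omega) (by omega)
          (by omega)
        have h' := hpl' (i + a - 1 - ((a + l - C.length + t : ℕ) : ℤ))
        push_cast at h h' ⊢
        rw [h, ← h']
        ring_nf)
    intro u
    have := congrFun key (u - i)
    convert this using 3 <;> ring

omit hH in
/-- Either some edge is a chord, or every vertex of the cycle has a neighbour off it. -/
theorem CycleIn.chord_or_off (hdeg : ∀ x ∈ s, 3 ≤ degIn G s x) :
    (∃ i : ℤ, ∃ a : ℕ, 2 ≤ a ∧ a + 2 ≤ C.length ∧ G.Adj (hC.at i) (hC.at (i + a))) ∨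
      ∀ i : ℤ, ∃ w ∈ s, w ∉ C ∧ G.Adj w (hC.at i) := by
  classical
  by_cases hch : ∃ i : ℤ, ∃ a : ℕ, 2 ≤ a ∧ a + 2 ≤ C.length ∧ G.Adj (hC.at i) (hC.at (i + a))
  · exact .inl hch
  refine .inr fun i => ?_
  by_contra hno
  push Not at hno
  have hsub : s.filter (fun y => G.Adj (hC.at i) y) ⊆ {hC.at (i + 1), hC.at (i - 1)} := by
    intro y hy
    obtain ⟨hys, hy⟩ := Finset.mem_filter.1 hy
    by_cases hyC : y ∈ C
    · obtain ⟨u, rfl⟩ := hC.exists_at hyC
      have h3 := hC.three_le
      have a1 := Int.emod_nonneg (u - i) (b := (C.length : ℤ)) (by omega)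
      have a2 := Int.emod_lt_of_pos (u - i) (b := (C.length : ℤ)) (by omega)
      have e : hC.at u = hC.at (i + (((u - i) % (C.length : ℤ)).toNat : ℤ)) :=
        hC.at_congr <| by
          rw [Int.toNat_of_nonneg a1]
          exact ⟨-((u - i) / (C.length : ℤ)), by
            have := Int.emod_add_mul_ediv (u - i) (C.length : ℤ); linarith⟩
      rw [e] at hy ⊢
      generalize ha : ((u - i) % (C.length : ℤ)).toNat = a at hy ⊢
      simp only [Finset.mem_insert, Finset.mem_singleton]
      rcases (by omega : a = 0 ∨ a = 1 ∨ (2 ≤ a ∧ a + 2 ≤ C.length) ∨ a + 1 = C.length) with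
        rfl | rfl | h | h
      · simp at hy
      · simp
      · exact absurd ⟨i, a, h.1, h.2, hy⟩ hch
      · exact .inr (hC.at_congr ⟨-1, by omega⟩)
    · exact absurd hy.symm (hno y hys hyC)
  have := (hdeg _ (hC.mem _ (hC.at_mem i))).trans (Finset.card_le_card hsub)
  exact absurd (this.trans Finset.card_le_two) (by omega)

/-- A way from a vertex to the cycle, leaving it only at the end. -/
def CycleIn.Tail (v : V) (m : ℕ) (q : ℕ → V) (i : ℤ) : Prop :=
  q 0 = v ∧ q m = hC.at i ∧ (∀ k ≤ m, ∀ k' ≤ m, q k = q k' → k = k') ∧ (∀ k ≤ m, q k ∈ s) ∧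
    (∀ k < m, q k ∉ C) ∧ ∀ k < m, G.Adj (q k) (q (k + 1))

omit hH in
theorem CycleIn.tail_drop {v : V} {m : ℕ} {q : ℕ → V} {i : ℤ} (h : hC.Tail v m q i) {k : ℕ}
    (hk : k ≤ m) : hC.Tail (q k) (m - k) (fun t => q (k + t)) i := by
  obtain ⟨_, h2, h3, h4, h5, h6⟩ := h
  refine ⟨by simp, by simpa [Nat.add_sub_cancel' hk] using h2, fun t ht t' ht' e => ?_,
    fun t ht => h4 _ (by omega), fun t ht => h5 _ (by omega), fun t ht => ?_⟩
  · have := h3 _ (by omega) _ (by omega) e; omega
  · exact h6 (k + t) (by omega)

omit hH in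
theorem CycleIn.tail_cons {u v : V} {m : ℕ} {q : ℕ → V} {i : ℤ} (h : hC.Tail v m q i)
    (hu : u ∈ s) (huC : u ∉ C) (huv : G.Adj u v) (hoff : ∀ k ≤ m, q k ≠ u) :
    hC.Tail u (m + 1) (fun t => if t = 0 then u else q (t - 1)) i := by
  obtain ⟨h1, h2, h3, h4, h5, h6⟩ := h
  refine ⟨rfl, by simpa using h2, fun k hk k' hk' e => ?_, fun k hk => ?_, fun k hk => ?_,
    fun k hk => ?_⟩
  · simp only at e
    split_ifs at e with a b b
    · omega
    · exact absurd e.symm (hoff _ (by omega))
    · exact absurd e (hoff _ (by omega))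
    · have := h3 _ (by omega) _ (by omega) e; omega
  · simp only
    split_ifs
    · exact hu
    · exact h4 _ (by omega)
  · simp only
    split_ifs
    · exact huC
    · exact h5 _ (by omega)
  · simp only
    rw [if_neg (Nat.succ_ne_zero k), Nat.add_sub_cancel]
    split_ifs with hk0
    · rw [hk0, h1]; exact huv
    · have := h6 (k - 1) (by omega)
      rwa [Nat.sub_add_cancel (by omega)] at this

omit hH in
theorem CycleIn.exists_tail (hcon : Linked G s) {v : V} (hv : v ∈ s) :
    ∃ m q i, hC.Tail v m q i := by
  classical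
  let T := s.filter fun v => ∃ m q i, hC.Tail v m q i
  suffices T = s by rw [← this] at hv; exact (Finset.mem_filter.1 hv).2
  by_contra hne
  have h0 : hC.at 0 ∈ T := Finset.mem_filter.2 ⟨hC.mem _ (hC.at_mem _),
    0, fun _ => hC.at 0, 0, rfl, rfl, fun k hk k' hk' _ => by omega,
    fun k _ => hC.mem _ (hC.at_mem _), fun k hk => absurd hk (Nat.not_lt_zero k),
    fun k hk => absurd hk (Nat.not_lt_zero k)⟩
  obtain ⟨a, ha, b, hb, hbT, hab⟩ := hcon T (Finset.filter_subset _ _) ⟨_, h0⟩ hne
  obtain ⟨m, q, i, h⟩ := (Finset.mem_filter.1 ha).2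
  refine hbT (Finset.mem_filter.2 ⟨hb, ?_⟩)
  by_cases hbC : b ∈ C
  · obtain ⟨j, rfl⟩ := hC.exists_at hbC
    exact ⟨0, fun _ => hC.at j, j, rfl, rfl, fun k hk k' hk' _ => by omega, fun k _ => hb,
      fun k hk => absurd hk (Nat.not_lt_zero k), fun k hk => absurd hk (Nat.not_lt_zero k)⟩
  by_cases hon : ∃ k ≤ m, q k = b
  · obtain ⟨k, hk, rfl⟩ := hon
    exact ⟨_, _, _, hC.tail_drop h hk⟩
  · exact ⟨_, _, _, hC.tail_cons h hb hbC hab.symm fun k hk e => hon ⟨k, hk, e⟩⟩

/-- A short tail followed by an arc. -/
theorem CycleIn.tail_arc {v : V} {m : ℕ} {q : ℕ → V} {i : ℤ} (h : hC.Tail v m q i)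
    (hm : m ≤ l) (hl : l < C.length) (ε : ℤ) (hε : ε = 1 ∨ ε = -1) :
    c v = c (hC.at (i + ε * ((l : ℤ) - m))) := by
  obtain ⟨h1, h2, h3, h4, h5, h6⟩ := h
  let r : ℕ → V := fun k => if k < m then q k else hC.at (i + ε * ((k : ℤ) - m))
  have hr := hH r (fun k hk k' hk' e => by
    simp only [r] at e
    split_ifs at e with a b b
    · exact h3 _ a.le _ b.le e
    · exact absurd (e ▸ hC.at_mem _) (h5 _ a)
    · exact absurd (e.symm ▸ hC.at_mem _) (h5 _ b)
    · by_contra hne
      exact hC.at_ne (by rcases hε with rfl | rfl <;> omega)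
        (by rcases hε with rfl | rfl <;> omega) (by rcases hε with rfl | rfl <;> omega) e)
    (fun k hk => by
      simp only [r]; split_ifs with a
      · exact h4 _ a.le
      · exact hC.mem _ (hC.at_mem _))
    (fun k hk => by
      simp only [r]
      rcases lt_trichotomy (k + 1) m with a | a | a
      · rw [if_pos (by omega), if_pos a]; exact h6 _ (by omega)
      · rw [if_pos (by omega), if_neg (by omega)]
        have := h6 k (by omega)
        rw [a, h2] at this
        convert this using 2
        rw [← a]; push_cast; ring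
      · rw [if_neg (by omega), if_neg (by omega)]
        rcases hε with rfl | rfl
        · convert hC.adj_succ (i + 1 * ((k : ℤ) - m)) using 2; push_cast; ring
        · convert (hC.adj_succ (i + -1 * (((k + 1 : ℕ) : ℤ) - m))).symm using 2
          push_cast; ring)
  have e0 : r 0 = v := by
    simp only [r]
    split_ifs with a
    · exact h1
    · obtain rfl : m = 0 := by omega
      rw [← h1, h2]; simp
  have el : r l = hC.at (i + ε * ((l : ℤ) - m)) := by simp [r, Nat.not_lt.2 hm]
  rw [e0, el] at hr
  exact hr

/-- With period two along the cycle and `l` even, the tails determine all colours. -/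
theorem CycleIn.tail_colour (hl0 : 0 < l) (hl : l < C.length)
    (h2 : ∀ u, c (hC.at (u + 2)) = c (hC.at u)) :
    ∀ {m : ℕ} {v : V} {q : ℕ → V} {i : ℤ}, hC.Tail v m q i → c v = c (hC.at (i + m)) := by
  have hper : ∀ u : ℤ, ∀ t : ℤ, c (hC.at (u + 2 * t)) = c (hC.at u) := by
    intro u t
    have hP : Function.Periodic (fun u => c (hC.at u)) 2 := h2
    have := hP.zsmul t u
    simpa [mul_comm] using this
  have hshift : ∀ u : ℤ, ∀ t : ℤ, c (hC.at (u + t * l)) = c (hC.at u) := by
    intro u t
    have hP : Function.Periodic (fun u => c (hC.at u)) l := hC.period_l hH hl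
    simpa using hP.zsmul t u
  intro m
  induction m using Nat.strong_induction_on with
  | _ m ih =>
    intro v q i h
    by_cases hm : m ≤ l
    · have e := hC.tail_arc hH h hm hl 1 (.inl rfl)
      rw [e, ← hper (i + m) (-m), ← hshift (i + m + 2 * -(m : ℤ)) 1]
      ring_nf
    · have hcopy := h
      obtain ⟨h1, -, h3, h4, -, h6⟩ := h
      have e := hH q (fun k hk k' hk' => h3 k (by omega) k' (by omega))
        (fun k hk => h4 k (by omega)) (fun k hk => h6 k (by omega))
      rw [h1] at e
      rw [e, ih (m - l) (by omega) (hC.tail_drop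
        hcopy (by omega : l ≤ m)),
        ← hshift (i + ((m - l : ℕ) : ℤ)) 1, Nat.cast_sub (by omega)]
      ring_nf

omit hH in
/-- The main statement: some path of `l` edges has ends of different colours. -/
theorem exists_bichromatic_path (hl0 : 0 < l) (hl : l < C.length) (hcon : Linked G s)
    (hdeg : ∀ x ∈ s, 3 ≤ degIn G s x)
    (hnb : ∀ f : V → Bool, ∃ u ∈ s, ∃ v ∈ s, G.Adj u v ∧ f u = f v)
    (hc : ∃ x ∈ s, ∃ y ∈ s, c x ≠ c y) :
    ∃ P : List V, P.Nodup ∧ P.IsChain G.Adj ∧ (∀ z ∈ P, z ∈ s) ∧ P.length = l + 1 ∧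
      ∃ a ∈ P.head?, ∃ b ∈ P.getLast?, c a ≠ c b := by
  classical
  by_contra hno
  have hH : EndsAgree G s c l := by
    intro q hinj hmem hadj
    by_contra hne
    refine hno ⟨(List.range (l + 1)).map q, ?_, ?_, ?_, by simp, q 0, ?_, q l, ?_, hne⟩
    · refine List.nodup_range.map_on fun x hx y hy e => ?_
      simp only [List.mem_range] at hx hy
      exact hinj x (by omega) y (by omega) e
    · rw [List.isChain_iff_getElem]
      intro k hk
      simp only [List.length_map, List.length_range] at hk
      simpa using hadj k (by omega)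
    · simp only [List.mem_map, List.mem_range]
      rintro z ⟨k, hk, rfl⟩
      exact hmem k (by omega)
    · simp [List.head?_map, List.head?_range]
    · simp [List.getLast?_map, List.getLast?_range]
  let f : ℤ → α := fun u => c (hC.at u)
  have hfl : Function.Periodic f l := hC.period_l hH hl
  have hfL : Function.Periodic f C.length := fun u =>
    congrArg c (hC.at_congr ⟨-1, by ring⟩)
  have hfd : Function.Periodic f (C.length - l : ℕ) := by
    rw [Nat.cast_sub hl.le]; exact hfL.sub_period hfl
  -- period two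
  have h2 : ∀ u, f (u + 2) = f u := by
    have hex : ∃ p : ℕ, 0 < p ∧ Function.Periodic f p := ⟨l, hl0, hfl⟩
    obtain ⟨hp, hper⟩ := Nat.find_spec hex
    have hmin : ∀ q : ℕ, 0 < q → Function.Periodic f q → Nat.find hex ≤ q := fun q h1 h2 =>
      Nat.find_min' hex ⟨h1, h2⟩
    generalize Nat.find hex = p at hp hper hmin
    have hpl := hmin l hl0 hfl
    have hpd := hmin _ (by omega) hfd
    rcases hC.chord_or_off hdeg with ⟨i, a, ha2, hab, hadj⟩ | hoff
    · by_cases hp2 : p ≤ 2
      · rcases (by omega : p = 1 ∨ p = 2) with rfl | rfl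
        · intro u
          have := hper.nsmul 2 u
          simpa using this
        · exact hper
      -- both sides of the chord are at least one period long
      have side : ∀ (i : ℤ) (a : ℕ), G.Adj (hC.at i) (hC.at (i + a)) → 2 ≤ a →
          a + 2 ≤ C.length → p ≤ a := by
        intro i a hadj ha2 hab
        by_contra hlt
        have key := periodic_eq_of_window (F := fun x => f (i - x))
          (H := fun x => f (i + a - 1 - x)) hp
          (fun x => by have := hper (i - (x + p)); simp only at this ⊢; rw [← this]; ring_nf)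
          (fun x => by
            have := hper (i + a - 1 - (x + p)); simp only at this ⊢; rw [← this]; ring_nf)
          0 (fun t ht => by
            have h := hC.chord_shift hH (x := t) hadj (by omega) ha2 (by omega)
            have h' := hfl (i + a - 1 - t)
            simp only [f, zero_add] at h h' ⊢
            rw [h, ← h']
            ring_nf)
        have : Function.Periodic f ((a - 1 : ℕ) : ℤ) := by
          intro u
          have h := congrFun key (i - u)
          rw [Nat.cast_sub (by omega)]
          convert h.symm using 2 <;> (push_cast; ring)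
        have := hmin (a - 1) (by omega) this
        omega
      have hpa := side i a hadj ha2 hab
      have hpb : p ≤ C.length - a := side (i + a) (C.length - a)
        (by
          rw [show hC.at (i + a + ((C.length - a : ℕ) : ℤ)) = hC.at i from
            hC.at_congr ⟨-1, by omega⟩]
          exact hadj.symm) (by omega) (by omega)
      obtain ⟨r1, r2⟩ := hC.chord_reflect hH hp hper hl hpl (by omega) hadj hpa (by omega)
      intro u
      have e1 := r2 u
      have e2 := r1 (2 * i + a - 1 - u)
      simp only [f] at *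
      rw [e1, e2]
      ring_nf
    · intro u
      obtain ⟨w, hw, hwC, hwa⟩ := hoff (u + 1)
      have ht : hC.Tail w 1 (fun k => if k = 0 then w else hC.at (u + 1)) (u + 1) := by
        refine hC.tail_cons (v := hC.at (u + 1)) ⟨rfl, rfl, fun k hk k' hk' _ => by omega,
          fun k _ => hC.mem _ (hC.at_mem _), fun k hk => absurd hk (Nat.not_lt_zero k),
          fun k hk => absurd hk (Nat.not_lt_zero k)⟩ hw hwC hwa
          fun k _ e => hwC (e ▸ hC.at_mem _)
      have e1 := hC.tail_arc hH ht (by omega) hl 1 (.inl rfl)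
      have e2 := hC.tail_arc hH ht (by omega) hl (-1) (.inr rfl)
      rw [e1] at e2
      have h1 := hfl u
      have h3 := hfl (u + 2 - l)
      simp only [f] at *
      calc c (hC.at (u + 2)) = c (hC.at (u + 1 + -1 * ((l : ℤ) - 1))) := by
            rw [show u + 1 + -1 * ((l : ℤ) - 1) = u + 2 - l by ring, ← h3]; ring_nf
        _ = c (hC.at (u + l)) := by
            rw [show u + (l : ℤ) = u + 1 + 1 * ((l : ℤ) - 1) by ring]; exact e2.symm
        _ = c (hC.at u) := h1
  have hpar : ∀ u t : ℤ, f (u + 2 * t) = f u := fun u t => by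
    simpa [mul_comm] using (show Function.Periodic f 2 from h2).zsmul t u
  obtain ⟨x, hx, y, hy, hxy⟩ := hc
  by_cases hconst : ∀ u, f (u + 1) = f u
  · -- one colour only
    have hall : ∀ v ∈ s, c v = f 0 := fun v hv => by
      obtain ⟨m, q, i, ht⟩ := hC.exists_tail hcon hv
      rw [hC.tail_colour hH hl0 hl h2 ht]
      simpa using (show Function.Periodic f 1 from hconst).zsmul (i + m) 0
    exact hxy ((hall x hx).trans (hall y hy).symm)
  have hne : f 0 ≠ f 1 := by
    intro h
    refine hconst fun u => ?_
    rcases Int.even_or_odd u with ⟨t, rfl⟩ | ⟨t, rfl⟩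
    · have a := hpar 1 t
      have b := hpar 0 t
      rw [show t + t + 1 = 1 + 2 * t by ring, show t + t = 0 + 2 * t by ring, a, b, h]
    · have a := hpar 0 (t + 1)
      have b := hpar 1 t
      rw [show 2 * t + 1 + 1 = 0 + 2 * (t + 1) by ring, show 2 * t + 1 = 1 + 2 * t by ring, a, b, h]
  have hodd : ∀ t : ℕ, Function.Periodic f t → Even t := fun t ht => by
    by_contra h
    obtain ⟨k, rfl⟩ := Nat.not_even_iff_odd.1 h
    refine hconst fun u => ?_
    have a := ht u
    have b := hpar (u + 1) k
    rw [← b, ← a]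
    push_cast
    ring_nf
  have hlev := hodd l hfl
  have hLev := hodd C.length hfL
  have hflip : ∀ u, f (u + 1) ≠ f u := fun u h => by
    rcases Int.even_or_odd u with ⟨t, rfl⟩ | ⟨t, rfl⟩
    · have a := hpar 1 t
      have b := hpar 0 t
      rw [show t + t + 1 = 1 + 2 * t by ring, show t + t = 0 + 2 * t by ring, a, b] at h
      exact hne h.symm
    · have a := hpar 0 (t + 1)
      have b := hpar 1 t
      rw [show 2 * t + 1 + 1 = 0 + 2 * (t + 1) by ring, show 2 * t + 1 = 1 + 2 * t by ring, a, b]
        at h
      exact hne h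
  have hcol := fun {m : ℕ} {v : V} {q : ℕ → V} {i : ℤ} (ht : hC.Tail v m q i) =>
    hC.tail_colour hH hl0 hl h2 ht
  have hproper : ∀ u ∈ s, ∀ v ∈ s, G.Adj u v → c u ≠ c v := by
    intro u hu v hv huv
    by_cases huC : u ∈ C
    · by_cases hvC : v ∈ C
      · obtain ⟨i, rfl⟩ := hC.exists_at huC
        obtain ⟨j, rfl⟩ := hC.exists_at hvC
        intro e
        rcases Int.even_or_odd (j - i) with ⟨t, ht⟩ | ⟨t, ht⟩
        · have h3 := hC.three_le
          have a1 := Int.emod_nonneg (j - i) (b := (C.length : ℤ)) (by omega)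
          have a2 := Int.emod_lt_of_pos (j - i) (b := (C.length : ℤ)) (by omega)
          obtain ⟨a, ha⟩ := Int.eq_ofNat_of_zero_le a1
          have hej : hC.at j = hC.at (i + a) := hC.at_congr ⟨-((j - i) / (C.length : ℤ)), by
            have := Int.emod_add_mul_ediv (j - i) (C.length : ℤ); rw [ha] at this; linarith⟩
          obtain ⟨k, hk⟩ := hLev
          have haev : Even a := by
            rw [← Int.even_coe_nat, ← ha, Int.even_iff,
              Int.emod_emod_of_dvd _ ⟨(k : ℤ), by omega⟩, ← Int.even_iff]
            exact ⟨t, ht⟩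
          obtain ⟨k', hk'⟩ := haev
          rw [hej] at huv
          rcases Nat.eq_zero_or_pos a with rfl | hapos
          · simp at huv
          obtain ⟨r1, -⟩ := hC.chord_reflect hH (p := 2) (by omega) h2 hl
            (by rcases hlev with ⟨k'', hk''⟩; omega)
            (by rcases hlev with ⟨k'', hk''⟩; omega) huv (by omega) (by omega)
          refine hflip 0 ?_
          have e' := r1 0
          have b := hpar 1 (i + k')
          simp only [f] at *
          rw [e', show (0 : ℤ) + 1 = 1 by ring, ← b]
          congr 2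
          push_cast [hk']
          ring
        · have b := hpar (i + 1) t
          rw [show i + 1 + 2 * t = j by omega] at b
          simp only [f] at b
          exact hflip i (by simp only [f]; rw [← b]; exact e.symm)
      · obtain ⟨i, rfl⟩ := hC.exists_at huC
        have ht := hC.tail_cons (v := hC.at i) (m := 0) (q := fun _ => hC.at i) (i := i)
          ⟨rfl, rfl, fun k hk k' hk' _ => by omega, fun k _ => hu,
          fun k hk => absurd hk (Nat.not_lt_zero k), fun k hk => absurd hk (Nat.not_lt_zero k)⟩
          hv hvC huv.symm fun k _ e => hvC (e ▸ huC)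
        rw [hcol ht]
        simpa [f] using (hflip i).symm
    · obtain ⟨m, q, i, ht⟩ := hC.exists_tail hcon hv
      by_cases hon : ∃ k ≤ m, q k = u
      · obtain ⟨k, hk, rfl⟩ := hon
        have hdrop := hC.tail_drop ht hk
        obtain ⟨h1, h2', h3, -, h5, -⟩ := ht
        have hkm : k < m := lt_of_le_of_ne hk fun e => huC (e ▸ h2' ▸ hC.at_mem i)
        have hk0 : k ≠ 0 := fun e => huv.ne (by rw [e, h1])
        have hvC : v ∉ C := h1 ▸ h5 0 (by omega)
        have hcons := hC.tail_cons hdrop hv hvC huv.symm fun t ht' e => by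
          have := h3 (k + t) (by omega) 0 (by omega) (by rw [h1]; exact e)
          omega
        rw [hcol hdrop, hcol hcons]
        simpa [f, add_assoc] using (hflip (i + ((m - k : ℕ) : ℤ))).symm
      · have hcons := hC.tail_cons ht hu huC huv fun k hk e => hon ⟨k, hk, e⟩
        rw [hcol ht, hcol hcons]
        simpa [f, add_assoc] using hflip (i + m)
  obtain ⟨u, hu, v, hv, huv, he⟩ := hnb fun v => decide (c v = f 0)
  have h01 : ∀ v ∈ s, c v = f 0 ∨ c v = f 1 := fun v hv => by
    obtain ⟨m, q, i, ht⟩ := hC.exists_tail hcon hv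
    rw [hcol ht]
    rcases Int.even_or_odd (i + m) with ⟨t, h⟩ | ⟨t, h⟩
    · exact .inl (by rw [h, show t + t = 0 + 2 * t by ring]; exact hpar 0 t)
    · exact .inr (by rw [h, show 2 * t + 1 = 1 + 2 * t by ring]; exact hpar 1 t)
  have he' : c u = f 0 ↔ c v = f 0 := decide_eq_decide.1 he
  rcases h01 u hu with a | a <;> rcases h01 v hv with b | b
  · exact hproper u hu v hv huv (a.trans b.symm)
  · exact hne ((he'.1 a).symm.trans b)
  · exact hne ((he'.2 b).symm.trans a)
  · exact hproper u hu v hv huv (a.trans b.symm)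

end Vale.Agent.P048C
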