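import Vale.Agent.P048C.PosaCycle
import Vale.Agent.P048.Path

/-!
# Cycles through ears

The steps of the pieces are replaced by paths outside `s`: a dense set with ears has a cycle on
exactly `|s|` plus the inner vertices of the ears many vertices.
-/

namespace Vale.Agent.P048C

open Finset

variable {V : Type*} {G : SimpleGraph V} {s : Finset V}

theorem edgesOf_glue : ∀ (X : List V) (a : V) (Y : List V),
    edgesOf (X ++ a :: Y) = edgesOf (X ++ [a]) ++ edgesOf (a :: Y)
  | [], a, Y => by simp [edgesOf]
  | [x], a, Y => by simp [edgesOf]
  | x :: y :: X, a, Y => by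
    have := edgesOf_glue (y :: X) a Y
    simp only [List.cons_append, edgesOf] at this ⊢
    rw [this]

/-- The interior of an ear, read from `a` to `b`. -/
noncomputable def orient (G : SimpleGraph V) (ear : Sym2 V → List V) (a b : V) : List V :=
  open Classical in
  if (a :: (ear s(a, b) ++ [b])).IsChain G.Adj then ear s(a, b) else (ear s(a, b)).reverse

theorem mem_orient {ear : Sym2 V → List V} {a b z : V} :
    z ∈ orient G ear a b ↔ z ∈ ear s(a, b) := by
  unfold orient; split_ifs <;> simp

theorem length_orient (ear : Sym2 V → List V) (a b : V) :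
    (orient G ear a b).length = (ear s(a, b)).length := by
  unfold orient; split_ifs <;> simp

theorem nodup_orient {ear : Sym2 V → List V} {a b : V} (h : (ear s(a, b)).Nodup) :
    (orient G ear a b).Nodup := by
  unfold orient; split_ifs <;> simpa using h

theorem chain_orient {ear : Sym2 V → List V} {a b : V}
    (h : (a :: (ear s(a, b) ++ [b])).IsChain G.Adj ∨ (b :: (ear s(a, b) ++ [a])).IsChain G.Adj) :
    (a :: (orient G ear a b ++ [b])).IsChain G.Adj := by
  unfold orient
  split_ifs with h0
  · exact h0
  · have := h.resolve_left h0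
    have h' : (b :: (ear s(a, b) ++ [a])).reverse.IsChain G.Adj := by
      rw [List.isChain_reverse]; exact this.imp fun _ _ e => e.symm
    simpa using h'

/-- The ordering with all ears filled in. -/
noncomputable def expand (G : SimpleGraph V) (ear : Sym2 V → List V) : List V → List V
  | [] => []
  | [a] => [a]
  | a :: b :: l => a :: (orient G ear a b ++ expand G ear (b :: l))

theorem expand_cons (ear : Sym2 V → List V) : ∀ (a : V) (l : List V),
    ∃ t, expand G ear (a :: l) = a :: t
  | _, [] => ⟨[], rfl⟩
  | _, _ :: _ => ⟨_, rfl⟩

theorem getLast?_expand (ear : Sym2 V → List V) : ∀ l : List V,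
    (expand G ear l).getLast? = l.getLast?
  | [] => rfl
  | [_] => rfl
  | a :: b :: l => by
    have ih := getLast?_expand ear (b :: l)
    obtain ⟨t, ht⟩ := expand_cons (G := G) ear b l
    rw [ht] at ih
    rw [expand, ht, ← List.cons_append, List.getLast?_append, ih, List.getLast?_cons_cons,
      List.getLast?_eq_some_getLast (List.cons_ne_nil b l), Option.some_or]

theorem length_expand (ear : Sym2 V → List V) : ∀ l : List V,
    (expand G ear l).length = l.length + ((edgesOf l).map fun e => (ear e).length).sum
  | [] => rfl
  | [_] => rfl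
  | a :: b :: l => by
    have := length_expand ear (b :: l)
    simp only [expand, edgesOf, List.length_cons, List.length_append, length_orient,
      List.map_cons, List.sum_cons] at this ⊢
    omega

theorem mem_expand {ear : Sym2 V → List V} {z : V} : ∀ {l : List V},
    z ∈ expand G ear l → z ∈ l ∨ ∃ e ∈ edgesOf l, z ∈ ear e
  | [], h => .inl h
  | [_], h => .inl h
  | a :: b :: l, h => by
    simp only [expand, List.mem_cons, List.mem_append] at h
    rcases h with rfl | h | h
    · exact .inl List.mem_cons_self
    · exact .inr ⟨s(a, b), List.mem_cons_self, mem_orient.1 h⟩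
    · rcases mem_expand h with h | ⟨e, he, hz⟩
      · exact .inl (List.mem_cons_of_mem _ h)
      · exact .inr ⟨e, List.mem_cons_of_mem _ he, hz⟩

theorem nodup_expand {ear : Sym2 V → List V} : ∀ {l : List V}, l.Nodup → (edgesOf l).Nodup →
    (∀ e ∈ edgesOf l, (ear e).Nodup ∧ (∀ z ∈ ear e, z ∉ l)) →
    (∀ e ∈ edgesOf l, ∀ e' ∈ edgesOf l, e ≠ e' → ∀ z ∈ ear e, z ∉ ear e') →
    (expand G ear l).Nodup
  | [], _, _, _, _ => List.nodup_nil
  | [a], _, _, _, _ => List.nodup_singleton a
  | a :: b :: l, hn, hen, he, hd => by
    obtain ⟨ha, hn'⟩ := List.nodup_cons.1 hn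
    obtain ⟨hab, hen'⟩ := List.nodup_cons.1 hen
    have hab' : s(a, b) ∈ edgesOf (a :: b :: l) := List.mem_cons_self
    have hmono : ∀ e ∈ edgesOf (b :: l), e ∈ edgesOf (a :: b :: l) :=
      fun e => List.mem_cons_of_mem _
    have ih := nodup_expand (ear := ear) hn' hen'
      (fun e h => ⟨(he e (hmono e h)).1, fun z hz h' =>
        (he e (hmono e h)).2 z hz (List.mem_cons_of_mem _ h')⟩)
      (fun e h e' h' => hd e (hmono e h) e' (hmono e' h'))
    refine List.nodup_cons.2 ⟨fun h => ?_,
      List.nodup_append.2 ⟨nodup_orient (he _ hab').1, ih, fun u hu v hv huv => ?_⟩⟩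
    · rcases List.mem_append.1 h with h | h
      · exact (he _ hab').2 a (mem_orient.1 h) List.mem_cons_self
      · rcases mem_expand h with h | ⟨e, h1, h2⟩
        · exact ha h
        · exact (he e (hmono e h1)).2 a h2 List.mem_cons_self
    · subst huv
      rcases mem_expand hv with h | ⟨e, h1, h2⟩
      · exact (he _ hab').2 u (mem_orient.1 hu) (List.mem_cons_of_mem _ h)
      · exact hd _ hab' e (hmono e h1) (fun e' => hab (e' ▸ h1)) u (mem_orient.1 hu) h2

theorem chain_expand {ear : Sym2 V → List V} : ∀ {l : List V},
    l.IsChain (fun a b => (a :: (orient G ear a b ++ [b])).IsChain G.Adj) →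
      (expand G ear l).IsChain G.Adj
  | [], _ => List.isChain_nil
  | [a], _ => List.isChain_singleton a
  | a :: b :: l, h => by
    obtain ⟨h1, h2⟩ := List.isChain_cons_cons.1 h
    have ih := chain_expand h2
    obtain ⟨t, ht⟩ := expand_cons (G := G) ear b l
    rw [ht] at ih
    rw [expand, ht, List.append_cons, ← List.cons_append]
    refine List.isChain_append.2 ⟨h1, ih.tail, ?_⟩
    intro x hx y hy
    rw [← List.cons_append, List.getLast?_concat] at hx
    obtain rfl := Option.mem_some_iff.1 hx
    cases t with
    | nil => simp at hy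
    | cons c t =>
      obtain rfl : c = y := by simpa using hy
      exact (List.isChain_cons_cons.1 ih).1

/-- **A cycle through ears.** With inner degrees `d` where `|s| + k ≤ 2 d` for the `k` steps of
the pieces, each step carrying an ear outside `s` (read in either direction), there is a cycle on
exactly `|s|` plus the inner vertices of the ears many vertices. -/
theorem exists_cycle_with_ears [DecidableEq V] {pieces : List (List V)} (ear : Sym2 V → List V)
    (hs : 3 ≤ s.card) (hpn : pieces.flatten.Nodup) (hps : ∀ z ∈ pieces.flatten, z ∈ s)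
    (hdeg : ∀ x ∈ s, s.card + (pieces.flatMap edgesOf).length ≤ 2 * degIn G s x)
    (hdeg2 : ∀ x ∈ s, 2 ≤ degIn G s x)
    (hchain : ∀ e ∈ pieces.flatMap edgesOf, ∃ a b, e = s(a, b) ∧
      (a :: (ear e ++ [b])).IsChain G.Adj)
    (hear : ∀ e ∈ pieces.flatMap edgesOf, (ear e).Nodup ∧ ∀ z ∈ ear e, z ∉ s)
    (hdisj : ∀ e ∈ pieces.flatMap edgesOf, ∀ e' ∈ pieces.flatMap edgesOf, e ≠ e' →
      ∀ z ∈ ear e, z ∉ ear e') :
    P048.Cyc G (s.card + ((pieces.flatMap edgesOf).map fun e => (ear e).length).sum) := by
  classical
  obtain ⟨C, hCn, hCs, hCc, hCl, hCP⟩ :=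
    exists_cycle_through (G := G) (Finset.card_pos.1 (by omega)) hpn hps hdeg hdeg2
  have hlenC : C.length = s.card := by
    rw [← List.toFinset_card_of_nodup hCn]
    congr 1
    ext z
    rw [List.mem_toFinset]
    exact hCs z
  obtain ⟨c, t, rfl⟩ : ∃ c t, C = c :: t := by
    cases C with
    | nil => simp at hlenC; omega
    | cons c t => exact ⟨c, t, rfl⟩
  obtain ⟨t', z, rfl⟩ : ∃ t' z, t = t' ++ [z] := by
    rcases List.eq_nil_or_concat t with rfl | ⟨t', z, h⟩
    · simp at hlenC; omega
    · exact ⟨t', z, by simpa using h⟩
  let ear' : Sym2 V → List V := fun e => if e ∈ pieces.flatMap edgesOf then ear e else []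
  let X := (c :: (t' ++ [z]))
  have hX : edgesOf (X ++ [c]) = edgesOf X ++ [s(z, c)] := by
    show edgesOf ((c :: (t' ++ [z])) ++ [c]) = _
    rw [← List.cons_append, List.append_assoc, List.singleton_append, edgesOf_append]
    simp [X, edgesOf]
  have hXn : (edgesOf (X ++ [c])).Nodup := by
    rw [hX, List.nodup_append]
    refine ⟨nodup_edgesOf hCn, List.nodup_singleton _, fun e he e' he' heq => ?_⟩
    obtain rfl := List.mem_singleton.1 he'
    subst heq
    rcases pair_infix_of_mem_edgesOf he with ⟨A, B, hAB⟩ | ⟨A, B, hAB⟩
    · -- the first vertex would be entered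
      cases A with
      | nil => simp [X] at hAB; simp [hAB.1] at hCn
      | cons a A =>
        simp [X] at hAB
        obtain ⟨rfl, hAB⟩ := hAB
        exact (List.nodup_cons.1 hCn).1 (hAB ▸ by simp)
    · cases A with
      | nil =>
        simp [X] at hAB
        cases t' with
        | nil => simp at hlenC; omega
        | cons q t' =>
          simp at hAB
          obtain ⟨rfl, -⟩ := hAB
          simp at hCn
      | cons a A =>
        simp [X] at hAB
        obtain ⟨rfl, hAB⟩ := hAB
        exact (List.nodup_cons.1 hCn).1 (hAB ▸ by simp)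
  have hsub : ∀ e ∈ pieces.flatMap edgesOf, e ∈ edgesOf (X ++ [c]) := by
    intro e he
    obtain ⟨P, hP, he⟩ := List.mem_flatMap.1 he
    have hXX : e ∈ edgesOf (X ++ X) := by
      rcases hCP P hP with h | h
      · exact edgesOf_subset_of_infix h e he
      · refine edgesOf_subset_of_infix h e ?_
        rw [edgesOf_reverse]
        exact List.mem_reverse.2 he
    rw [show X ++ X = X ++ c :: (t' ++ [z]) from rfl, edgesOf_glue] at hXX
    rcases List.mem_append.1 hXX with h | h
    · exact h
    · rw [hX]; exact List.mem_append_left _ h
  have hstep : ∀ a b, Step G pieces a b → (a :: (orient G ear' a b ++ [b])).IsChain G.Adj := by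
    intro a b h
    refine chain_orient ?_
    by_cases he : s(a, b) ∈ pieces.flatMap edgesOf
    · simp only [ear', if_pos he]
      obtain ⟨a', b', heq, hc⟩ := hchain _ he
      rcases Sym2.eq_iff.1 heq with ⟨rfl, rfl⟩ | ⟨rfl, rfl⟩
      exacts [.inl hc, .inr hc]
    · simp only [ear', if_neg he]
      exact .inl (by simpa using h.resolve_right he)
  have hchainX : (X ++ [c]).IsChain fun a b => (a :: (orient G ear' a b ++ [b])).IsChain G.Adj := by
    refine List.isChain_append.2 ⟨hCc.imp hstep, List.isChain_singleton c, fun a ha b hb => ?_⟩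
    obtain rfl : c = b := by simpa using hb
    exact hstep _ _ (hCl c rfl a ha)
  obtain ⟨u, hu⟩ := expand_cons (G := G) ear' c (t' ++ [z] ++ [c])
  have hlast : u.getLast? = some c := by
    have h := getLast?_expand (G := G) ear' (c :: (t' ++ [z] ++ [c]))
    rw [hu, ← List.cons_append, List.getLast?_concat] at h
    cases u with
    | nil =>
      have := length_expand (G := G) ear' (c :: (t' ++ [z] ++ [c]))
      rw [hu] at this
      simp at this
      omega
    | cons w u => rwa [List.getLast?_cons_cons] at h
  obtain ⟨u', rfl⟩ : ∃ u', u = u' ++ [c] := by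
    rcases List.eq_nil_or_concat u with rfl | ⟨u', w, rfl⟩
    · simp at hlast
    · exact ⟨u', by simp at hlast ⊢; exact hlast⟩
  have hsum : ((edgesOf (X ++ [c])).map fun e => (ear' e).length).sum =
      ((pieces.flatMap edgesOf).map fun e => (ear e).length).sum := by
    have hFn : (pieces.flatMap edgesOf).Nodup := by
      have : ∀ ps : List (List V), (ps.flatMap edgesOf).Sublist (edgesOf ps.flatten) := by
        intro ps
        induction ps with
        | nil => simp [edgesOf]
        | cons P ps ih =>
          rw [List.flatMap_cons, List.flatten_cons]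
          exact ((List.Sublist.refl _).append ih).trans (edgesOf_sublist_append P _)
      exact (this pieces).nodup (nodup_edgesOf hpn)
    rw [← List.sum_toFinset _ hXn, ← List.sum_toFinset _ hFn]
    refine (Finset.sum_subset (fun e he => List.mem_toFinset.2 (hsub e (List.mem_toFinset.1 he)))
      fun e _ he => ?_).symm.trans (Finset.sum_congr rfl fun e he => ?_)
    · simp only [ear', if_neg fun h => he (List.mem_toFinset.2 h), List.length_nil]
    · simp only [ear', if_pos (List.mem_toFinset.1 he)]
  have hlen := length_expand (G := G) ear' (c :: (t' ++ [z] ++ [c]))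
  rw [hu, show (c :: (t' ++ [z] ++ [c])) = X ++ [c] from by simp [X], hsum] at hlen
  refine P048.cyc_of_list (m := s.card + _) (by omega) c u' (by simp [X] at hlen hlenC ⊢; omega)
    ?_ ?_ ?_
  · -- one vertex is read twice, the first and the last
    have hfull : (expand G ear' X ++ orient G ear' z c).Nodup := by
      have hne : ∀ e ∈ edgesOf (X ++ [c]), (ear' e).Nodup ∧ ∀ w ∈ ear' e, w ∉ X := by
        intro e _
        by_cases he : e ∈ pieces.flatMap edgesOf
        · simp only [ear', if_pos he]
          exact ⟨(hear e he).1, fun w hw h => (hear e he).2 w hw ((hCs w).1 h)⟩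
        · simp only [ear', if_neg he]
          exact ⟨List.nodup_nil, fun w hw => absurd hw List.not_mem_nil⟩
      have hdd : ∀ e ∈ edgesOf (X ++ [c]), ∀ e' ∈ edgesOf (X ++ [c]), e ≠ e' →
          ∀ w ∈ ear' e, w ∉ ear' e' := by
        intro e _ e' _ hee w hw
        by_cases he : e ∈ pieces.flatMap edgesOf
        · by_cases he' : e' ∈ pieces.flatMap edgesOf
          · simp only [ear', if_pos he] at hw
            simp only [ear', if_pos he']
            exact hdisj e he e' he' hee w hw
          · simp only [ear', if_neg he']
            exact List.not_mem_nil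
        · simp only [ear', if_neg he] at hw
          exact absurd hw List.not_mem_nil
      have hsubX : ∀ e ∈ edgesOf X, e ∈ edgesOf (X ++ [c]) := fun e he => by
        rw [hX]; exact List.mem_append_left _ he
      have hzc : s(z, c) ∈ edgesOf (X ++ [c]) := by
        rw [hX]; exact List.mem_append_right _ List.mem_cons_self
      refine List.nodup_append.2 ⟨nodup_expand hCn (nodup_edgesOf hCn)
        (fun e he => hne e (hsubX e he)) (fun e he e' he' => hdd e (hsubX e he) e' (hsubX e' he')),
        nodup_orient (hne _ hzc).1, fun w hw w' hw' hww => ?_⟩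
      subst hww
      rcases mem_expand hw with h | ⟨e, he, hwe⟩
      · exact (hne _ hzc).2 w (mem_orient.1 hw') h
      · refine hdd e (hsubX e he) _ hzc (fun e' => ?_) w hwe (mem_orient.1 hw')
        subst e'
        rw [hX, List.nodup_append] at hXn
        exact hXn.2.2 _ he _ List.mem_cons_self rfl
    have hsplit : ∀ (l : List V) (a b : V), expand G ear' (l ++ [a] ++ [b]) =
        expand G ear' (l ++ [a]) ++ orient G ear' a b ++ [b] := by
      intro l
      induction l with
      | nil => intro a b; simp [expand]
      | cons w l ih =>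
        intro a b
        cases l with
        | nil => simp [expand]
        | cons w' l =>
          have := ih a b
          simp only [List.cons_append] at this ⊢
          simp only [expand, this]
          simp
    have := hsplit (c :: t') z c
    simp only [List.cons_append] at this
    rw [hu] at this
    have e : c :: u' = expand G ear' X ++ orient G ear' z c := by
      have h' : c :: u' ++ [c] = (expand G ear' X ++ orient G ear' z c) ++ [c] := by
        simpa [X] using this
      exact List.append_cancel_right h'
    rw [e]; exact hfull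
  · have := chain_expand hchainX
    rw [show X ++ [c] = c :: (t' ++ [z] ++ [c]) from by simp [X], hu, ← List.cons_append] at this
    exact this.left_of_append
  · intro w hw
    have := chain_expand hchainX
    rw [show X ++ [c] = c :: (t' ++ [z] ++ [c]) from by simp [X], hu, ← List.cons_append] at this
    exact (List.isChain_append.1 this).2.2 w hw c rfl

end Vale.Agent.P048C
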