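import Mathlib

/-!
# Ore's condition gives spanning paths between any two vertices

Everything is relative to a finite set `s` inside an ambient graph. A path is a list without
repetitions whose consecutive members are adjacent.
-/

namespace Vale.Agent.P048C

open Finset

variable {V : Type*} {G : SimpleGraph V}

open Classical in
/-- The number of neighbours of `x` inside `s`. -/
noncomputable def degIn (G : SimpleGraph V) (s : Finset V) (x : V) : ℕ :=
  (s.filter fun y => G.Adj x y).card

/-- A path from `u` to `v` through exactly the vertices of `s`. -/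
def HamPathIn (G : SimpleGraph V) (s : Finset V) (u v : V) : Prop :=
  ∃ l : List V, l.Nodup ∧ l.IsChain G.Adj ∧ l.head? = some u ∧ l.getLast? = some v ∧
    ∀ z, z ∈ l ↔ z ∈ s

open Classical in
/-- The number of gaps of a list, that is, nonadjacent consecutive members. -/
noncomputable def gaps (G : SimpleGraph V) : List V → ℕ
  | [] => 0
  | [_] => 0
  | a :: b :: l => (if G.Adj a b then 0 else 1) + gaps G (b :: l)

theorem gaps_append (l₁ l₂ : List V) (a b : V) :
    gaps G (l₁ ++ a :: b :: l₂) = gaps G (l₁ ++ [a]) + gaps G [a, b] + gaps G (b :: l₂) := by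
  induction l₁ with
  | nil => simp [gaps]
  | cons c l ih =>
    cases l with
    | nil => simp [gaps]; ring
    | cons d l => simp only [List.cons_append, gaps] at ih ⊢; omega

theorem gaps_reverse (l : List V) : gaps G l.reverse = gaps G l := by
  induction l with
  | nil => rfl
  | cons a l ih =>
    cases l with
    | nil => rfl
    | cons b l =>
      rw [List.reverse_cons, List.reverse_cons, List.append_assoc, List.singleton_append,
        gaps_append, ← List.reverse_cons, ih]
      simp only [gaps, add_zero]
      by_cases hab : G.Adj a b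
      · simp [hab, hab.symm]
      · simp [hab, show ¬ G.Adj b a from fun e => hab e.symm]; omega

theorem exists_gap (l : List V) (h : ¬ l.IsChain G.Adj) :
    ∃ l₁ a b l₂, l = l₁ ++ a :: b :: l₂ ∧ ¬ G.Adj a b := by
  induction l with
  | nil => exact absurd List.isChain_nil h
  | cons a l ih =>
    cases l with
    | nil => exact absurd (List.isChain_singleton a) h
    | cons b l =>
      by_cases hab : G.Adj a b
      · obtain ⟨l₁, x, y, l₂, e, hxy⟩ := ih fun hc => h (List.isChain_cons_cons.2 ⟨hab, hc⟩)
        exact ⟨a :: l₁, x, y, l₂, by simp [e], hxy⟩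
      · exact ⟨[], a, b, l, rfl, hab⟩

/-- Without a crossing the two counts are at most one more than the length. -/
theorem count_le_of_no_cross (f g : V → Bool) : ∀ (p : V) (l : List V),
    (∀ l₁ a b l₂, p :: l = l₁ ++ a :: b :: l₂ → f a = true → g b = false) →
      (p :: l).countP f + l.countP g ≤ l.length + 1 := by
  intro p l
  induction l generalizing p with
  | nil => intro _; simpa using List.countP_le_length (p := f) (l := [p])
  | cons q l ih =>
    intro h
    have h' := ih q fun l₁ a b l₂ e => h (p :: l₁) a b l₂ (by simp [e])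
    have h0 := h [] p q l rfl
    simp only [List.countP_cons, List.length_cons] at h' ⊢
    cases hf : f p
    · simp only [Bool.false_eq_true, if_false, add_zero]
      split_ifs at h' ⊢ <;> omega
    · simp only [h0 hf, Bool.false_eq_true, if_false, if_true, add_zero]
      split_ifs at h' ⊢ <;> omega

theorem exists_cross (f g : V → Bool) (l : List V)
    (h : l.length + 1 < l.countP f + l.countP g) :
    ∃ l₁ a b l₂, l = l₁ ++ a :: b :: l₂ ∧ f a = true ∧ g b = true := by
  by_contra hno
  cases l with
  | nil => simp at h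
  | cons p l =>
    have := count_le_of_no_cross f g p l fun l₁ a b l₂ e hf =>
      Bool.eq_false_iff.2 fun hg => hno ⟨l₁, a, b, l₂, e, hf, hg⟩
    simp only [List.countP_cons, List.length_cons] at h this
    split_ifs at h this <;> omega

open Classical in
theorem degIn_eq_countP {s : Finset V} {l : List V} (hn : l.Nodup) (hl : ∀ z, z ∈ l ↔ z ∈ s)
    (x : V) : degIn G s x = l.countP fun y => decide (G.Adj x y) := by
  rw [degIn, List.countP_eq_length_filter,
    ← List.toFinset_card_of_nodup (hn.filter _)]
  congr 1
  ext z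
  simp [hl]

/-- **Ore's theorem**: if nonadjacent members of `s` have degree sum at least `|s| + 1`, any two
members are the ends of a spanning path. -/
theorem hamPathIn_of_ore {s : Finset V}
    (h : ∀ x ∈ s, ∀ y ∈ s, x ≠ y → ¬ G.Adj x y → s.card + 1 ≤ degIn G s x + degIn G s y)
    {u v : V} (hu : u ∈ s) (hv : v ∈ s) (huv : u ≠ v) : HamPathIn G s u v := by
  classical
  let ok : List V → Prop := fun l =>
    l.Nodup ∧ l.head? = some u ∧ l.getLast? = some v ∧ ∀ z, z ∈ l ↔ z ∈ s
  have hex : ∃ n, ∃ l, ok l ∧ gaps G l = n := by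
    refine ⟨_, u :: (((s.erase u).erase v).toList ++ [v]), ⟨?_, rfl, by rw [← List.cons_append, List.getLast?_concat],
      fun z => ?_⟩, rfl⟩
    · simp [List.nodup_append, Finset.nodup_toList, huv]
      aesop
    · by_cases hzu : z = u <;> by_cases hzv : z = v <;> simp_all
  obtain ⟨l, ⟨hn, hh, hlast, hmem⟩, hg⟩ := Nat.find_spec hex
  refine ⟨l, hn, ?_, hh, hlast, hmem⟩
  by_contra hc
  obtain ⟨L₁, x, y, L₂, rfl, hxy⟩ := exists_gap l hc
  have hmin : ∀ l', ok l' → gaps G (L₁ ++ x :: y :: L₂) ≤ gaps G l' := fun l' hl' =>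
    hg ▸ Nat.find_min' hex ⟨l', hl', rfl⟩
  have hxyne : x ≠ y := fun e => by
    subst e
    simp [List.nodup_append] at hn
  have hcard : s.card = L₁.length + L₂.length + 2 := by
    have e : (L₁ ++ x :: y :: L₂).toFinset = s := by ext z; rw [List.mem_toFinset]; exact hmem z
    rw [← e, List.toFinset_card_of_nodup hn]
    simp
    omega
  have hyx : ¬ G.Adj y x := fun e => hxy e.symm
  have hdeg := h x ((hmem x).1 (by simp)) y ((hmem y).1 (by simp)) hxyne hxy
  rw [degIn_eq_countP hn hmem x, degIn_eq_countP hn hmem y, hcard] at hdeg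
  simp [hxy, hyx] at hdeg
  let f : V → Bool := fun z => decide (G.Adj x z)
  let g : V → Bool := fun z => decide (G.Adj y z)
  have hsplit : L₁.length + 1 < L₁.countP f + L₁.countP g ∨
      L₂.length + 1 < L₂.countP f + L₂.countP g := by
    simp only [f, g]; omega
  have hxy1 : gaps G [x, y] = 1 := by simp [gaps, hxy]
  rcases hsplit with hsplit | hsplit
  · obtain ⟨a, p, q, b, rfl, hp, hq⟩ := exists_cross f g L₁ hsplit
    simp only [f, g, decide_eq_true_eq] at hp hq
    have key := hmin (a ++ p :: x :: (b.reverse ++ q :: y :: L₂)) ?_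
    · have e0 : gaps G ((a ++ p :: q :: b) ++ x :: y :: L₂) =
          gaps G (a ++ [p]) + gaps G [p, q] + gaps G (q :: (b ++ [x])) + gaps G [x, y] +
            gaps G (y :: L₂) := by
        rw [gaps_append, List.append_assoc]
        simp only [List.cons_append]
        rw [gaps_append]
      have e1 : gaps G (a ++ p :: x :: (b.reverse ++ q :: y :: L₂)) =
          gaps G (a ++ [p]) + gaps G [p, x] + (gaps G (q :: (b ++ [x])) + gaps G [q, y] +
            gaps G (y :: L₂)) := by
        rw [gaps_append, ← List.cons_append, gaps_append, ← gaps_reverse (q :: (b ++ [x]))]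
        simp
      rw [e0, e1, hxy1, show gaps G [p, x] = 0 by simp [gaps, hp.symm],
        show gaps G [q, y] = 0 by simp [gaps, hq.symm]] at key
      omega
    · have hperm : (a ++ p :: x :: (b.reverse ++ q :: y :: L₂)).Perm
          ((a ++ p :: q :: b) ++ x :: y :: L₂) := by
        rw [List.perm_iff_count]
        intro z
        simp [List.count_cons]
        ring
      refine ⟨hperm.nodup_iff.2 hn, ?_, ?_, fun z => hperm.mem_iff.trans (hmem z)⟩
      · cases a <;> simpa using hh
      · simpa [List.getLast?_append, List.getLast?_cons] using hlast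
  · obtain ⟨a, p, q, b, rfl, hp, hq⟩ := exists_cross f g L₂ hsplit
    simp only [f, g, decide_eq_true_eq] at hp hq
    have key := hmin (L₁ ++ x :: p :: (a.reverse ++ y :: q :: b)) ?_
    · have e0 : gaps G (L₁ ++ x :: y :: (a ++ p :: q :: b)) =
          gaps G (L₁ ++ [x]) + gaps G [x, y] + (gaps G (y :: (a ++ [p])) + gaps G [p, q] +
            gaps G (q :: b)) := by
        rw [gaps_append, ← List.cons_append, gaps_append]
        simp
      have e1 : gaps G (L₁ ++ x :: p :: (a.reverse ++ y :: q :: b)) =
          gaps G (L₁ ++ [x]) + gaps G [x, p] + (gaps G (y :: (a ++ [p])) + gaps G [y, q] +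
            gaps G (q :: b)) := by
        rw [gaps_append, ← List.cons_append, gaps_append, ← gaps_reverse (y :: (a ++ [p]))]
        simp
      rw [e0, e1, hxy1, show gaps G [x, p] = 0 by simp [gaps, hp],
        show gaps G [y, q] = 0 by simp [gaps, hq]] at key
      omega
    · have hperm : (L₁ ++ x :: p :: (a.reverse ++ y :: q :: b)).Perm
          (L₁ ++ x :: y :: (a ++ p :: q :: b)) := by
        rw [List.perm_iff_count]
        intro z
        simp [List.count_cons]
        ring
      refine ⟨hperm.nodup_iff.2 hn, ?_, ?_, fun z => hperm.mem_iff.trans (hmem z)⟩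
      · cases L₁ <;> simpa using hh
      · simpa [List.getLast?_append, List.getLast?_cons] using hlast

theorem degIn_le_sdiff [DecidableEq V] (s R : Finset V) (x : V) :
    degIn G s x ≤ degIn G (s \ R) x + R.card := by
  classical
  rw [degIn, degIn]
  refine le_trans (Finset.card_le_card fun y hy => ?_) (Finset.card_union_le _ R)
  rw [Finset.mem_filter] at hy
  by_cases hyR : y ∈ R <;> simp [hy.1, hy.2, hyR]

/-- With a margin of `j`, any two members are joined by paths of all the largest sizes. -/
theorem hamPathIn_sdiff [DecidableEq V] {s R : Finset V} {k : ℕ}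
    (hdeg : ∀ x ∈ s, k ≤ degIn G s x) (hR : R ⊆ s) (hk : s.card + R.card + 1 ≤ 2 * k)
    {u v : V} (hu : u ∈ s \ R) (hv : v ∈ s \ R) (huv : u ≠ v) : HamPathIn G (s \ R) u v := by
  refine hamPathIn_of_ore (fun x hx y hy _ _ => ?_) hu hv huv
  have hx' := degIn_le_sdiff (G := G) s R x
  have hy' := degIn_le_sdiff (G := G) s R y
  have h1 := hdeg x (Finset.mem_sdiff.1 hx).1
  have h2 := hdeg y (Finset.mem_sdiff.1 hy).1
  have h3 := Finset.card_sdiff_add_card_eq_card hR
  omega

/-- Paths of every size from `|s| - j` to `|s|`, avoiding a chosen set. -/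
theorem exists_hamPathIn_card [DecidableEq V] {s A : Finset V} {k n : ℕ}
    (hdeg : ∀ x ∈ s, k ≤ degIn G s x) {u v : V} (hu : u ∈ A) (hv : v ∈ A) (huv : u ≠ v)
    (hA : A ⊆ s) (hAn : A.card ≤ n) (hn : n ≤ s.card) (hk : 2 * s.card + 1 ≤ 2 * k + n) :
    ∃ t : Finset V, A ⊆ t ∧ t ⊆ s ∧ t.card = n ∧ HamPathIn G t u v := by
  obtain ⟨t, hAt, hts, htn⟩ := Finset.exists_subsuperset_card_eq hA hAn hn
  refine ⟨t, hAt, hts, htn, ?_⟩
  have e : s \ (s \ t) = t := Finset.sdiff_sdiff_eq_self hts
  have hc := Finset.card_sdiff_add_card_eq_card hts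
  have := hamPathIn_sdiff (R := s \ t) hdeg (Finset.sdiff_subset) (by omega)
    (u := u) (v := v) (by rw [e]; exact hAt hu) (by rw [e]; exact hAt hv) huv
  rwa [e] at this

end Vale.Agent.P048C
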