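import Mathlib

/-!
# Covering by few paths

A finite set is covered by disjoint paths, no more of them than an independent subset can have
members: in a cover by fewest paths the first members are pairwise nonadjacent, otherwise two
paths could be joined.
-/

namespace Vale.Agent.P048C

open Finset

variable {V : Type*} {G : SimpleGraph V}

/-- Disjoint nonempty paths through exactly the members of `Z`. -/
structure PathCover (G : SimpleGraph V) (Z : Finset V) (L : List (List V)) : Prop where
  ne : ∀ P ∈ L, P ≠ []
  chain : ∀ P ∈ L, P.IsChain G.Adj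
  nodup : L.flatten.Nodup
  mem : ∀ z, z ∈ L.flatten ↔ z ∈ Z

theorem PathCover.singletons (Z : Finset V) : PathCover G Z (Z.toList.map fun z => [z]) := by
  have e : (Z.toList.map fun z => [z]).flatten = Z.toList := by
    induction Z.toList with
    | nil => rfl
    | cons a l ih => simp [ih]
  refine ⟨by simp, ?_, by rw [e]; exact Z.nodup_toList, fun z => by rw [e]; simp⟩
  simp only [List.mem_map]
  rintro _ ⟨z, -, rfl⟩
  exact List.isChain_singleton z

theorem PathCover.perm {Z : Finset V} {L L' : List (List V)} (h : PathCover G Z L)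
    (hp : L.Perm L') : PathCover G Z L' :=
  ⟨fun P hP => h.ne P (hp.mem_iff.2 hP), fun P hP => h.chain P (hp.mem_iff.2 hP),
    hp.flatten.nodup_iff.1 h.nodup, fun z => (hp.flatten.mem_iff).symm.trans (h.mem z)⟩

/-- Two paths with adjacent first members make one path. -/
theorem PathCover.join {Z : Finset V} {a b : V} {P Q : List V} {L : List (List V)}
    (h : PathCover G Z ((a :: P) :: (b :: Q) :: L)) (hab : G.Adj a b) :
    PathCover G Z (((a :: P).reverse ++ (b :: Q)) :: L) := by
  have hp : ((a :: P).reverse ++ (b :: Q) ++ L.flatten).Perm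
      ((a :: P) ++ ((b :: Q) ++ L.flatten)) := by
    rw [List.append_assoc]
    exact (List.reverse_perm _).append_right _
  refine ⟨fun R hR => ?_, fun R hR => ?_, ?_, fun z => ?_⟩
  · rcases List.mem_cons.1 hR with rfl | hR
    · simp
    · exact h.ne R (by simp [hR])
  · rcases List.mem_cons.1 hR with rfl | hR
    · have hA := h.chain (a :: P) (by simp)
      have hB := h.chain (b :: Q) (by simp)
      refine List.isChain_append.2 ⟨?_, hB, ?_⟩
      · rw [List.isChain_reverse]
        exact hA.imp fun _ _ e => e.symm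
      · intro x hx y hy
        simp at hx hy
        subst hx hy
        exact hab
    · exact h.chain R (by simp [hR])
  · simp only [List.flatten_cons]
    exact hp.nodup_iff.2 h.nodup
  · simp only [List.flatten_cons]
    exact hp.mem_iff.trans (h.mem z)

/-- The undirected theorem of Gallai and Milgram. -/
theorem exists_pathCover (Z : Finset V) {a : ℕ}
    (ha : ∀ I ⊆ Z, (∀ x ∈ I, ∀ y ∈ I, ¬ G.Adj x y) → I.card ≤ a) :
    ∃ L, PathCover G Z L ∧ L.length ≤ a := by
  classical
  have hex : ∃ n, ∃ L, PathCover G Z L ∧ L.length = n := ⟨_, _, .singletons Z, rfl⟩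
  obtain ⟨L, hL, hlen⟩ := Nat.find_spec hex
  refine ⟨L, hL, ?_⟩
  have hmin : ∀ L', PathCover G Z L' → L.length ≤ L'.length := fun L' h' =>
    hlen ▸ Nat.find_min' hex ⟨L', h', rfl⟩
  -- the first members
  let f : List V → Option V := List.head?
  let I : Finset V := (L.filterMap f).toFinset
  have hheads : ∀ x ∈ I, ∃ P, (x :: P) ∈ L := by
    intro x hx
    simp only [I, f, List.mem_toFinset, List.mem_filterMap] at hx
    obtain ⟨R, hR, hh⟩ := hx
    cases R with
    | nil => simp at hh
    | cons y P => simp at hh; subst hh; exact ⟨P, hR⟩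
  have hI : I ⊆ Z := fun x hx => by
    obtain ⟨P, hP⟩ := hheads x hx
    exact (hL.mem x).1 (List.mem_flatten.2 ⟨_, hP, by simp⟩)
  have hind : ∀ x ∈ I, ∀ y ∈ I, ¬ G.Adj x y := by
    intro x hx y hy hxy
    obtain ⟨P, hP⟩ := hheads x hx
    obtain ⟨Q, hQ⟩ := hheads y hy
    obtain ⟨L₁, h₁⟩ : ∃ L₁, L.Perm ((x :: P) :: L₁) :=
      ⟨_, List.perm_cons_erase hP⟩
    have hQ₁ : (y :: Q) ∈ L₁ :=
      (List.mem_cons.1 (h₁.mem_iff.1 hQ)).resolve_left fun e => hxy.ne (List.cons.inj e).1.symm
    have h₂ : L.Perm ((x :: P) :: (y :: Q) :: L₁.erase (y :: Q)) :=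
      h₁.trans (List.Perm.cons _ (List.perm_cons_erase hQ₁))
    have := hmin _ ((hL.perm h₂).join hxy)
    have hl := h₂.length_eq
    simp only [List.length_cons] at this hl
    omega
  refine le_trans ?_ (ha I hI hind)
  have hnd : (L.filterMap f).Nodup ∧ (L.filterMap f).length = L.length := by
    have hne := hL.ne
    have hn := hL.nodup
    clear hmin hL hlen hI hind hheads
    induction L with
    | nil => simp
    | cons R L ih =>
      obtain ⟨y, P, rfl⟩ := List.exists_cons_of_ne_nil (hne R (by simp))
      simp only [List.flatten_cons, List.nodup_append] at hn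
      obtain ⟨i1, i2⟩ := ih (fun Q hQ => hne Q (by simp [hQ])) hn.2.1
      simp only [f, List.filterMap_cons, List.head?_cons, List.nodup_cons, List.length_cons]
      refine ⟨⟨fun hy => ?_, i1⟩, by simp only [f] at i2; omega⟩
      obtain ⟨R, hR, hh⟩ := List.mem_filterMap.1 hy
      exact hn.2.2 y (by simp) y (List.mem_flatten.2 ⟨R, hR, List.mem_of_mem_head? hh⟩) rfl
  rw [List.toFinset_card_of_nodup hnd.1, hnd.2]

end Vale.Agent.P048C
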