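import Vale.Agent.P048C.Ore

/-!
# Spanning paths through prescribed pairs

Pósa's extension of Ore's condition: with degree sum at least `|s| + 1 + q` any ordering of `s`
that keeps `q` prescribed pairs together can be improved to one whose other steps are edges.
The prescribed pairs need not be edges themselves.
-/

namespace Vale.Agent.P048C

open Finset

variable {V : Type*} {G : SimpleGraph V}

/-- The unordered pairs of consecutive members. -/
def edgesOf : List V → List (Sym2 V)
  | [] => []
  | [_] => []
  | a :: b :: l => s(a, b) :: edgesOf (b :: l)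

theorem edgesOf_append (l₁ l₂ : List V) (a b : V) :
    edgesOf (l₁ ++ a :: b :: l₂) = edgesOf (l₁ ++ [a]) ++ s(a, b) :: edgesOf (b :: l₂) := by
  induction l₁ with
  | nil => simp [edgesOf]
  | cons c l ih =>
    cases l with
    | nil => simp [edgesOf]
    | cons d l => simp only [List.cons_append, edgesOf] at ih ⊢; rw [ih]

theorem edgesOf_reverse (l : List V) : edgesOf l.reverse = (edgesOf l).reverse := by
  induction l with
  | nil => rfl
  | cons a l ih =>
    cases l with
    | nil => rfl
    | cons b l =>
      rw [List.reverse_cons, List.reverse_cons, List.append_assoc, List.singleton_append,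
        edgesOf_append, ← List.reverse_cons, ih]
      simp [edgesOf, Sym2.eq_swap]

theorem mem_of_mem_edgesOf {e : Sym2 V} : ∀ {l : List V}, e ∈ edgesOf l → ∀ z ∈ e, z ∈ l
  | [], h => by simp [edgesOf] at h
  | [_], h => by simp [edgesOf] at h
  | a :: b :: l, h => by
    intro z hz
    simp only [edgesOf, List.mem_cons] at h
    rcases h with rfl | h
    · rcases Sym2.mem_iff.1 hz with rfl | rfl <;> simp
    · exact List.mem_cons_of_mem _ (mem_of_mem_edgesOf h z hz)

theorem nodup_edgesOf : ∀ {l : List V}, l.Nodup → (edgesOf l).Nodup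
  | [], _ => by simp [edgesOf]
  | [_], _ => by simp [edgesOf]
  | a :: b :: l, h => by
    obtain ⟨ha, hbl⟩ := List.nodup_cons.1 h
    refine List.nodup_cons.2 ⟨fun h' => ha ?_, nodup_edgesOf hbl⟩
    exact mem_of_mem_edgesOf h' a (Sym2.mem_mk_left a b)

theorem edgesOf_tail_sublist : ∀ (a : V) (l : List V), (edgesOf l).Sublist (edgesOf (a :: l))
  | _, [] => by simp [edgesOf]
  | _, _ :: _ => List.sublist_cons_self _ _

theorem edgesOf_sublist_append : ∀ (A B : List V),
    (edgesOf A ++ edgesOf B).Sublist (edgesOf (A ++ B))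
  | [], B => by simp [edgesOf]
  | [a], B => by simpa [edgesOf] using edgesOf_tail_sublist a B
  | a :: b :: l, B => by
    simpa [edgesOf] using (edgesOf_sublist_append (b :: l) B).cons_cons s(a, b)

/-- Without an admissible crossing the counts exceed the length by at most the forced pairs. -/
theorem count_le_of_no_cross_forced (f g : V → Bool) (j : Sym2 V → Bool) : ∀ (p : V) (l : List V),
    (∀ l₁ a b l₂, p :: l = l₁ ++ a :: b :: l₂ → j s(a, b) = false → f a = true → g b = false) →
      (p :: l).countP f + l.countP g ≤ l.length + 1 + (edgesOf (p :: l)).countP j := by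
  intro p l
  induction l generalizing p with
  | nil => intro _; simp [edgesOf, List.countP_cons]; split_ifs <;> omega
  | cons q l ih =>
    intro h
    have h' := ih q fun l₁ a b l₂ e => h (p :: l₁) a b l₂ (by simp [e])
    have h0 := h [] p q l rfl
    simp only [edgesOf, List.countP_cons, List.length_cons] at h' ⊢
    cases hj : j s(p, q)
    · cases hf : f p
      · simp only [Bool.false_eq_true, if_false, add_zero]
        split_ifs at h' ⊢ <;> omega
      · simp only [h0 hj hf, Bool.false_eq_true, if_false, if_true, add_zero]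
        split_ifs at h' ⊢ <;> omega
    · simp only [if_true]
      split_ifs at h' ⊢ <;> omega

theorem exists_cross_forced (f g : V → Bool) (j : Sym2 V → Bool) (l : List V)
    (h : l.length + 1 + (edgesOf l).countP j < l.countP f + l.countP g) :
    ∃ l₁ a b l₂, l = l₁ ++ a :: b :: l₂ ∧ j s(a, b) = false ∧ f a = true ∧ g b = true := by
  by_contra hno
  cases l with
  | nil => simp at h
  | cons p l =>
    have := count_le_of_no_cross_forced f g j p l fun l₁ a b l₂ e hj hf =>
      Bool.eq_false_iff.2 fun hg => hno ⟨l₁, a, b, l₂, e, hj, hf, hg⟩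
    simp only [List.countP_cons, List.length_cons] at h this
    split_ifs at h this <;> omega

/-- **Pósa**: an ordering of `s` from `u` to `v` that keeps the pairs of `F` together can be
turned into one whose other steps are edges, if nonadjacent members have degree sum at least
`|s| + 1 + |F|`. -/
theorem hamPath_through {s : Finset V} (F : Finset (Sym2 V))
    (h : ∀ x ∈ s, ∀ y ∈ s, x ≠ y → ¬ G.Adj x y →
      s.card + 1 + F.card ≤ degIn G s x + degIn G s y)
    {u v : V} {l₀ : List V} (hn₀ : l₀.Nodup) (hh₀ : l₀.head? = some u)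
    (hl₀ : l₀.getLast? = some v) (hm₀ : ∀ z, z ∈ l₀ ↔ z ∈ s) (hF₀ : ∀ e ∈ F, e ∈ edgesOf l₀) :
    ∃ l : List V, l.Nodup ∧ l.head? = some u ∧ l.getLast? = some v ∧ (∀ z, z ∈ l ↔ z ∈ s) ∧
      (∀ e ∈ F, e ∈ edgesOf l) ∧ l.IsChain fun a b => G.Adj a b ∨ s(a, b) ∈ F := by
  classical
  let H : SimpleGraph V := G ⊔ SimpleGraph.fromEdgeSet (F : Set (Sym2 V))
  have hH : ∀ {a b}, H.Adj a b → G.Adj a b ∨ s(a, b) ∈ F := by
    intro a b hab
    rcases hab with hab | hab
    · exact .inl hab
    · exact .inr (by simpa using hab.1)
  let ok : List V → Prop := fun l =>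
    l.Nodup ∧ l.head? = some u ∧ l.getLast? = some v ∧ (∀ z, z ∈ l ↔ z ∈ s) ∧
      ∀ e ∈ F, e ∈ edgesOf l
  have hex : ∃ n, ∃ l, ok l ∧ gaps H l = n := ⟨_, l₀, ⟨hn₀, hh₀, hl₀, hm₀, hF₀⟩, rfl⟩
  obtain ⟨l, ⟨hn, hh, hlast, hmem, hF⟩, hg⟩ := Nat.find_spec hex
  refine ⟨l, hn, hh, hlast, hmem, hF, ?_⟩
  suffices l.IsChain H.Adj from this.imp fun _ _ => hH
  by_contra hc
  obtain ⟨L₁, x, y, L₂, rfl, hxyH⟩ := exists_gap l hc
  have hmin : ∀ l', ok l' → gaps H (L₁ ++ x :: y :: L₂) ≤ gaps H l' := fun l' hl' =>
    hg ▸ Nat.find_min' hex ⟨l', hl', rfl⟩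
  have hxyne : x ≠ y := fun e => by
    subst e
    simp [List.nodup_append] at hn
  have hxy : ¬ G.Adj x y := fun e => hxyH (.inl e)
  have hxyF : s(x, y) ∉ F := fun e => hxyH (.inr ⟨by simpa using e, hxyne⟩)
  have hyx : ¬ G.Adj y x := fun e => hxy e.symm
  have hcard : s.card = L₁.length + L₂.length + 2 := by
    have e : (L₁ ++ x :: y :: L₂).toFinset = s := by ext z; rw [List.mem_toFinset]; exact hmem z
    rw [← e, List.toFinset_card_of_nodup hn]
    simp
    omega
  have hdeg := h x ((hmem x).1 (by simp)) y ((hmem y).1 (by simp)) hxyne hxy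
  rw [degIn_eq_countP hn hmem x, degIn_eq_countP hn hmem y, hcard] at hdeg
  simp [hxy, hyx] at hdeg
  let f : V → Bool := fun z => decide (G.Adj x z)
  let g : V → Bool := fun z => decide (G.Adj y z)
  let j : Sym2 V → Bool := fun e => decide (e ∈ F)
  have hforced : (edgesOf L₁).countP j + (edgesOf L₂).countP j ≤ F.card := by
    have hsub : (edgesOf L₁ ++ edgesOf L₂).Sublist (edgesOf (L₁ ++ x :: y :: L₂)) :=
      (((List.Sublist.refl _).append ((edgesOf_tail_sublist y L₂).trans
        (edgesOf_tail_sublist x _))).trans (edgesOf_sublist_append L₁ (x :: y :: L₂)))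
    have hnd := (hsub.nodup (nodup_edgesOf hn)).filter fun e => decide (e ∈ F)
    rw [← List.countP_append, List.countP_eq_length_filter, ← List.toFinset_card_of_nodup hnd]
    exact Finset.card_le_card fun e he => by simpa [j] using (List.mem_filter.1 (List.mem_toFinset.1 he)).2
  have hsplit : L₁.length + 1 + (edgesOf L₁).countP j < L₁.countP f + L₁.countP g ∨
      L₂.length + 1 + (edgesOf L₂).countP j < L₂.countP f + L₂.countP g := by
    simp only [f, g]; omega
  have hxy1 : gaps H [x, y] = 1 := by simp [gaps, hxyH]
  rcases hsplit with hsplit | hsplit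
  · obtain ⟨a, p, q, b, rfl, hpq, hp, hq⟩ := exists_cross_forced f g j L₁ hsplit
    simp only [f, g, j, decide_eq_true_eq, decide_eq_false_iff_not] at hpq hp hq
    have hp' : H.Adj p x := .inl hp.symm
    have hq' : H.Adj q y := .inl hq.symm
    have key := hmin (a ++ p :: x :: (b.reverse ++ q :: y :: L₂)) ?_
    · have e0 : gaps H ((a ++ p :: q :: b) ++ x :: y :: L₂) =
          gaps H (a ++ [p]) + gaps H [p, q] + gaps H (q :: (b ++ [x])) + gaps H [x, y] +
            gaps H (y :: L₂) := by
        rw [gaps_append, List.append_assoc]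
        simp only [List.cons_append]
        rw [gaps_append]
      have e1 : gaps H (a ++ p :: x :: (b.reverse ++ q :: y :: L₂)) =
          gaps H (a ++ [p]) + gaps H [p, x] + (gaps H (q :: (b ++ [x])) + gaps H [q, y] +
            gaps H (y :: L₂)) := by
        rw [gaps_append, ← List.cons_append, gaps_append, ← gaps_reverse (q :: (b ++ [x]))]
        simp
      rw [e0, e1, hxy1, show gaps H [p, x] = 0 by simp [gaps, hp'],
        show gaps H [q, y] = 0 by simp [gaps, hq']] at key
      omega
    · have hperm : (a ++ p :: x :: (b.reverse ++ q :: y :: L₂)).Perm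
          ((a ++ p :: q :: b) ++ x :: y :: L₂) := by
        rw [List.perm_iff_count]
        intro z
        simp [List.count_cons]
        ring
      refine ⟨hperm.nodup_iff.2 hn, ?_, ?_, fun z => hperm.mem_iff.trans (hmem z), fun e he => ?_⟩
      · cases a <;> simpa using hh
      · simpa [List.getLast?_append, List.getLast?_cons] using hlast
      · have h0 := hF e he
        rw [edgesOf_append] at h0
        have hold : edgesOf ((a ++ p :: q :: b) ++ [x]) =
            edgesOf (a ++ [p]) ++ s(p, q) :: edgesOf (q :: (b ++ [x])) := by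
          rw [List.append_assoc, List.cons_append, List.cons_append, edgesOf_append]
        rw [hold] at h0
        have hrev : edgesOf (x :: (b.reverse ++ [q])) = (edgesOf (q :: (b ++ [x]))).reverse := by
          rw [← edgesOf_reverse]; simp
        rw [edgesOf_append, ← List.cons_append, edgesOf_append, List.cons_append, hrev]
        simp only [List.mem_append, List.mem_cons, List.mem_reverse] at h0 ⊢
        rcases h0 with (h1 | rfl | h1) | rfl | h1
        exacts [.inl h1, absurd he hpq, .inr (.inr (.inl h1)), absurd he hxyF,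
          .inr (.inr (.inr (.inr h1)))]
  · obtain ⟨a, p, q, b, rfl, hpq, hp, hq⟩ := exists_cross_forced f g j L₂ hsplit
    simp only [f, g, j, decide_eq_true_eq, decide_eq_false_iff_not] at hpq hp hq
    have hp' : H.Adj x p := .inl hp
    have hq' : H.Adj y q := .inl hq
    have key := hmin (L₁ ++ x :: p :: (a.reverse ++ y :: q :: b)) ?_
    · have e0 : gaps H (L₁ ++ x :: y :: (a ++ p :: q :: b)) =
          gaps H (L₁ ++ [x]) + gaps H [x, y] + (gaps H (y :: (a ++ [p])) + gaps H [p, q] +
            gaps H (q :: b)) := by
        rw [gaps_append, ← List.cons_append, gaps_append]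
        simp
      have e1 : gaps H (L₁ ++ x :: p :: (a.reverse ++ y :: q :: b)) =
          gaps H (L₁ ++ [x]) + gaps H [x, p] + (gaps H (y :: (a ++ [p])) + gaps H [y, q] +
            gaps H (q :: b)) := by
        rw [gaps_append, ← List.cons_append, gaps_append, ← gaps_reverse (y :: (a ++ [p]))]
        simp
      rw [e0, e1, hxy1, show gaps H [x, p] = 0 by simp [gaps, hp'],
        show gaps H [y, q] = 0 by simp [gaps, hq']] at key
      omega
    · have hperm : (L₁ ++ x :: p :: (a.reverse ++ y :: q :: b)).Perm
          (L₁ ++ x :: y :: (a ++ p :: q :: b)) := by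
        rw [List.perm_iff_count]
        intro z
        simp [List.count_cons]
        ring
      refine ⟨hperm.nodup_iff.2 hn, ?_, ?_, fun z => hperm.mem_iff.trans (hmem z), fun e he => ?_⟩
      · cases L₁ <;> simpa using hh
      · simpa [List.getLast?_append, List.getLast?_cons] using hlast
      · have h0 := hF e he
        rw [edgesOf_append, ← List.cons_append, edgesOf_append, List.cons_append] at h0
        have hrev : edgesOf (p :: (a.reverse ++ [y])) = (edgesOf (y :: (a ++ [p]))).reverse := by
          rw [← edgesOf_reverse]; simp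
        rw [edgesOf_append, ← List.cons_append, edgesOf_append, List.cons_append, hrev]
        simp only [List.mem_append, List.mem_cons, List.mem_reverse] at h0 ⊢
        rcases h0 with h1 | rfl | h1 | rfl | h1
        exacts [.inl h1, absurd he hxyF, .inr (.inr (.inl h1)), absurd he hpq,
          .inr (.inr (.inr (.inr h1)))]

end Vale.Agent.P048C
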