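import Vale.Agent.P048C.Posa
import Vale.Agent.P048C.Pancon

/-!
# Spanning cycles through a prescribed linear forest

The cyclic form of Pósa's theorem: pieces are lists without repetitions inside `s`, pairwise
disjoint; their steps need not be edges.
-/

namespace Vale.Agent.P048C

open Finset

variable {V : Type*} {G : SimpleGraph V} {s : Finset V}

theorem edgesOf_subset_of_infix {P l : List V} (h : P <:+: l) :
    ∀ e ∈ edgesOf P, e ∈ edgesOf l := by
  obtain ⟨A, B, rfl⟩ := h
  intro e he
  exact (edgesOf_sublist_append (A ++ P) B).subset (List.mem_append_left _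
    ((edgesOf_sublist_append A P).subset (List.mem_append_right _ he)))

theorem pair_infix_of_mem_edgesOf {a b : V} : ∀ {l : List V}, s(a, b) ∈ edgesOf l →
    [a, b] <:+: l ∨ [b, a] <:+: l
  | [], h => by simp [edgesOf] at h
  | [_], h => by simp [edgesOf] at h
  | x :: y :: l, h => by
    rcases List.mem_cons.1 h with h | h
    · rcases Sym2.eq_iff.1 h with ⟨rfl, rfl⟩ | ⟨rfl, rfl⟩
      · exact .inl ⟨[], l, rfl⟩
      · exact .inr ⟨[], l, rfl⟩
    · exact (pair_infix_of_mem_edgesOf h).imp List.infix_cons List.infix_cons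

theorem infix_extend {a b c : V} {P l : List V} (hn : l.Nodup) (h : (b :: c :: P) <:+: l)
    (he : s(a, b) ∈ edgesOf l) (hac : a ≠ c) : (a :: b :: c :: P) <:+: l := by
  obtain ⟨A, B, rfl⟩ := h
  rw [List.append_assoc, List.cons_append, List.cons_append] at he hn
  rw [edgesOf_append] at he
  obtain ⟨-, hn2, hdis⟩ := List.nodup_append.1 hn
  rcases List.mem_append.1 he with he | he
  · rcases List.eq_nil_or_concat A with rfl | ⟨A', w, rfl⟩
    · simp [edgesOf] at he
    · simp only [List.concat_eq_append] at he hdis ⊢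
      rw [List.append_assoc, List.singleton_append, edgesOf_append] at he
      rcases List.mem_append.1 he with he | he
      · have hb := mem_of_mem_edgesOf he b (Sym2.mem_mk_right a b)
        exact absurd rfl (hdis b hb b List.mem_cons_self)
      · have he' : s(a, b) = s(w, b) := by simpa [edgesOf] using he
        rcases Sym2.eq_iff.1 he' with ⟨rfl, -⟩ | ⟨-, hbw⟩
        · exact ⟨A', B, by simp⟩
        · exact absurd hbw.symm (hdis w (by simp) b List.mem_cons_self)
  · rcases List.mem_cons.1 he with he | he
    · rcases Sym2.eq_iff.1 he with ⟨rfl, e⟩ | ⟨e, -⟩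
      · exact absurd e.symm (fun e' => (List.nodup_cons.1 hn2).1 (e' ▸ List.mem_cons_self))
      · exact absurd e hac
    · exact absurd (mem_of_mem_edgesOf he b (Sym2.mem_mk_right a b)) (List.nodup_cons.1 hn2).1

/-- A list whose steps are steps of `l` occurs in `l`, forwards or backwards. -/
theorem infix_of_edgesOf {l : List V} (hn : l.Nodup) : ∀ {P : List V}, P.Nodup →
    (∀ z ∈ P, z ∈ l) → (∀ e ∈ edgesOf P, e ∈ edgesOf l) → P <:+: l ∨ P.reverse <:+: l
  | [], _, _, _ => .inl List.nil_infix
  | [a], _, hm, _ => by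
    obtain ⟨A, B, rfl⟩ := List.append_of_mem (hm a List.mem_cons_self)
    exact .inl ⟨A, B, by simp⟩
  | [a, b], _, _, he => by simpa using pair_infix_of_mem_edgesOf (he _ (by simp [edgesOf]))
  | a :: b :: c :: P, hP, hm, he => by
    have hab : s(a, b) ∈ edgesOf l := he _ (by simp [edgesOf])
    have hac : a ≠ c := fun e => by simp [e] at hP
    rcases infix_of_edgesOf hn (P := b :: c :: P) (List.nodup_cons.1 hP).2
      (fun z hz => hm z (List.mem_cons_of_mem _ hz))
      (fun e h => he e (List.mem_cons_of_mem _ h)) with h | h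
    · exact .inl (infix_extend hn h hab hac)
    · refine .inr ?_
      have h' : (b :: c :: P) <:+: l.reverse := by
        rw [← List.reverse_infix]; simpa using h
      have := infix_extend (List.nodup_reverse.2 hn) h' (by simpa [edgesOf_reverse] using hab) hac
      rw [← List.reverse_infix] at this
      simpa using this

theorem prefix_of_edgesOf {l P : List V} {b : V} (hn : l.Nodup) (hh : l.head? = some b)
    (hP : (b :: P).Nodup) (hm : ∀ z ∈ b :: P, z ∈ l)
    (he : ∀ e ∈ edgesOf (b :: P), e ∈ edgesOf l) : (b :: P) <+: l := by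
  rcases infix_of_edgesOf hn hP hm he with ⟨A, B, e⟩ | ⟨A, B, e⟩
  · cases A with
    | nil => exact ⟨B, e⟩
    | cons x A =>
      subst e
      obtain rfl : x = b := by simpa using hh
      simp at hn
  · subst e
    cases A with
    | cons x A =>
      obtain rfl : x = b := by simpa using hh
      simp at hn
    | nil =>
      rcases List.eq_nil_or_concat P with rfl | ⟨P', w, rfl⟩
      · exact ⟨B, by simp⟩
      · simp at hh hn
        simp_all

/-- The ways an ordering may be closed up: edges, or steps of the pieces. -/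
def Step (G : SimpleGraph V) (pieces : List (List V)) (a b : V) : Prop :=
  G.Adj a b ∨ s(a, b) ∈ pieces.flatMap edgesOf

/-- **Pósa, cyclic form**: with inner degrees `d` where `|s| + k ≤ 2 d`, `k` the number of steps
of the pieces, there is a cyclic ordering of `s` in which every piece occurs contiguously and all
other steps are edges. -/
theorem exists_cycle_through [DecidableEq V] {pieces : List (List V)}
    (hne : s.Nonempty) (hpn : pieces.flatten.Nodup) (hps : ∀ z ∈ pieces.flatten, z ∈ s)
    (hdeg : ∀ x ∈ s, s.card + (pieces.flatMap edgesOf).length ≤ 2 * degIn G s x)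
    (hdeg2 : ∀ x ∈ s, 2 ≤ degIn G s x) :
    ∃ C : List V, C.Nodup ∧ (∀ z, z ∈ C ↔ z ∈ s) ∧
      C.IsChain (Step G pieces) ∧
      (∀ a ∈ C.head?, ∀ z ∈ C.getLast?, Step G pieces z a) ∧
      ∀ P ∈ pieces, P <:+: C ++ C ∨ P.reverse <:+: C ++ C := by
  classical
  have hpmem : ∀ P ∈ pieces, P.Nodup ∧ ∀ z ∈ P, z ∈ s := fun P hP =>
    ⟨(List.nodup_flatten.1 hpn).1 P hP, fun z hz => hps z (List.mem_flatten.2 ⟨P, hP, hz⟩)⟩
  by_cases h2 : ∀ P ∈ pieces, P.length ≤ 1
  · obtain ⟨x₀, hx₀, hmin⟩ := Finset.exists_min_image s (degIn G s) hne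
    obtain ⟨C, hC, hall⟩ := exists_spanning_cycle (G := G) (k := degIn G s x₀) (hdeg2 x₀ hx₀)
      hmin (by have := hdeg x₀ hx₀; omega) hne
    refine ⟨C, hC.nodup, fun z => ⟨hC.mem z, hall z⟩, hC.chain.imp fun _ _ h => .inl h,
      fun a ha z hz => .inl (hC.closed a ha z hz), fun P hP => .inl ?_⟩
    have hlen := h2 P hP
    match P, hlen with
    | [], _ => exact List.nil_infix
    | [a], _ =>
      obtain ⟨A, B, e⟩ := List.append_of_mem (hall a ((hpmem _ hP).2 a List.mem_cons_self))
      exact List.IsInfix.trans ⟨A, B, by simp [e]⟩ (List.prefix_append C C).isInfix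
  push Not at h2
  obtain ⟨P₀, hP₀, hlen⟩ := h2
  obtain ⟨P₁, a, b, P₂, rfl⟩ : ∃ P₁ a b P₂, P₀ = P₁ ++ a :: b :: P₂ :=
    match P₀, hlen with
    | a :: b :: P₂, _ => ⟨[], a, b, P₂, rfl⟩
  obtain ⟨ps₁, ps₂, rfl⟩ := List.append_of_mem hP₀
  let others := ps₁ ++ ps₂
  let used := (b :: P₂) ++ others.flatten ++ P₁ ++ [a]
  let rest := (s \ used.toFinset).toList
  let l₀ := (b :: P₂) ++ (others.flatten ++ rest) ++ (P₁ ++ [a])
  have hperm : used.Perm (ps₁ ++ (P₁ ++ a :: b :: P₂) :: ps₂).flatten := by
    rw [List.perm_iff_count]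
    intro z
    simp [used, others, List.count_cons]
    ring
  have hused : used.Nodup := hperm.nodup_iff.2 hpn
  have hperm₀ : l₀.Perm (used ++ rest) := by
    rw [List.perm_iff_count]
    intro z
    simp [l₀, used, List.count_cons]
    ring
  have hn₀ : l₀.Nodup := by
    refine hperm₀.nodup_iff.2 (List.nodup_append.2 ⟨hused, Finset.nodup_toList _, ?_⟩)
    intro u hu v hv huv
    subst huv
    exact (Finset.mem_sdiff.1 (Finset.mem_toList.1 hv)).2 (List.mem_toFinset.2 hu)
  have hm₀ : ∀ z, z ∈ l₀ ↔ z ∈ s := by
    intro z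
    rw [hperm₀.mem_iff, List.mem_append, Finset.mem_toList, Finset.mem_sdiff, List.mem_toFinset]
    have := hps z
    rw [← hperm.mem_iff] at this
    tauto
  let allE := edgesOf (b :: P₂) ++ others.flatMap edgesOf ++ edgesOf (P₁ ++ [a])
  let F := allE.toFinset
  have hFcard : F.card + 1 ≤
      ((ps₁ ++ (P₁ ++ a :: b :: P₂) :: ps₂).flatMap edgesOf).length := by
    have h1 : F.card ≤ allE.length := List.toFinset_card_le _
    simp only [allE, others, List.length_append, List.flatMap_append, List.flatMap_cons,
      edgesOf_append, List.length_cons] at h1 ⊢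
    omega
  have hFstep : ∀ e ∈ F, e ∈ (ps₁ ++ (P₁ ++ a :: b :: P₂) :: ps₂).flatMap edgesOf := by
    intro e he
    simp only [F, allE, others, List.mem_toFinset, List.mem_append, List.flatMap_append] at he
    simp only [List.flatMap_append, List.flatMap_cons, edgesOf_append, List.mem_append,
      List.mem_cons]
    tauto
  have hF₀ : ∀ e ∈ F, e ∈ edgesOf l₀ := by
    intro e he
    simp only [F, allE, List.mem_toFinset, List.mem_append, List.mem_flatMap] at he
    rcases he with (he | ⟨P, hP, he⟩) | he
    · exact edgesOf_subset_of_infix ⟨[], others.flatten ++ rest ++ (P₁ ++ [a]), by simp [l₀]⟩ e he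
    · refine edgesOf_subset_of_infix ?_ e he
      obtain ⟨A, B, e'⟩ := List.append_of_mem hP
      exact ⟨(b :: P₂) ++ A.flatten, B.flatten ++ rest ++ (P₁ ++ [a]), by simp [l₀, e']⟩
    · exact edgesOf_subset_of_infix ⟨(b :: P₂) ++ (others.flatten ++ rest), [], by simp [l₀]⟩ e he
  obtain ⟨l, hn, hh, hlast, hmem, hF, hc⟩ := hamPath_through (G := G) F
    (fun x hx y hy _ _ => by have := hdeg x hx; have := hdeg y hy; omega) hn₀
    (show l₀.head? = some b from rfl) (by
      show ((b :: P₂) ++ (others.flatten ++ rest) ++ (P₁ ++ [a])).getLast? = some a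
      rw [← List.append_assoc, List.getLast?_concat]) hm₀ hF₀
  refine ⟨l, hn, hmem, hc.imp fun x y h => h.imp id (hFstep _), ?_, ?_⟩
  · intro x hx z hz
    rw [hh] at hx; rw [hlast] at hz
    obtain rfl := Option.mem_some_iff.1 hx
    obtain rfl := Option.mem_some_iff.1 hz
    refine .inr ?_
    simp only [List.flatMap_append, List.flatMap_cons, edgesOf_append, List.mem_append,
      List.mem_cons]
    exact .inr (.inl (.inr (.inl trivial)))
  · intro P hP
    obtain ⟨hPn, hPs⟩ := hpmem P hP
    by_cases hPo : P ∈ others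
    · rcases infix_of_edgesOf hn hPn (fun z hz => (hmem z).2 (hPs z hz)) (fun e he => hF e (by
        simp only [F, allE, List.mem_toFinset, List.mem_append, List.mem_flatMap]
        exact .inl (.inr ⟨P, hPo, he⟩))) with h | h
      · exact .inl (h.trans (List.prefix_append l l).isInfix)
      · exact .inr (h.trans (List.prefix_append l l).isInfix)
    · have hP' : P = P₁ ++ a :: b :: P₂ := by
        simp only [others, List.mem_append, List.mem_cons] at hP hPo
        tauto
      subst hP'
      have hab : (P₁ ++ [a]).Nodup ∧ (b :: P₂).Nodup := by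
        rw [List.append_cons] at hPn
        exact ⟨hPn.of_append_left, hPn.of_append_right⟩
      obtain ⟨X, hX⟩ := prefix_of_edgesOf hn hh hab.2
        (fun z hz => (hmem z).2 (hPs z (by simp only [List.mem_append]; exact .inr (List.mem_cons_of_mem _ hz))))
        (fun e he => hF e (by simp [F, allE, he]))
      obtain ⟨Y, hY⟩ := prefix_of_edgesOf (List.nodup_reverse.2 hn)
        (by rw [List.head?_reverse]; exact hlast)
        (show (a :: P₁.reverse).Nodup by simpa using List.nodup_reverse.2 hab.1)
        (fun z hz => by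
          refine List.mem_reverse.2 ((hmem z).2 (hPs z ?_))
          simp only [List.mem_cons, List.mem_reverse, List.mem_append] at hz ⊢
          tauto)
        (fun e he => by
          have he' : e ∈ edgesOf (P₁ ++ [a]).reverse := by simpa using he
          rw [edgesOf_reverse, List.mem_reverse] at he' ⊢
          exact hF e (by simp [F, allE, he']))
      have hY' : l = Y.reverse ++ (P₁ ++ [a]) := by
        have := congrArg List.reverse hY
        simpa using this.symm
      refine .inl ⟨Y.reverse, X, ?_⟩
      conv_rhs => arg 1; rw [hY']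
      rw [← hX]
      simp

end Vale.Agent.P048C
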