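import Vale.Agent.P048C.Sys
import Vale.Agent.P048C.Main

/-!
# Roots of a blob

A system of ears with fewest spare interior gives a set `W` around the blob and one outside
vertex for each piece, attached to an end of that piece; these are far apart outside `W`.
-/

namespace Vale.Agent.P048C

open Finset

variable {V : Type*} {G : SimpleGraph V} {U B : Finset V} {d a : ℕ}
  {pieces : List (List V)} {ear : Sym2 V → List V}

/-- The inner vertices of all ears. -/
def innerSet [DecidableEq V] (pieces : List (List V)) (ear : Sym2 V → List V) : Finset V :=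
  (pieces.flatMap edgesOf).toFinset.biUnion fun e => (ear e).toFinset

theorem mem_innerSet [DecidableEq V] {z : V} :
    z ∈ innerSet pieces ear ↔ ∃ e ∈ pieces.flatMap edgesOf, z ∈ ear e := by
  simp only [innerSet, mem_biUnion, List.mem_toFinset]

theorem card_innerSet_le [DecidableEq V] (h : pieces.flatten.Nodup) :
    (innerSet pieces ear).card ≤ sigma pieces ear := by
  refine card_biUnion_le.trans ?_
  rw [sigma, ← List.sum_toFinset _ (steps_nodup h)]
  exact sum_le_sum fun e _ => List.toFinset_card_le _

theorem EarSys.ne_of_step (h : EarSys G U B pieces ear) {u v : V}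
    (he : s(u, v) ∈ pieces.flatMap edgesOf) : u ≠ v ∧ u ∈ B ∧ v ∈ B := by
  obtain ⟨p, hp, hep⟩ := List.mem_flatMap.1 he
  have hpn : p.Nodup := (List.nodup_flatten.1 h.nodup).1 p hp
  have hB : ∀ {w}, w ∈ p → w ∈ B := fun hw => (h.cover _).1 (List.mem_flatten.2 ⟨p, hp, hw⟩)
  rcases pair_infix_of_mem_edgesOf hep with hi | hi
  all_goals
    have := hi.sublist.nodup hpn
    have h1 := hi.subset (List.mem_cons_self)
    have h2 := hi.subset (List.mem_cons_of_mem _ List.mem_cons_self)
    simp at this
    exact ⟨by first | exact this | exact Ne.symm this, by first | exact hB h1 | exact hB h2,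
      by first | exact hB h2 | exact hB h1⟩

/-- `x :: S` is a path from `x` in the blob, through inner vertices, to `z`. -/
structure Leg (G : SimpleGraph V) (B I : Finset V) (z x : V) (S : List V) : Prop where
  mem : x ∈ B
  sub : ∀ w ∈ S, w ∈ I
  chain : (x :: S).IsChain G.Adj
  last : (x :: S).getLast? = some z
  nodup : S.Nodup

theorem Leg.self [DecidableEq V] {I : Finset V} {z : V} (hz : z ∈ B) : Leg G B I z z [] :=
  ⟨hz, by simp, List.isChain_singleton z, rfl, List.nodup_nil⟩

/-- The two legs of an inner vertex. -/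
theorem EarSys.legs [DecidableEq V] (h : EarSys G U B pieces ear) {u v : V}
    (he : s(u, v) ∈ pieces.flatMap edgesOf)
    (hc : (u :: (ear s(u, v) ++ [v])).IsChain G.Adj) {A C : List V} {z : V}
    (hs : ear s(u, v) = A ++ z :: C) :
    Leg G B (innerSet pieces ear) z u (A ++ [z]) ∧
      Leg G B (innerSet pieces ear) z v (C.reverse ++ [z]) := by
  have hn := h.ear_nodup _ he
  obtain ⟨-, hu, hv⟩ := h.ne_of_step he
  have hI : ∀ w ∈ A ++ z :: C, w ∈ innerSet pieces ear := fun w hw =>
    mem_innerSet.2 ⟨_, he, hs ▸ hw⟩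
  rw [hs] at hc hn
  refine ⟨⟨hu, fun w hw => hI w ?_, ?_, ?_, ?_⟩, ⟨hv, fun w hw => hI w ?_, ?_, ?_, ?_⟩⟩
  · simp only [List.mem_append, List.mem_cons] at hw ⊢; tauto
  · exact (List.isChain_append.1 (show ((u :: (A ++ [z])) ++ (C ++ [v])).IsChain G.Adj by simpa using hc)).1
  · rw [← List.cons_append, List.getLast?_concat]
  · exact hn.sublist (by simp)
  · simp only [List.mem_append, List.mem_cons, List.mem_reverse] at hw ⊢; tauto
  · have h1 : (z :: (C ++ [v])).IsChain G.Adj := hc.suffix ⟨u :: A, by simp⟩
    have h2 : (z :: (C ++ [v])).reverse.IsChain G.Adj := by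
      rw [List.isChain_reverse]; exact h1.imp fun _ _ e => e.symm
    simpa using h2
  · rw [← List.cons_append, List.getLast?_concat]
  · have := hn.of_append_right
    simp only [List.nodup_cons] at this
    rw [List.nodup_append]
    refine ⟨List.nodup_reverse.2 this.2, List.nodup_singleton z, ?_⟩
    intro w hw w' hw' e
    simp only [List.mem_singleton] at hw'
    subst e hw'
    exact this.1 (List.mem_reverse.1 hw)

/-- A leg avoiding a given end, inside one ear. -/
theorem EarSys.leg_avoid [DecidableEq V] (h : EarSys G U B pieces ear) {e : Sym2 V}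
    (he : e ∈ pieces.flatMap edgesOf) {z : V} (hz : z ∈ ear e) (y : V) :
    ∃ x S, x ≠ y ∧ Leg G B (innerSet pieces ear) z x S ∧ ∀ w ∈ S, w ∈ ear e := by
  obtain ⟨u, v, rfl, hc⟩ := h.ear_chain e he
  obtain ⟨A, C, hs⟩ := List.append_of_mem hz
  obtain ⟨h1, h2⟩ := h.legs he hc hs
  by_cases huy : u = y
  · exact ⟨v, _, fun e => (h.ne_of_step he).1 (huy.trans e.symm), h2, fun w hw => by
      rw [hs]; simp only [List.mem_append, List.mem_cons,
        List.mem_reverse] at hw ⊢; tauto⟩
  · exact ⟨u, _, huy, h1, fun w hw => by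
      rw [hs]; simp only [List.mem_append, List.mem_cons] at hw ⊢; tauto⟩

/-- Two members of `W` have disjoint legs to different members of the blob. -/
theorem EarSys.two_legs [DecidableEq V] (h : EarSys G U B pieces ear) {z₁ z₂ : V}
    (h₁ : z₁ ∈ B ∪ innerSet pieces ear) (h₂ : z₂ ∈ B ∪ innerSet pieces ear) (hne : z₁ ≠ z₂) :
    ∃ x₁ S₁ x₂ S₂, x₁ ≠ x₂ ∧ Leg G B (innerSet pieces ear) z₁ x₁ S₁ ∧
      Leg G B (innerSet pieces ear) z₂ x₂ S₂ ∧ ∀ w ∈ S₁, w ∉ S₂ := by
  by_cases hB₁ : z₁ ∈ B <;> by_cases hB₂ : z₂ ∈ B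
  · exact ⟨z₁, [], z₂, [], hne, Leg.self hB₁, Leg.self hB₂, by simp⟩
  · obtain ⟨e, he, hz⟩ := mem_innerSet.1 ((mem_union.1 h₂).resolve_left hB₂)
    obtain ⟨x, S, hx, hl, -⟩ := h.leg_avoid he hz z₁
    exact ⟨z₁, [], x, S, hx.symm, Leg.self hB₁, hl, by simp⟩
  · obtain ⟨e, he, hz⟩ := mem_innerSet.1 ((mem_union.1 h₁).resolve_left hB₁)
    obtain ⟨x, S, hx, hl, -⟩ := h.leg_avoid he hz z₂
    exact ⟨x, S, z₂, [], hx, hl, Leg.self hB₂, by simp⟩
  obtain ⟨e, he, hz⟩ := mem_innerSet.1 ((mem_union.1 h₁).resolve_left hB₁)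
  obtain ⟨e', he', hz'⟩ := mem_innerSet.1 ((mem_union.1 h₂).resolve_left hB₂)
  rcases eq_or_ne e e' with rfl | hee
  · obtain ⟨u, v, rfl, hc⟩ := h.ear_chain e he
    have huv := (h.ne_of_step he).1
    have hn := h.ear_nodup _ he
    obtain ⟨A, C, hs⟩ := List.append_of_mem hz
    rw [hs] at hz' hn
    obtain ⟨hnA, hnC, hdis⟩ := List.nodup_append.1 hn
    obtain ⟨hzC, hnC'⟩ := List.nodup_cons.1 hnC
    rcases List.mem_append.1 hz' with hA | hC
    · obtain ⟨A₁, A₂, rfl⟩ := List.append_of_mem hA
      have hs' : ear s(u, v) = A₁ ++ z₂ :: (A₂ ++ z₁ :: C) := by simp [hs]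
      refine ⟨v, _, u, _, huv.symm, (h.legs he hc hs).2, (h.legs he hc hs').1, fun w hw hw' => ?_⟩
      have hwA : w ∈ A₁ ++ z₂ :: A₂ := by
        simp only [List.mem_append, List.mem_cons] at hw' ⊢; tauto
      rcases List.mem_append.1 hw with hw | hw
      · exact hdis w hwA w (List.mem_cons_of_mem _ (List.mem_reverse.1 hw)) rfl
      · exact hdis w hwA z₁ List.mem_cons_self (List.mem_singleton.1 hw)
    · rcases List.mem_cons.1 hC with hC | hC
      · exact absurd hC.symm hne
      obtain ⟨C₁, C₂, rfl⟩ := List.append_of_mem hC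
      have hs' : ear s(u, v) = (A ++ z₁ :: C₁) ++ z₂ :: C₂ := by simp [hs]
      refine ⟨u, _, v, _, huv, (h.legs he hc hs).1, (h.legs he hc hs').2, fun w hw hw' => ?_⟩
      have hwC : w ∈ C₁ ++ z₂ :: C₂ := by
        simp only [List.mem_append, List.mem_cons, List.mem_reverse] at hw' ⊢
        tauto
      rcases List.mem_append.1 hw with hw | hw
      · exact hdis w hw w (List.mem_cons_of_mem _ hwC) rfl
      · exact hzC ((List.mem_singleton.1 hw) ▸ hwC)
  · obtain ⟨x, S, -, hl, hS⟩ := h.leg_avoid he hz z₂
    obtain ⟨x', S', hx', hl', hS'⟩ := h.leg_avoid he' hz' x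
    exact ⟨x, S, x', S', hx'.symm, hl, hl',
      fun w hw hw' => h.ear_disj e he e' he' hee w (hS w hw) (hS' w hw')⟩

theorem pieces_nodup (hn : pieces.flatten.Nodup) (hne : ∀ p ∈ pieces, p ≠ []) : pieces.Nodup := by
  induction pieces with
  | nil => exact List.nodup_nil
  | cons p ps ih =>
    rw [List.flatten_cons, List.nodup_append] at hn
    refine List.nodup_cons.2 ⟨fun hp => ?_, ih hn.2.1 fun q hq => hne q (List.mem_cons_of_mem _ hq)⟩
    obtain ⟨c, t, e⟩ := List.exists_cons_of_ne_nil (hne p List.mem_cons_self)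
    exact hn.2.2 c (e ▸ List.mem_cons_self) c
      (List.mem_flatten.2 ⟨p, hp, e ▸ List.mem_cons_self⟩) rfl

/-- The same pieces in another order or direction. -/
theorem EarSys.rearrange (h : EarSys G U B pieces ear) {pieces' : List (List V)}
    (hf : pieces'.flatten.Perm pieces.flatten)
    (hs : (pieces'.flatMap edgesOf).Perm (pieces.flatMap edgesOf)) (hne : ∀ p ∈ pieces', p ≠ []) :
    EarSys G U B pieces' ear ∧ sigma pieces' ear = sigma pieces ear :=
  ⟨⟨hf.nodup_iff.2 h.nodup, fun z => hf.mem_iff.trans (h.cover z), hne,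
    fun e he => h.ear_ne e (hs.mem_iff.1 he), fun e he => h.ear_nodup e (hs.mem_iff.1 he),
    fun e he => h.ear_mem e (hs.mem_iff.1 he), fun e he => h.ear_chain e (hs.mem_iff.1 he),
    fun e he e' he' => h.ear_disj e (hs.mem_iff.1 he) e' (hs.mem_iff.1 he')⟩,
    (hs.map fun e => (ear e).length).sum_eq⟩

/-- The first or the last member of a piece. -/
def IsEnd (p : List V) (x : V) : Prop := p.head? = some x ∨ p.getLast? = some x

/-- A piece can be turned so that a given end comes first. -/
theorem IsEnd.turn {p : List V} {x : V} (hx : IsEnd p x) :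
    ∃ P : List V, P.head? = some x ∧ P.Perm p ∧ (edgesOf P).Perm (edgesOf p) := by
  rcases hx with hx | hx
  · exact ⟨p, hx, List.Perm.refl _, List.Perm.refl _⟩
  · exact ⟨p.reverse, by rw [List.head?_reverse]; exact hx, List.reverse_perm p,
      by rw [edgesOf_reverse]; exact List.reverse_perm _⟩

theorem steps_join {p p' : List V} {rest : List (List V)} (hperm : pieces.Perm (p :: p' :: rest))
    {x x' : V} (hx : p.head? = some x) (hx' : p'.head? = some x') :
    ∀ e ∈ ((p.reverse ++ p') :: rest).flatMap edgesOf,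
      e = s(x, x') ∨ e ∈ pieces.flatMap edgesOf := by
  obtain ⟨c, t, rfl⟩ := List.exists_cons_of_ne_nil (l := p) (by rintro rfl; simp at hx)
  obtain ⟨c', t', rfl⟩ := List.exists_cons_of_ne_nil (l := p') (by rintro rfl; simp at hx')
  obtain rfl : c = x := by simpa using hx
  obtain rfl : c' = x' := by simpa using hx'
  intro e he
  rw [List.flatMap_cons, List.reverse_cons, List.append_assoc, List.singleton_append,
    edgesOf_append, ← List.reverse_cons, edgesOf_reverse] at he
  rw [(hperm.flatMap_right edgesOf).mem_iff]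
  simp only [List.mem_append, List.mem_cons, List.mem_reverse, List.flatMap_cons] at he ⊢
  tauto

/-- More lists than values: two of them share a value. -/
theorem exists_two_sharing {α β : Type*} [DecidableEq β] : ∀ (J : List α) (f : α → Finset β)
    (C : Finset β), (∀ p ∈ J, ∃ z ∈ C, z ∈ f p) → C.card < J.length →
    ∃ p p' J' z, J.Perm (p :: p' :: J') ∧ z ∈ C ∧ z ∈ f p ∧ z ∈ f p' := by
  intro J
  induction J with
  | nil => intro f C _ h; simp at h
  | cons q J ih =>
    intro f C hf hC
    obtain ⟨z, hzC, hz⟩ := hf q List.mem_cons_self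
    by_cases hex : ∃ p' ∈ J, z ∈ f p'
    · obtain ⟨p', hp', hzp⟩ := hex
      classical
      exact ⟨q, p', J.erase p', z, (List.perm_cons_erase hp').cons q, hzC, hz, hzp⟩
    · push Not at hex
      obtain ⟨p, p', J', z', hperm, hz'C, h1, h2⟩ := ih f (C.erase z)
        (fun p hp => by
          obtain ⟨w, hwC, hw⟩ := hf p (List.mem_cons_of_mem _ hp)
          exact ⟨w, mem_erase.2 ⟨fun e => hex p hp (e ▸ hw), hwC⟩, hw⟩)
        (by
          rw [card_erase_of_mem hzC]
          have := card_pos.2 ⟨z, hzC⟩
          simp only [List.length_cons] at hC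
          omega)
      exact ⟨p, p', q :: J', z', (hperm.cons q).trans
        ((List.Perm.swap p q _).trans ((List.Perm.swap p' q J').cons p)),
        mem_of_mem_erase hz'C, h1, h2⟩

open Classical in
/-- Fewer outside vertices than pieces whose ends all see `r` of them: `r` more inner vertices. -/
theorem EarSys.join_short [DecidableEq V] {q : ℕ} (hq : 2 ≤ q) : ∀ (r : ℕ) (pieces J K : List (List V))
    (ear : Sym2 V → List V) (C : Finset V), EarSys G U B pieces ear → pieces.Perm (J ++ K) →
    (∀ e ∈ pieces.flatMap edgesOf, (ear e).length < q) → C.card < J.length →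
    (∀ z ∈ C, z ∈ U ∧ z ∉ B ∪ innerSet pieces ear) →
    (∀ p ∈ J, ∀ x, IsEnd p x → r ≤ (C.filter fun z => G.Adj x z).card) →
    ∃ pieces' ear', EarSys G U B pieces' ear' ∧
      (∀ e ∈ pieces'.flatMap edgesOf, (ear' e).length < q) ∧
      sigma pieces' ear' = sigma pieces ear + r := by
  intro r
  induction r with
  | zero => exact fun ps J K ear C h _ hl _ _ _ => ⟨ps, ear, h, hl, rfl⟩
  | succ r ih =>
    intro ps J K ear C h hJK hl hC hCm hdeg
    let f : List V → Finset V := fun p =>
      p.head?.elim ∅ fun x => C.filter fun z => G.Adj x z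
    have hhead : ∀ p ∈ J, ∃ x, p.head? = some x := fun p hp => by
      obtain ⟨c, t, rfl⟩ := List.exists_cons_of_ne_nil
        (h.ne p (hJK.mem_iff.2 (List.mem_append_left _ hp)))
      exact ⟨c, rfl⟩
    obtain ⟨p, p', J', z, hperm, hzC, hzp, hzp'⟩ := exists_two_sharing J f C
      (fun p hp => by
        obtain ⟨x, hx⟩ := hhead p hp
        obtain ⟨z, hz⟩ := card_pos.1 (lt_of_lt_of_le (Nat.succ_pos r) (hdeg p hp x (Or.inl hx)))
        exact ⟨z, (mem_filter.1 hz).1, by simp only [f, hx, Option.elim_some]; exact hz⟩) hC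
    have hpJ : p ∈ J := hperm.mem_iff.2 (by simp)
    have hpJ' : p' ∈ J := hperm.mem_iff.2 (by simp)
    obtain ⟨x, hx⟩ := hhead p hpJ
    obtain ⟨y, hy⟩ := hhead p' hpJ'
    simp only [f, hx, hy, Option.elim_some, mem_filter] at hzp hzp'
    obtain ⟨hzU, hzW⟩ := hCm z hzC
    simp only [mem_union, not_or] at hzW
    have hperm' : ps.Perm (p :: p' :: (J' ++ K)) := hJK.trans (hperm.append_right K)
    obtain ⟨h', hσ⟩ := h.join hperm' hx hy (l := [z]) (by simp) (List.nodup_singleton z)
      (by simp [hzU, hzW.1])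
      (fun e he w hw hwe => by
        rw [List.mem_singleton] at hw
        exact hzW.2 (mem_innerSet.2 ⟨e, he, hw ▸ hwe⟩))
      (by simp [hzp.2, hzp'.2.symm])
    have hst := steps_join hperm' hx hy
    obtain ⟨ps', ear', h1, h2, h3⟩ := ih _ ((p.reverse ++ p') :: J') K _ (C.erase z) h'
      (List.Perm.refl _)
      (fun e he => by
        rcases eq_or_ne e s(x, y) with rfl | hne
        · simp; omega
        · rw [Function.update_of_ne hne]
          exact hl e ((hst e he).resolve_left hne))
      (by
        have := hperm.length_eq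
        have := card_pos.2 ⟨z, hzC⟩
        rw [card_erase_of_mem hzC]
        simp only [List.length_cons] at *
        omega)
      (fun w hw => by
        obtain ⟨hwU, hwW⟩ := hCm w (mem_of_mem_erase hw)
        simp only [mem_union, not_or] at hwW ⊢
        refine ⟨hwU, hwW.1, fun hin => ?_⟩
        obtain ⟨e', he', hin'⟩ := mem_innerSet.1 hin
        rcases eq_or_ne e' s(x, y) with rfl | hne
        · simp only [Function.update_self, List.mem_singleton] at hin'
          exact (mem_erase.1 hw).1 hin'
        · rw [Function.update_of_ne hne] at hin'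
          exact hwW.2 (mem_innerSet.2 ⟨e', (hst e' he').resolve_left hne, hin'⟩))
      (fun P hP w hw => by
        have key : r + 1 ≤ (C.filter fun z => G.Adj w z).card := by
          rcases List.mem_cons.1 hP with rfl | hP
          · rcases hw with hw | hw
            · refine hdeg p hpJ w (Or.inr ?_)
              rw [List.head?_append, List.head?_reverse] at hw
              cases hp0 : p.getLast? with
              | none => simp [List.getLast?_eq_none_iff.1 hp0] at hx
              | some u => rw [hp0] at hw; simpa using hw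
            · refine hdeg p' hpJ' w (Or.inr ?_)
              rw [List.getLast?_append] at hw
              cases hp0 : p'.getLast? with
              | none => simp [List.getLast?_eq_none_iff.1 hp0] at hy
              | some u => rw [hp0] at hw; simpa using hw
          · exact hdeg P (hperm.mem_iff.2 (by simp [hP])) w hw
        rw [filter_erase]
        have := pred_card_le_card_erase (s := C.filter fun z => G.Adj w z) (a := z)
        omega)
    exact ⟨ps', ear', h1, h2, by simp at hσ h3 ⊢; omega⟩

/-- The property of ends of different pieces behind the roots: no path outside `W` joins them. -/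
def NoJoin [DecidableEq V] (G : SimpleGraph V) (U B : Finset V) (d : ℕ) (pieces : List (List V))
    (ear : Sym2 V → List V) : Prop :=
  ∀ p ∈ pieces, ∀ p' ∈ pieces, p ≠ p' → ∀ x x', IsEnd p x → IsEnd p' x' →
    ∀ l : List V, l.Nodup → (∀ z ∈ l, z ∈ U \ (B ∪ innerSet pieces ear)) →
    (x :: (l ++ [x'])).IsChain G.Adj → 2 ≤ l.length → l.length + 2 ≤ d → False

/-- **Roots.** Every piece of a largest system receives its own root; the system is kept. -/
theorem roots_sys [DecidableEq V] (h : Setup G U d a) (hd : 6 ≤ d) (hB : Blob G d B) (hBU : B ⊆ U) :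
    ∃ (pieces : List (List V)) (ear : Sym2 V → List V) (Z : Finset V) (own : V → V),
      EarSys G U B pieces ear ∧ (∀ e ∈ pieces.flatMap edgesOf, 2 ≤ (ear e).length) ∧
      sigma pieces ear + B.card ≤ d ∧
      (B ∪ innerSet pieces ear).card = B.card + sigma pieces ear ∧
      NoJoin G U B d pieces ear ∧ Z.card = pieces.length ∧
      RootSys G U B d Z.card (B ∪ innerSet pieces ear) Z own := by
  classical
  obtain ⟨hm1, hm2⟩ := hB.margin
  have hblt := hB.2.1
  -- a system with as much interior as possible below `d + 1 - |B|`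
  let P : ℕ → Prop := fun n => ∃ ps ear, EarSys G U B ps ear ∧
    (∀ e ∈ ps.flatMap edgesOf, 2 ≤ (ear e).length) ∧ sigma ps ear = n
  have h0 : P 0 := by
    obtain ⟨h1, h2⟩ := EarSys.singletons G U B fun _ => []
    refine ⟨_, _, h1, ?_, h2⟩
    intro e he
    simp [edgesOf] at he
  obtain ⟨pieces, ear, hS, htwo, hn⟩ :=
    Nat.findGreatest_spec (P := P) (Nat.zero_le (d - B.card)) h0
  have hσ : sigma pieces ear + B.card ≤ d := by
    have := Nat.findGreatest_le (P := P) (d - B.card)
    omega
  have hmax : ∀ ps ear', EarSys G U B ps ear' → (∀ e ∈ ps.flatMap edgesOf, 2 ≤ (ear' e).length) →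
      sigma ps ear' + B.card ≤ d → sigma ps ear' ≤ sigma pieces ear := fun ps ear' h1 h2 h3 =>
    hn ▸ Nat.le_findGreatest (by omega) ⟨ps, ear', h1, h2, rfl⟩
  have hI : innerSet pieces ear ⊆ U \ B := fun z hz => by
    obtain ⟨e, he, hze⟩ := mem_innerSet.1 hz
    exact mem_sdiff.2 (hS.ear_mem e he z hze)
  let W := B ∪ innerSet pieces ear
  have hWU : W ⊆ U := union_subset hBU (hI.trans sdiff_subset)
  have hWc : W.card = B.card + sigma pieces ear := by
    have hd' : Disjoint B (innerSet pieces ear) :=
      disjoint_left.2 fun z hz hz' => (mem_sdiff.1 (hI hz')).2 hz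
    rw [card_union_of_disjoint hd']
    congr 1
    rw [innerSet, card_biUnion fun e he e' he' hne => disjoint_left.2 fun z hz hz' =>
      hS.ear_disj e (List.mem_toFinset.1 he) e' (List.mem_toFinset.1 he') hne z
        (List.mem_toFinset.1 hz) (List.mem_toFinset.1 hz'),
      sigma, ← List.sum_toFinset _ (steps_nodup hS.nodup)]
    exact Finset.sum_congr rfl fun e he =>
      List.toFinset_card_of_nodup (hS.ear_nodup e (List.mem_toFinset.1 he))
  have hshort : ∀ e ∈ pieces.flatMap edgesOf, (ear e).length < d + 1 - B.card := fun e he => by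
    have : (ear e).length ≤ sigma pieces ear :=
      List.le_sum_of_mem (List.mem_map.2 ⟨e, he, rfl⟩)
    omega
  have hendB : ∀ p ∈ pieces, ∀ x, IsEnd p x → x ∈ B := fun p hp x hx =>
    (hS.cover x).1 (List.mem_flatten.2 ⟨p, hp,
      hx.elim List.mem_of_head? List.mem_of_getLast?⟩)
  have huniq : ∀ p ∈ pieces, ∀ p' ∈ pieces, ∀ x, x ∈ p → x ∈ p' → p = p' := by
    intro p hp p' hp' x hx hx'
    by_contra hne
    have hperm : pieces.Perm (p :: p' :: (pieces.erase p).erase p') :=
      (List.perm_cons_erase hp).trans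
        ((List.perm_cons_erase ((List.mem_erase_of_ne (Ne.symm hne)).2 hp')).cons p)
    have := hperm.flatten.nodup_iff.1 hS.nodup
    rw [List.flatten_cons, List.flatten_cons, List.nodup_append] at this
    exact this.2.2 x hx x (List.mem_append_left _ hx') rfl
  -- ends of different pieces are not joined outside `W`
  have hjoin : ∀ p ∈ pieces, ∀ p' ∈ pieces, p ≠ p' → ∀ x x', IsEnd p x → IsEnd p' x' →
      ∀ l : List V, l.Nodup → (∀ z ∈ l, z ∈ U \ W) → (x :: (l ++ [x'])).IsChain G.Adj →
      2 ≤ l.length → l.length + 2 ≤ d → False := by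
    intro p hp p' hp' hne x x' hx hx' l hln hlm hlc hl2 hld
    have hlB : ∀ z ∈ l, z ∉ B := fun z hz hzB =>
      (mem_sdiff.1 (hlm z hz)).2 (mem_union_left _ hzB)
    have hxne : x ≠ x' := fun e => hne (huniq p hp p' hp' x
      (hx.elim List.mem_of_head? List.mem_of_getLast?)
      (e ▸ hx'.elim List.mem_of_head? List.mem_of_getLast?))
    by_cases hlq : d + 1 - B.card ≤ l.length
    · exact single_ear h hd hB (hendB p hp x hx) (hendB p' hp' x' hx') hxne hln hlB hlc hlq hld
    obtain ⟨P₁, hP₁, hp₁, he₁⟩ := hx.turn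
    obtain ⟨P₂, hP₂, hp₂, he₂⟩ := hx'.turn
    have hperm : pieces.Perm (p :: p' :: (pieces.erase p).erase p') :=
      (List.perm_cons_erase hp).trans
        ((List.perm_cons_erase ((List.mem_erase_of_ne (Ne.symm hne)).2 hp')).cons p)
    obtain ⟨hT, hTσ⟩ := hS.rearrange (pieces' := P₁ :: P₂ :: (pieces.erase p).erase p')
      (by
        refine List.Perm.trans ?_ hperm.flatten.symm
        simp only [List.flatten_cons]
        exact hp₁.append (hp₂.append_right _))
      (by
        refine List.Perm.trans ?_ (hperm.flatMap_right edgesOf).symm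
        simp only [List.flatMap_cons]
        exact he₁.append (he₂.append_right _))
      (fun q hq => by
        rcases List.mem_cons.1 hq with rfl | hq
        · rintro rfl; simp at hP₁
        rcases List.mem_cons.1 hq with rfl | hq
        · rintro rfl; simp at hP₂
        · exact hS.ne q (hperm.mem_iff.2 (by simp [hq])))
    have hold : ∀ e ∈ (P₁ :: P₂ :: (pieces.erase p).erase p').flatMap edgesOf,
        e ∈ pieces.flatMap edgesOf := by
      intro e he
      rw [(hperm.flatMap_right edgesOf).mem_iff]
      simp only [List.flatMap_cons, List.mem_append] at he ⊢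
      rw [he₁.mem_iff, he₂.mem_iff] at he
      exact he
    obtain ⟨h', hσ'⟩ := hT.join (List.Perm.refl _) hP₁ hP₂ (l := l)
      (by rintro rfl; simp at hl2) hln (fun z hz => ⟨(mem_sdiff.1 (hlm z hz)).1, hlB z hz⟩)
      (fun e he z hz hze =>
        (mem_sdiff.1 (hlm z hz)).2 (mem_union_right _ (mem_innerSet.2 ⟨e, hold e he, hze⟩))) hlc
    have hst := steps_join (List.Perm.refl _) hP₁ hP₂ (rest := (pieces.erase p).erase p')
    by_cases hbig : d + 1 - B.card ≤ sigma pieces ear + l.length
    · refine sys_cycle h hB h' (fun e he => ?_) (by omega)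
      rcases eq_or_ne e s(x, x') with rfl | hne'
      · simp; omega
      · rw [Function.update_of_ne hne']
        exact hshort e (hold e ((hst e he).resolve_left hne'))
    · have := hmax _ _ h' (fun e he => by
        rcases eq_or_ne e s(x, x') with rfl | hne'
        · simpa using hl2
        · rw [Function.update_of_ne hne']
          exact htwo e (hold e ((hst e he).resolve_left hne'))) (by omega)
      omega
  -- the outside neighbours of the ends of a piece
  let N : List V → Finset V := fun p => (U \ W).filter fun z => ∃ x, IsEnd p x ∧ G.Adj x z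
  have hN : ∀ p ∈ pieces, ∀ x, IsEnd p x →
      d + 1 - B.card - sigma pieces ear ≤ ((N p).filter fun z => G.Adj x z).card := by
    intro p hp x hx
    have hxW : x ∈ W := mem_union_left _ (hendB p hp x hx)
    have h1 := h.deg x (hWU hxW)
    have h2 : degIn G U x ≤ ((N p).filter fun z => G.Adj x z).card + (W.erase x).card := by
      refine le_trans (card_le_card fun y hy => ?_) (card_union_le _ _)
      rw [mem_filter] at hy
      by_cases hyW : y ∈ W
      · exact mem_union_right _ (mem_erase.2 ⟨hy.2.ne', hyW⟩)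
      · exact mem_union_left _ (mem_filter.2
          ⟨mem_filter.2 ⟨mem_sdiff.2 ⟨hy.1, hyW⟩, x, hx, hy.2⟩, hy.2⟩)
    rw [card_erase_of_mem hxW] at h2
    have := card_pos.2 ⟨x, hxW⟩
    omega
  have hpn := pieces_nodup hS.nodup hS.ne
  obtain ⟨f, hf, hfm⟩ : ∃ f : {p // p ∈ pieces} → V,
      Function.Injective f ∧ ∀ p, f p ∈ N p.1 := by
    refine (all_card_le_biUnion_card_iff_exists_injective fun p : {p // p ∈ pieces} => N p.1).1
      fun J => ?_
    by_contra hlt
    push Not at hlt
    let J' := pieces.filter fun p => decide (p ∈ J.map (Function.Embedding.subtype _))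
    let K' := pieces.filter fun p => !decide (p ∈ J.map (Function.Embedding.subtype _))
    have hlen : J'.length = J.card := by
      rw [← List.toFinset_card_of_nodup (hpn.filter _), ← card_map (Function.Embedding.subtype _)]
      congr 1
      ext p
      simp only [List.mem_toFinset, List.mem_filter, decide_eq_true_eq]
      exact ⟨fun hp => hp.2, fun hp => by
        obtain ⟨y, -, rfl⟩ := mem_map.1 hp; exact ⟨y.2, hp⟩⟩
    obtain ⟨ps', ear', h1, h2, h3⟩ := EarSys.join_short (q := d + 1 - B.card) (by omega)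
      (d + 1 - B.card - sigma pieces ear) pieces J' K' ear (J.biUnion fun p => N p.1) hS
      (List.filter_append_perm _ pieces).symm hshort (hlen ▸ hlt)
      (fun z hz => by
        obtain ⟨p, -, hzp⟩ := mem_biUnion.1 hz
        exact mem_sdiff.1 (mem_filter.1 hzp).1)
      (fun p hp x hx => by
        obtain ⟨hpp, hpJ⟩ := List.mem_filter.1 hp
        obtain ⟨y, hy, rfl⟩ := mem_map.1 (of_decide_eq_true hpJ)
        exact (hN _ hpp x hx).trans (card_le_card (filter_subset_filter _
          (subset_biUnion_of_mem (fun p : {p // p ∈ pieces} => N p.1) hy))))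
    exact sys_cycle h hB h1 h2 (by omega)
  have hown : ∀ p, ∃ x, IsEnd p.1 x ∧ G.Adj x (f p) := fun p => (mem_filter.1 (hfm p)).2
  choose e he hea using hown
  have : Nonempty {p // p ∈ pieces} := by
    obtain ⟨x, hx⟩ := hB.1
    obtain ⟨p, hp, -⟩ := List.mem_flatten.1 ((hS.cover x).2 hx)
    exact ⟨⟨p, hp⟩⟩
  have hinv : ∀ p, Function.invFun f (f p) = p := Function.leftInverse_invFun hf
  have hc := hS.count
  have hk := EarSys.mul_le_sigma htwo
  have hZc : (pieces.attach.toFinset.image f).card = pieces.length := by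
    rw [card_image_of_injective _ hf, List.toFinset_card_of_nodup hpn.attach, List.length_attach]
  refine ⟨pieces, ear, pieces.attach.toFinset.image f, fun z => e (Function.invFun f z), hS, htwo,
    hσ, hWc, hjoin, hZc, ⟨subset_union_left, hWU, hWc.trans_le (by omega), ?_, rfl, ?_, ?_, ?_, ?_⟩⟩
  · intro z hz
    obtain ⟨p, -, rfl⟩ := mem_image.1 hz
    exact (mem_filter.1 (hfm _)).1
  · intro z hz z' hz' heq
    obtain ⟨p, -, rfl⟩ := mem_image.1 hz
    obtain ⟨p', -, rfl⟩ := mem_image.1 hz'
    simp only [hinv] at heq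
    have h2 := he p'
    rw [← heq] at h2
    exact congrArg f (Subtype.ext (huniq _ p.2 _ p'.2 _
      ((he p).elim List.mem_of_head? List.mem_of_getLast?)
      (h2.elim List.mem_of_head? List.mem_of_getLast?)))
  · intro z hz
    obtain ⟨p, -, rfl⟩ := mem_image.1 hz
    simp only [hinv]
    exact ⟨hendB _ p.2 _ (he p), (hea p).symm⟩
  · intro z hz z' hz' hne n hnd hpath
    obtain ⟨p, -, rfl⟩ := mem_image.1 hz
    obtain ⟨p', -, rfl⟩ := mem_image.1 hz'
    obtain ⟨l, hln, hlc, hlh, hll, hlm, rfl⟩ := hpath
    refine hjoin _ p.2 _ p'.2 (fun e' => hne (congrArg f (Subtype.ext e'))) _ _ (he p) (he p') l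
      hln hlm ?_ ?_ hnd
    · refine List.isChain_cons.2 ⟨fun w hw => ?_, List.isChain_append.2
        ⟨hlc, List.isChain_singleton _, fun u hu w hw => ?_⟩⟩
      · rw [List.head?_append, hlh, Option.some_or] at hw
        obtain rfl := Option.mem_some_iff.1 hw
        exact hea p
      · rw [hll] at hu
        obtain rfl := Option.mem_some_iff.1 hu
        obtain rfl : e p' = w := by simpa using hw
        exact (hea p').symm
    · cases l with
      | nil => simp at hlh
      | cons c t =>
        cases t with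
        | nil => simp at hlh hll; exact absurd (hlh.symm.trans hll) hne
        | cons => simp
  · intro H hH hHU h₁ hh₁ h₂ hh₂ hne z₁ hz₁ z₂ hz₂ hzne ha₁ ha₂
    obtain ⟨x₁, S₁, x₂, S₂, hxne, hl₁, hl₂, hdisj⟩ := hS.two_legs hz₁ hz₂ hzne
    obtain ⟨hH1, hH2⟩ := hH.margin
    have hSn : (S₁ ++ S₂).Nodup := List.nodup_append.2
      ⟨hl₁.nodup, hl₂.nodup, fun w hw w' hw' e => hdisj w hw (e ▸ hw')⟩
    have hSc : S₁.length + S₂.length ≤ sigma pieces ear := by
      refine le_trans ?_ (card_innerSet_le (ear := ear) hS.nodup)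
      rw [← List.length_append, ← List.toFinset_card_of_nodup hSn]
      refine card_le_card fun w hw => ?_
      rcases List.mem_append.1 (List.mem_toFinset.1 hw) with hw | hw
      exacts [hl₁.sub w hw, hl₂.sub w hw]
    obtain ⟨R, hRn, hRc, hRh, hRl, hRm, hRlen⟩ := exists_path_card (G := G) (s := H)
      (n := max 3 (d + 1 - B.card - (S₁.length + S₂.length))) hH.2.2 hH2 (by omega) hh₁ hh₂ hne
      (le_max_left _ _) (by omega)
    have hRW : ∀ z ∈ R, z ∉ W := fun z hz => (mem_sdiff.1 (hHU (hRm z hz))).2
    have hS₂r : (S₂.reverse ++ [x₂]).IsChain G.Adj := by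
      have : (x₂ :: S₂).reverse.IsChain G.Adj := by
        rw [List.isChain_reverse]; exact hl₂.chain.imp fun _ _ e => e.symm
      simpa using this
    have hRne : R ≠ [] := by rintro rfl; simp at hRh
    refine single_ear h hd hB hl₁.mem hl₂.mem hxne (P := S₁ ++ R ++ S₂.reverse) ?_ ?_ ?_
      ?_ ?_
    · refine List.nodup_append.2 ⟨List.nodup_append.2 ⟨hl₁.nodup, hRn, fun w hw w' hw' e => ?_⟩,
        List.nodup_reverse.2 hl₂.nodup, fun w hw w' hw' e => ?_⟩
      · exact hRW w' hw' (mem_union_right _ (e ▸ hl₁.sub w hw))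
      · subst e
        rw [List.mem_reverse] at hw'
        rcases List.mem_append.1 hw with hw | hw
        · exact hdisj w hw hw'
        · exact hRW w hw (mem_union_right _ (hl₂.sub w hw'))
    · intro z hz hzB
      simp only [List.mem_append, List.mem_reverse] at hz
      rcases hz with (hz | hz) | hz
      · exact (mem_sdiff.1 (hI (hl₁.sub z hz))).2 hzB
      · exact hRW z hz (mem_union_left _ hzB)
      · exact (mem_sdiff.1 (hI (hl₂.sub z hz))).2 hzB
    · have hmid : (R ++ (S₂.reverse ++ [x₂])).IsChain G.Adj := by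
        refine List.isChain_append.2 ⟨hRc, hS₂r, fun u hu w hw => ?_⟩
        rw [hRl] at hu
        obtain rfl := Option.mem_some_iff.1 hu
        have : (S₂.reverse ++ [x₂]).head? = some z₂ := by
          rw [← List.reverse_cons, List.head?_reverse, hl₂.last]
        rw [this] at hw
        obtain rfl := Option.mem_some_iff.1 hw
        exact ha₂
      have : ((x₁ :: S₁) ++ (R ++ (S₂.reverse ++ [x₂]))).IsChain G.Adj := by
        refine List.isChain_append.2 ⟨hl₁.chain, hmid, fun u hu w hw => ?_⟩
        rw [hl₁.last] at hu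
        obtain rfl := Option.mem_some_iff.1 hu
        rw [List.head?_append, hRh, Option.some_or] at hw
        obtain rfl := Option.mem_some_iff.1 hw
        exact ha₁.symm
      simpa using this
    · simp only [List.length_append, List.length_reverse]; omega
    · simp only [List.length_append, List.length_reverse]; omega

/-- **Roots**, counted. -/
theorem roots [DecidableEq V] (h : Setup G U d a) (hd : 6 ≤ d) (hB : Blob G d B) (hBU : B ⊆ U) :
    ∃ (W Z : Finset V) (own : V → V),
      RootSys G U B d Z.card W Z own ∧ 3 * B.card ≤ 2 * Z.card + W.card := by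
  obtain ⟨pieces, ear, Z, own, hS, htwo, -, hWc, -, hZc, hR⟩ := roots_sys h hd hB hBU
  have := hS.count
  have := EarSys.mul_le_sigma htwo
  exact ⟨_, Z, own, hR, by omega⟩

end Vale.Agent.P048C
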