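import Vale.Agent.P048C.Base
import Vale.Agent.P048C.Necklace
import Vale.Agent.P048C.Pancon

/-!
# Systems of ears at a blob

The blob is cut into pieces; each step of a piece carries a nonempty ear outside the blob. If the
ears have enough interior and none has too much, some of them and part of the blob give a cycle
on exactly `d + 1` vertices.
-/

namespace Vale.Agent.P048C

open Finset

variable {V : Type*} {G : SimpleGraph V} {U B : Finset V} {d a : ℕ}
  {pieces : List (List V)} {ear : Sym2 V → List V}

/-- The total number of inner vertices of the ears. -/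
def sigma (pieces : List (List V)) (ear : Sym2 V → List V) : ℕ :=
  ((pieces.flatMap edgesOf).map fun e => (ear e).length).sum

/-- Pieces covering exactly `B`, with an ear in `U` outside `B` at every step. -/
structure EarSys (G : SimpleGraph V) (U B : Finset V) (pieces : List (List V))
    (ear : Sym2 V → List V) : Prop where
  nodup : pieces.flatten.Nodup
  cover : ∀ z, z ∈ pieces.flatten ↔ z ∈ B
  ne : ∀ p ∈ pieces, p ≠ []
  ear_ne : ∀ e ∈ pieces.flatMap edgesOf, ear e ≠ []
  ear_nodup : ∀ e ∈ pieces.flatMap edgesOf, (ear e).Nodup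
  ear_mem : ∀ e ∈ pieces.flatMap edgesOf, ∀ z ∈ ear e, z ∈ U ∧ z ∉ B
  ear_chain : ∀ e ∈ pieces.flatMap edgesOf, ∃ u v, e = s(u, v) ∧
    (u :: (ear e ++ [v])).IsChain G.Adj
  ear_disj : ∀ e ∈ pieces.flatMap edgesOf, ∀ e' ∈ pieces.flatMap edgesOf, e ≠ e' →
    ∀ z ∈ ear e, z ∉ ear e'

theorem Blob.margin (hB : Blob G d B) : d + 1 + 2 ≤ 2 * B.card ∧ B.card + 2 ≤ 2 * (d / 2 + 1) := by
  classical
  obtain ⟨⟨x, hx⟩, hlt, hdeg⟩ := hB
  have h1 := hdeg x hx
  have h2 : degIn G B x < B.card := Finset.card_lt_card (Finset.filter_ssubset.2 ⟨x, hx, by simp⟩)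
  omega

theorem steps_nodup (h : pieces.flatten.Nodup) : (pieces.flatMap edgesOf).Nodup := by
  have : ∀ ps : List (List V), (ps.flatMap edgesOf).Sublist (edgesOf ps.flatten) := by
    intro ps
    induction ps with
    | nil => simp [edgesOf]
    | cons P ps ih =>
      rw [List.flatMap_cons, List.flatten_cons]
      exact ((List.Sublist.refl _).append ih).trans (edgesOf_sublist_append P _)
  exact (this pieces).nodup (nodup_edgesOf h)

theorem length_edgesOf : ∀ l : List V, (edgesOf l).length = l.length - 1
  | [] => rfl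
  | [_] => rfl
  | a :: b :: l => by
    have := length_edgesOf (b :: l)
    simp [edgesOf] at this ⊢
    omega

/-- One piece per vertex and no ears. -/
theorem EarSys.singletons (G : SimpleGraph V) (U B : Finset V) (ear : Sym2 V → List V) :
    EarSys G U B (B.toList.map fun z => [z]) ear ∧
      sigma (B.toList.map fun z => [z]) ear = 0 := by
  have h : (B.toList.map fun z => [z]).flatMap edgesOf = [] := by simp [edgesOf]
  refine ⟨⟨?_, ?_, ?_, ?_, ?_, ?_, ?_, ?_⟩, by simp [sigma, h]⟩
  · simp [← List.flatMap_def, Finset.nodup_toList]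
  · simp [← List.flatMap_def]
  · intro p hp
    obtain ⟨z, -, rfl⟩ := List.mem_map.1 hp
    simp
  all_goals (intro e he; rw [h] at he; exact absurd he List.not_mem_nil)

/-- The number of steps and the number of pieces add up to `|B|`. -/
theorem EarSys.count (h : EarSys G U B pieces ear) :
    (pieces.flatMap edgesOf).length + pieces.length = B.card := by
  classical
  have hB : pieces.flatten.toFinset = B := by ext z; rw [List.mem_toFinset]; exact h.cover z
  rw [← hB, List.toFinset_card_of_nodup h.nodup]
  have hne := h.ne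
  clear h hB
  induction pieces with
  | nil => rfl
  | cons p ps ih =>
    have hp : 0 < p.length := List.length_pos_of_ne_nil (hne p List.mem_cons_self)
    have := ih fun q hq => hne q (List.mem_cons_of_mem _ hq)
    simp [length_edgesOf] at this ⊢
    omega

/-- If every ear has at least `m` inner vertices, there are at most `sigma / m` of them. -/
theorem EarSys.mul_le_sigma {m : ℕ} (hm : ∀ e ∈ pieces.flatMap edgesOf, m ≤ (ear e).length) :
    (pieces.flatMap edgesOf).length * m ≤ sigma pieces ear := by
  have := List.card_nsmul_le_sum ((pieces.flatMap edgesOf).map fun e => (ear e).length) m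
    fun x hx => by
      obtain ⟨e, he, rfl⟩ := List.mem_map.1 hx
      exact hm e he
  simpa [sigma] using this

/-- Cutting a piece at one of its steps. -/
theorem EarSys.split {A C : List V} {u v : V} {ps₁ ps₂ : List (List V)}
    (h : EarSys G U B (ps₁ ++ (A ++ u :: v :: C) :: ps₂) ear) :
    EarSys G U B (ps₁ ++ (A ++ [u]) :: (v :: C) :: ps₂) ear ∧
      sigma (ps₁ ++ (A ++ [u]) :: (v :: C) :: ps₂) ear + (ear s(u, v)).length =
        sigma (ps₁ ++ (A ++ u :: v :: C) :: ps₂) ear := by
  have hf : (ps₁ ++ (A ++ [u]) :: (v :: C) :: ps₂).flatten =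
      (ps₁ ++ (A ++ u :: v :: C) :: ps₂).flatten := by simp
  have hsub : ∀ e ∈ (ps₁ ++ (A ++ [u]) :: (v :: C) :: ps₂).flatMap edgesOf,
      e ∈ (ps₁ ++ (A ++ u :: v :: C) :: ps₂).flatMap edgesOf := by
    intro e he
    simp only [List.flatMap_append, List.flatMap_cons, edgesOf_append, List.mem_append,
      List.mem_cons] at he ⊢
    tauto
  refine ⟨⟨hf ▸ h.nodup, hf ▸ h.cover, fun p hp => ?_, fun e he => h.ear_ne e (hsub e he),
    fun e he => h.ear_nodup e (hsub e he), fun e he => h.ear_mem e (hsub e he),
    fun e he => h.ear_chain e (hsub e he),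
    fun e he e' he' => h.ear_disj e (hsub e he) e' (hsub e' he')⟩, ?_⟩
  · simp only [List.mem_append, List.mem_cons] at hp
    rcases hp with hp | rfl | rfl | hp
    exacts [h.ne p (List.mem_append_left _ hp), by simp, by simp,
      h.ne p (List.mem_append_right _ (List.mem_cons_of_mem _ hp))]
  · simp [sigma, edgesOf_append]
    omega

/-- Two pieces joined at their first vertices by a new ear. -/
theorem EarSys.join [DecidableEq V] (h : EarSys G U B pieces ear) {p p' : List V}
    {rest : List (List V)} (hperm : pieces.Perm (p :: p' :: rest)) {x x' : V}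
    (hx : p.head? = some x) (hx' : p'.head? = some x') {l : List V} (hl0 : l ≠ []) (hln : l.Nodup)
    (hlm : ∀ z ∈ l, z ∈ U ∧ z ∉ B) (hnew : ∀ e ∈ pieces.flatMap edgesOf, ∀ z ∈ l, z ∉ ear e)
    (hlc : (x :: (l ++ [x'])).IsChain G.Adj) :
    EarSys G U B ((p.reverse ++ p') :: rest) (Function.update ear s(x, x') l) ∧
      sigma ((p.reverse ++ p') :: rest) (Function.update ear s(x, x') l) =
        sigma pieces ear + l.length := by
  obtain ⟨t, rfl⟩ : ∃ t, p = x :: t := by
    cases p with
    | nil => simp at hx
    | cons c t => exact ⟨t, by simp at hx; rw [hx]⟩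
  obtain ⟨t', rfl⟩ : ∃ t', p' = x' :: t' := by
    cases p' with
    | nil => simp at hx'
    | cons c t' => exact ⟨t', by simp at hx'; rw [hx']⟩
  have he : edgesOf ((x :: t).reverse ++ x' :: t') =
      (edgesOf (x :: t)).reverse ++ s(x, x') :: edgesOf (x' :: t') := by
    rw [List.reverse_cons, List.append_assoc, List.singleton_append, edgesOf_append,
      ← List.reverse_cons, edgesOf_reverse]
  have hflat : (((x :: t).reverse ++ x' :: t') :: rest).flatten.Perm pieces.flatten := by
    refine List.Perm.trans ?_ hperm.flatten.symm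
    simp only [List.flatten_cons, List.append_assoc]
    exact (List.reverse_perm _).append_right _
  have hnd : (((x :: t).reverse ++ x' :: t') :: rest).flatten.Nodup := hflat.nodup_iff.2 h.nodup
  have hst : ((((x :: t).reverse ++ x' :: t') :: rest).flatMap edgesOf).Perm
      (s(x, x') :: pieces.flatMap edgesOf) := by
    refine List.Perm.trans ?_ ((hperm.flatMap_right edgesOf).symm.cons _)
    rw [List.flatMap_cons, he, List.flatMap_cons, List.flatMap_cons, List.append_assoc,
      List.cons_append]
    exact List.perm_middle.trans (((List.reverse_perm _).append_right _).cons _)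
  have hnot : s(x, x') ∉ pieces.flatMap edgesOf :=
    (List.nodup_cons.1 (hst.nodup_iff.1 (steps_nodup hnd))).1
  have hold : ∀ e ∈ pieces.flatMap edgesOf, Function.update ear s(x, x') l e = ear e :=
    fun e he' => Function.update_of_ne (fun e'' => hnot (by rw [← e'']; exact he')) _ _
  have hcases : ∀ e ∈ (((x :: t).reverse ++ x' :: t') :: rest).flatMap edgesOf,
      (e = s(x, x') ∧ Function.update ear s(x, x') l e = l) ∨
        (e ∈ pieces.flatMap edgesOf ∧ Function.update ear s(x, x') l e = ear e) := by
    intro e he'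
    rcases List.mem_cons.1 (hst.mem_iff.1 he') with rfl | h'
    · exact .inl ⟨rfl, Function.update_self _ _ _⟩
    · exact .inr ⟨h', hold e h'⟩
  refine ⟨⟨hnd, fun z => hflat.mem_iff.trans (h.cover z), fun q hq => ?_, fun e he' => ?_,
    fun e he' => ?_, fun e he' => ?_, fun e he' => ?_, fun e he' e' he'' hne => ?_⟩, ?_⟩
  · rcases List.mem_cons.1 hq with rfl | hq
    · simp
    · exact h.ne q (hperm.mem_iff.2 (by simp [hq]))
  · rcases hcases e he' with ⟨-, e'⟩ | ⟨h', e'⟩ <;> rw [e']
    exacts [hl0, h.ear_ne e h']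
  · rcases hcases e he' with ⟨-, e'⟩ | ⟨h', e'⟩ <;> rw [e']
    exacts [hln, h.ear_nodup e h']
  · rcases hcases e he' with ⟨-, e'⟩ | ⟨h', e'⟩ <;> rw [e']
    exacts [hlm, h.ear_mem e h']
  · rcases hcases e he' with ⟨rfl, e'⟩ | ⟨h', e'⟩ <;> rw [e']
    exacts [⟨x, x', rfl, hlc⟩, h.ear_chain e h']
  · rcases hcases e he' with ⟨rfl, e₁⟩ | ⟨h₁, e₁⟩ <;>
      rcases hcases e' he'' with ⟨rfl, e₂⟩ | ⟨h₂, e₂⟩
    · exact absurd rfl hne
    all_goals rw [e₁, e₂]
    · exact fun z hz => hnew e' h₂ z hz
    · exact fun z hz hz' => hnew e h₁ z hz' hz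
    · exact h.ear_disj e h₁ e' h₂ hne
  · rw [sigma, (hst.map fun e => (Function.update ear s(x, x') l e).length).sum_eq, List.map_cons,
      List.sum_cons, Function.update_self, List.map_congr_left fun e he' => by rw [hold e he'],
      sigma]
    omega

/-- Ears that cannot be spared give the cycle. -/
theorem cycle_of_tight (hB : Blob G d B) (h : EarSys G U B pieces ear)
    (hsmall : ∀ e ∈ pieces.flatMap edgesOf, (ear e).length < d + 1 - B.card)
    (hsig : d + 1 - B.card ≤ sigma pieces ear)
    (htight : ∀ e ∈ pieces.flatMap edgesOf,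
      sigma pieces ear < d + 1 - B.card + (ear e).length) :
    P048.Cyc G (d + 1) := by
  classical
  obtain ⟨hmarg, hmarg'⟩ := hB.margin
  have hblt := hB.2.1
  let ps := pieces.filter fun p => decide (2 ≤ p.length)
  have hsteps : ∀ L : List (List V),
      (L.filter fun p => decide (2 ≤ p.length)).flatMap edgesOf = L.flatMap edgesOf := by
    intro L
    induction L with
    | nil => rfl
    | cons p L ih =>
      by_cases hp : 2 ≤ p.length
      · simp [hp, ih]
      · have : edgesOf p = [] := List.length_eq_zero_iff.1 (by rw [length_edgesOf]; omega)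
        simp [hp, ih, this]
  have hends : ∀ L : List (List V),
      (L.filter fun p => decide (2 ≤ p.length)).flatten.length ≤ 2 * (L.flatMap edgesOf).length := by
    intro L
    induction L with
    | nil => simp
    | cons p L ih =>
      by_cases hp : 2 ≤ p.length
      · simp [hp, length_edgesOf] at ih ⊢; omega
      · simp [hp] at ih ⊢; omega
  have hps : (ps.flatMap edgesOf) = pieces.flatMap edgesOf := hsteps pieces
  have hsubl : ps.flatten.Sublist pieces.flatten := List.filter_sublist.flatten
  have hpn : ps.flatten.Nodup := hsubl.nodup h.nodup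
  have hpB : ps.flatten.toFinset ⊆ B := fun z hz =>
    (h.cover z).1 (hsubl.subset (List.mem_toFinset.1 hz))
  let r := sigma pieces ear - (d + 1 - B.card)
  let k := (pieces.flatMap edgesOf).length
  have hσ : sigma pieces ear = d + 1 - B.card + r := by simp only [r]; omega
  have hkr : k * (r + 1) ≤ sigma pieces ear := EarSys.mul_le_sigma fun e he => by
    have := htight e he
    simp only [r]; omega
  have hqr : r + 2 ≤ d + 1 - B.card := by
    by_cases hk0 : pieces.flatMap edgesOf = []
    · simp [sigma, hk0] at hsig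
      omega
    · obtain ⟨e, he⟩ := List.exists_mem_of_ne_nil _ hk0
      have := htight e he
      have := hsmall e he
      simp only [r] at *; omega
  have hkq : k + r ≤ d + 1 - B.card := by
    refine Nat.le_of_mul_le_mul_left
      (?_ : (r + 1) * (k + r) ≤ (r + 1) * (d + 1 - B.card)) (Nat.succ_pos r)
    rw [hσ] at hkr
    generalize d + 1 - B.card = q at hkr hqr
    have : r * (r + 2) ≤ r * q := Nat.mul_le_mul_left r hqr
    linarith
  have hfit : ps.flatten.toFinset.card + r ≤ B.card := by
    have h1 := Finset.card_le_card hpB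
    rcases Nat.eq_zero_or_pos r with h0 | hrpos
    · omega
    · have h3 := List.toFinset_card_le ps.flatten
      have h3' : ps.flatten.length ≤ 2 * k := hends pieces
      have h4 : 2 * k + r ≤ d + 1 - B.card + 2 := by
        refine Nat.le_of_mul_le_mul_left
          (?_ : (r + 1) * (2 * k + r) ≤ (r + 1) * (d + 1 - B.card + 2)) (Nat.succ_pos r)
        rw [hσ] at hkr
        generalize d + 1 - B.card = q at hkr hqr
        obtain ⟨u, hu⟩ : ∃ u, r = u + 1 := ⟨r - 1, by omega⟩
        have h5 : (r + 2) * u ≤ q * u := Nat.mul_le_mul_right u hqr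
        rw [hu] at hkr h5 ⊢
        linarith
      omega
  obtain ⟨S, hS₁, hS₂, hS⟩ := Finset.exists_subsuperset_card_eq (n := B.card - r) hpB
    (by omega) (by omega)
  have hdeg : ∀ x ∈ S, S.card + k ≤ 2 * degIn G S x := by
    intro x hx
    have h1 := degIn_le_sdiff (G := G) B (B \ S) x
    rw [Finset.sdiff_sdiff_eq_self hS₂, Finset.card_sdiff_of_subset hS₂] at h1
    have h2 := hB.2.2 x (hS₂ hx)
    omega
  have := exists_cycle_with_ears (G := G) (s := S) (pieces := ps) ear (by omega) hpn
    (fun z hz => hS₁ (List.mem_toFinset.2 hz)) (fun x hx => by rw [hps]; exact hdeg x hx)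
    (fun x hx => by have := hdeg x hx; omega) (hps ▸ h.ear_chain)
    (fun e he => ⟨h.ear_nodup e (hps ▸ he), fun z hz hzS =>
      (h.ear_mem e (hps ▸ he) z hz).2 (hS₂ hzS)⟩)
    (fun e he e' he' => h.ear_disj e (hps ▸ he) e' (hps ▸ he'))
  rw [hps] at this
  rwa [show S.card + ((pieces.flatMap edgesOf).map fun e => (ear e).length).sum = d + 1 by
    simp only [sigma] at hσ; omega] at this

/-- A system with enough interior and short ears gives the cycle. -/
theorem exists_cyc_of_earSys (hB : Blob G d B) (h : EarSys G U B pieces ear)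
    (hsmall : ∀ e ∈ pieces.flatMap edgesOf, (ear e).length < d + 1 - B.card)
    (hsig : d + 1 - B.card ≤ sigma pieces ear) : P048.Cyc G (d + 1) := by
  induction hn : sigma pieces ear using Nat.strong_induction_on generalizing pieces with
  | _ n ih =>
    subst hn
    by_cases ht : ∀ e ∈ pieces.flatMap edgesOf,
        sigma pieces ear < d + 1 - B.card + (ear e).length
    · exact cycle_of_tight hB h hsmall hsig ht
    push Not at ht
    obtain ⟨e, he, hle⟩ := ht
    have hpos : 0 < (ear e).length := List.length_pos_of_ne_nil (h.ear_ne e he)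
    obtain ⟨p, hp, hep⟩ := List.mem_flatMap.1 he
    obtain ⟨ps₁, ps₂, rfl⟩ := List.append_of_mem hp
    obtain ⟨u, v, A, C, rfl, rfl⟩ : ∃ u v A C, e = s(u, v) ∧ p = A ++ u :: v :: C := by
      induction e using Sym2.ind with
      | _ x y =>
        rcases pair_infix_of_mem_edgesOf hep with ⟨A, C, e'⟩ | ⟨A, C, e'⟩
        · exact ⟨x, y, A, C, rfl, by simp [← e']⟩
        · exact ⟨y, x, A, C, Sym2.eq_swap, by simp [← e']⟩
    obtain ⟨h', hσ⟩ := h.split
    refine ih _ (by omega) h' (fun e he' => hsmall e ?_) (by omega) rfl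
    simp only [List.flatMap_append, List.flatMap_cons, edgesOf_append, List.mem_append,
      List.mem_cons] at he' ⊢
    tauto

/-- **A system with enough interior and short ears is impossible.** -/
theorem sys_cycle (h : Setup G U d a) (hB : Blob G d B) (hS : EarSys G U B pieces ear)
    (hsmall : ∀ e ∈ pieces.flatMap edgesOf, (ear e).length < d + 1 - B.card)
    (hsig : d + 1 - B.card ≤ sigma pieces ear) : False :=
  h.noCyc (exists_cyc_of_earSys hB hS hsmall hsig)

/-- One long ear gives the cycle. -/
theorem exists_cyc_of_ear (hd : 6 ≤ d) (hB : Blob G d B) {x x' : V} (hx : x ∈ B) (hx' : x' ∈ B)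
    (hne : x ≠ x') {P : List V} (hn : P.Nodup) (hP : ∀ z ∈ P, z ∉ B)
    (hc : (x :: (P ++ [x'])).IsChain G.Adj)
    (hq : d + 1 - B.card ≤ P.length) (hp : P.length + 2 ≤ d) : P048.Cyc G (d + 1) := by
  classical
  obtain ⟨hmarg, hmarg'⟩ := hB.margin
  have hblt := hB.2.1
  obtain ⟨l, hln, hlc, hlh, hll, hls, hlen⟩ := exists_path_card (G := G) (s := B)
    (t := d / 2 + 1) (n := d + 1 - P.length) hB.2.2 hmarg' (by omega) hx' hx hne.symm
    (by omega) (by omega)
  obtain ⟨l', rfl⟩ : ∃ l', l = x' :: l' := by
    cases l with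
    | nil => simp at hlh
    | cons u l' => exact ⟨l', by simp at hlh; rw [hlh]⟩
  have hPne : P ≠ [] := by rintro rfl; simp at hq; omega
  obtain ⟨hh, hc'⟩ := List.isChain_cons.1 hc
  obtain ⟨hPc, -, hPl⟩ := List.isChain_append.1 hc'
  refine P048.cyc_of_list (by omega) x' (l' ++ P) ?_ ?_ ?_ ?_
  · simp only [List.length_cons, List.length_append] at hlen ⊢; omega
  · rw [← List.cons_append]
    exact List.nodup_append.2 ⟨hln, hn, fun u hu v hv huv => hP v hv (huv ▸ hls u hu)⟩
  · rw [← List.cons_append]
    refine List.isChain_append.2 ⟨hlc, hPc, fun u hu v hv => ?_⟩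
    rw [hll] at hu
    obtain rfl := Option.mem_some_iff.1 hu
    refine hh v ?_
    rw [List.head?_append, Option.mem_def.1 hv]
    rfl
  · intro z hz
    rw [← List.cons_append, List.getLast?_append, List.getLast?_eq_some_getLast hPne,
      Option.some_or] at hz
    exact hPl z (by rw [List.getLast?_eq_some_getLast hPne]; exact hz) x' rfl

/-- **One long ear is impossible.** -/
theorem single_ear (h : Setup G U d a) (hd : 6 ≤ d) (hB : Blob G d B) {x x' : V} (hx : x ∈ B)
    (hx' : x' ∈ B) (hne : x ≠ x') {P : List V} (hn : P.Nodup) (hP : ∀ z ∈ P, z ∉ B)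
    (hc : (x :: (P ++ [x'])).IsChain G.Adj)
    (hq : d + 1 - B.card ≤ P.length) (hp : P.length + 2 ≤ d) : False :=
  h.noCyc (exists_cyc_of_ear hd hB hx hx' hne hn hP hc hq hp)

end Vale.Agent.P048C
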